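import Mathlib

/-!
# Row 121, block FIN: common definitions

`A` is a unital C*-algebra with an isometric representation `ϖ` on a Hilbert space `H`, `p` a
projection of `A`; `Cor ϖ p ξ K`: `ξ ∈ pH` is a `K`-trace vector for the corner `pAp`;
`MU p n e`: `e` is a system of `n × n` matrix units with sum `p`; `CU p u`: `u` is a unitary of the
corner `pAp`; `RMod e S`: `S` is right modular over the span of the matrix units.
-/

set_option autoImplicit false

namespace Crest.Agent.R121.Fin

section
variable {A : Type*} [CStarAlgebra A]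
variable {H : Type*} [NormedAddCommGroup H] [InnerProductSpace ℂ H] [CompleteSpace H]

/-- `ξ ∈ pH` is a `K`-trace vector for the corner `pAp` -/
structure Cor (ϖ : A →⋆ₐ[ℂ] (H →L[ℂ] H)) (p : A) (ξ : H) (K : ℝ) : Prop where
  star_p : star p = p
  p_p : p * p = p
  p_ξ : ϖ p ξ = ξ
  K0 : 0 ≤ K
  hK : ∀ x, p * x = x → x * p = x → ‖ϖ x ξ‖ ^ 2 ≤ K * ‖ϖ (star x) ξ‖ ^ 2

/-- matrix units with sum `p` -/
structure MU (p : A) (n : ℕ) (e : Fin n → Fin n → A) : Prop where
  mul : ∀ i j k l, e i j * e k l = if j = k then e i l else 0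
  st : ∀ i j, star (e i j) = e j i
  sum : ∑ i, e i i = p

/-- right modular over the matrix units -/
def RMod {n : ℕ} (e : Fin n → Fin n → A) (S : A →L[ℂ] A) : Prop :=
  ∀ x i j, S (x * e i j) = S x * e i j

/-- unitary of the corner `pAp` -/
structure CU (p u : A) : Prop where
  st_mul : star u * u = p
  mul_st : u * star u = p
  left : p * u = u
  right : u * p = u

theorem CU.left' {p u : A} (hp : star p = p) (h : CU p u) : p * star u = star u := by
  have := congrArg star h.right
  rwa [star_mul, hp] at this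

theorem CU.right' {p u : A} (hp : star p = p) (h : CU p u) : star u * p = star u := by
  have := congrArg star h.left
  rwa [star_mul, hp] at this

theorem CU.star' {p u : A} (hp : star p = p) (h : CU p u) : CU p (star u) :=
  ⟨by rw [star_star]; exact h.mul_st, by rw [star_star]; exact h.st_mul, h.left' hp,
    h.right' hp⟩

theorem CU.mul' {p u v : A} (hu : CU p u) (hv : CU p v) : CU p (u * v) := by
  refine ⟨?_, ?_, ?_, ?_⟩
  · rw [star_mul, mul_assoc, ← mul_assoc (star u), hu.st_mul, hv.left, hv.st_mul]
  · rw [star_mul, mul_assoc, ← mul_assoc v, hv.mul_st, ← mul_assoc, hu.right,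
      hu.mul_st]
  · rw [← mul_assoc, hu.left]
  · rw [mul_assoc, hv.right]

theorem CU.neg' {p u : A} (hu : CU p u) : CU p (-u) := by
  refine ⟨?_, ?_, ?_, ?_⟩
  · rw [star_neg, neg_mul_neg, hu.st_mul]
  · rw [star_neg, neg_mul_neg, hu.mul_st]
  · rw [mul_neg, hu.left]
  · rw [neg_mul, hu.right]

theorem CU.one' {p : A} (hp : star p = p) (hpp : p * p = p) : CU p p :=
  ⟨by rw [hp, hpp], by rw [hp, hpp], hpp, hpp⟩

namespace MU

variable {p : A} {n : ℕ} {e : Fin n → Fin n → A}

theorem left (h : MU p n e) (i j : Fin n) : p * e i j = e i j := by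
  rw [← h.sum, Finset.sum_mul, Finset.sum_eq_single i]
  · rw [h.mul, if_pos rfl]
  · intro k _ hk
    rw [h.mul, if_neg hk]
  · intro hi
    exact absurd (Finset.mem_univ i) hi

theorem right (h : MU p n e) (i j : Fin n) : e i j * p = e i j := by
  rw [← h.sum, Finset.mul_sum, Finset.sum_eq_single j]
  · rw [h.mul, if_pos rfl]
  · intro k _ hk
    rw [h.mul, if_neg (Ne.symm hk)]
  · intro hi
    exact absurd (Finset.mem_univ j) hi

theorem star_p (h : MU p n e) : star p = p := by
  rw [← h.sum, star_sum]
  exact Finset.sum_congr rfl fun i _ => h.st i i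

theorem p_p (h : MU p n e) : p * p = p := by
  conv_lhs => rw [← h.sum, Finset.sum_mul]
  conv_rhs => rw [← h.sum]
  refine Finset.sum_congr rfl fun i _ => ?_
  rw [h.sum]
  exact h.right i i

/-- relabelling of matrix units by a permutation -/
theorem reindex (h : MU p n e) (σ : Fin n ≃ Fin n) : MU p n (fun i j => e (σ i) (σ j)) := by
  refine ⟨fun i j k l => ?_, fun i j => h.st _ _, ?_⟩
  · rw [h.mul]
    simp [σ.injective.eq_iff]
  · rw [← h.sum]
    exact Equiv.sum_comp σ (fun i => e i i)

end MU

end

end Crest.Agent.R121.Fin
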