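import Mathlib
import Crest.Agent.R121.Fin.Defs

/-!
# Row 121, block FIN: the unitaries of a corner span the corner
-/

set_option autoImplicit false
set_option linter.unusedSectionVars false

namespace Crest.Agent.R121.Fin

open scoped ComplexStarModule
open Complex

section
variable {A : Type*} [CStarAlgebra A]

/-- a self-adjoint contraction `h` of the corner `pAp` is the real part of a unitary of the
corner -/
theorem exists_CU_of_selfAdjoint {p h : A} (hs : star p = p) (hp : p * p = p) (hh : star h = h)
    (hn : ‖h‖ ≤ 1) (hl : p * h = h) : ∃ v : A, CU p v ∧ v + star v = (2 : ℂ) • h := by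
  let _ := CStarAlgebra.spectralOrder A
  let _ := CStarAlgebra.spectralOrderedRing A
  have hr : h * p = h := by
    have := congrArg star hl
    rwa [star_mul, hs, hh] at this
  set r : A := CFC.sqrt (1 - h ^ 2) with hrdef
  have hu : h + I • r ∈ unitary A := IsSelfAdjoint.self_add_I_smul_cfcSqrt_sub_sq_mem_unitary h hh hn
  have hrs : star r = r := (CFC.sqrt_nonneg (1 - h ^ 2 : A)).isSelfAdjoint
  have hcp : Commute (1 - h ^ 2) p := by
    have h1 : Commute h p := by
      change h * p = p * h
      rw [hr, hl]
    exact (Commute.one_left p).sub_left (h1.pow_left 2)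
  have hrp : r * p = p * r := (hcp.cfcₙ_nnreal NNReal.sqrt).eq
  obtain ⟨hu1, hu2⟩ := Unitary.mem_iff.1 hu
  set u : A := h + I • r with hudef
  have hup : u * p = p * u := by
    rw [hudef, add_mul, mul_add, hr, hl, smul_mul_assoc, mul_smul_comm, hrp]
  have hup' : star u * p = p * star u := by
    have := congrArg star hup
    rw [star_mul, star_mul, hs] at this
    exact this.symm
  refine ⟨p * u, ⟨?_, ?_, ?_, ?_⟩, ?_⟩
  · rw [star_mul, hs, mul_assoc, ← mul_assoc p, hp, ← mul_assoc, hup', mul_assoc, hu1, mul_one]
  · rw [star_mul, hs, mul_assoc, ← mul_assoc u, hu2, one_mul, hp]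
  · rw [← mul_assoc, hp]
  · rw [mul_assoc, hup, ← mul_assoc, hp]
  · have h3 : star u = h - I • r := by
      rw [hudef, star_add, star_smul, hh, hrs, Complex.star_def, Complex.conj_I, neg_smul,
        sub_eq_add_neg]
    rw [star_mul, hs, hup', ← mul_add, h3, hudef]
    rw [show h + I • r + (h - I • r) = (2 : ℂ) • h by rw [two_smul]; abel, mul_smul_comm, hl]

/-- `f` linear, `f v = 0` for all unitaries `v` of the corner `pAp` implies `f a = 0` for all `a`
in the corner. -/
theorem corner_span {p : A} (hs : star p = p) (hp : p * p = p) {E : Type*} [AddCommGroup E]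
    [Module ℂ E] (f : A →ₗ[ℂ] E) (hf : ∀ v, CU p v → f v = 0) {a : A} (hl : p * a = a)
    (hr : a * p = a) : f a = 0 := by
  have key1 : ∀ h : A, star h = h → ‖h‖ ≤ 1 → p * h = h → f h = 0 := by
    intro h hh hn hl
    obtain ⟨v, hv, hv2⟩ := exists_CU_of_selfAdjoint hs hp hh hn hl
    have h1 : (2 : ℂ) • f h = 0 := by
      rw [← map_smul, ← hv2, map_add, hf v hv, hf _ (hv.star' hs), add_zero]
    exact (smul_eq_zero.1 h1).resolve_left two_ne_zero
  have key2 : ∀ h : A, star h = h → p * h = h → f h = 0 := by
    intro h hh hl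
    have h1 := key1 ((((1 + ‖h‖)⁻¹ : ℝ) : ℂ) • h) (by
      rw [star_smul, hh, Complex.star_def, Complex.conj_ofReal]) (by
      rw [norm_smul, Complex.norm_real, Real.norm_of_nonneg (by positivity)]
      rw [inv_mul_le_iff₀ (by positivity), mul_one]
      linarith) (by rw [mul_smul_comm, hl])
    rw [map_smul] at h1
    refine (smul_eq_zero.1 h1).resolve_left ?_
    have : (0 : ℝ) < (1 + ‖h‖)⁻¹ := by positivity
    exact_mod_cast this.ne'
  have hl' : p * star a = star a := by
    have := congrArg star hr
    rwa [star_mul, hs] at this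
  have h1 : a = (2⁻¹ : ℂ) • (a + star a) + ((2⁻¹ : ℂ) * (-I)) • (I • (a - star a)) := by
    rw [smul_smul, mul_assoc, neg_mul, I_mul_I, neg_neg, mul_one, ← smul_add,
      show a + star a + (a - star a) = (2 : ℂ) • a by rw [two_smul]; abel, smul_smul]
    norm_num
  rw [h1, map_add, map_smul, map_smul, key2 (a + star a) ?_ ?_, key2 (I • (a - star a)) ?_ ?_,
    smul_zero, smul_zero, add_zero]
  · rw [star_smul, star_sub, star_star, Complex.star_def, Complex.conj_I, neg_smul, ← smul_neg,
      neg_sub]
  · rw [mul_smul_comm, mul_sub, hl, hl']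
  · rw [star_add, star_star, add_comm]
  · rw [mul_add, hl, hl']

end

end Crest.Agent.R121.Fin
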