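import Mathlib
import Crest.Agent.R121.AvgOp
import Crest.Agent.R121.Fin.Defs

/-!
# Row 121, block FIN: cutting maps `M → M` to a corner

`cut p T x = T (x p) p`; for a unitary `v` of the corner `pMp`, `v + (1 - p)` is a unitary of `M`
and `cut p (rho (v + (1 - p)) T) x = cut p T (x v) v*`.
-/

set_option autoImplicit false
set_option linter.unusedSectionVars false

namespace Crest.Agent.R121.Fin

open scoped InnerProductSpace Topology
open ContinuousLinearMap Filter

noncomputable section

universe u

variable {H : Type u} [NormedAddCommGroup H] [InnerProductSpace ℂ H] [CompleteSpace H]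
variable {M : VonNeumannAlgebra H}

theorem isClosed_vn (M : VonNeumannAlgebra H) : IsClosed (M.toStarSubalgebra : Set (H →L[ℂ] H)) := by
  have h : (M.toStarSubalgebra : Set (H →L[ℂ] H)) =
      ⋂ T ∈ {T : H →L[ℂ] H | T ∈ M.commutant}, {x : H →L[ℂ] H | T * x = x * T} := by
    ext x
    simp only [SetLike.mem_coe, Set.mem_ofPred_eq, Set.mem_iInter]
    constructor
    · intro hx T hT
      exact R124.commutant_comm M (show x ∈ M from hx) hT
    · intro hx
      exact R124.mem_of_commutant M x hx
  rw [h]
  refine isClosed_biInter fun T _ => ?_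
  exact isClosed_eq (by fun_prop) (by fun_prop)

instance instClosedVN (M : VonNeumannAlgebra H) :
    IsClosed (M.toStarSubalgebra : Set (H →L[ℂ] H)) := isClosed_vn M

/-- the C*-algebra structure of a von Neumann algebra -/
instance instCStarVN (M : VonNeumannAlgebra H) : CStarAlgebra M.toStarSubalgebra :=
  StarSubalgebra.cstarAlgebra M.toStarSubalgebra

/-- the inclusion of a von Neumann algebra as a ⋆-homomorphism -/
def vinc (M : VonNeumannAlgebra H) : M.toStarSubalgebra →⋆ₐ[ℂ] (H →L[ℂ] H) :=
  M.toStarSubalgebra.subtype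

@[simp] lemma vinc_apply (x : M.toStarSubalgebra) : vinc M x = (x : H →L[ℂ] H) := rfl

lemma norm_vinc (x : M.toStarSubalgebra) : ‖vinc M x‖ = ‖x‖ := rfl

/-- cut a map `M → M` to the right corner of `p` -/
def cut (p : M.toStarSubalgebra) (T : EndA M) : EndA M := Rm p ∘L T ∘L Rm p

@[simp] lemma cut_apply (p : M.toStarSubalgebra) (T : EndA M) (x : M.toStarSubalgebra) :
    cut p T x = T (x * p) * p := rfl

lemma cut_mul_p {p : M.toStarSubalgebra} (hp : p * p = p) (T : EndA M) (x : M.toStarSubalgebra) :
    cut p T (x * p) = cut p T x := by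
  simp [mul_assoc, hp]

lemma cut_p {p : M.toStarSubalgebra} (hp : p * p = p) (T : EndA M) (x : M.toStarSubalgebra) :
    cut p T x * p = cut p T x := by
  simp [mul_assoc, hp]

lemma norm_proj_le {p : M.toStarSubalgebra} (hs : star p = p) (hp : p * p = p) : ‖p‖ ≤ 1 := by
  have h1 : ‖star p * p‖ = ‖p‖ * ‖p‖ := CStarRing.norm_star_mul_self
  rw [hs, hp] at h1
  by_contra h
  push Not at h
  nlinarith [norm_nonneg p]

lemma norm_cut_le {p : M.toStarSubalgebra} (hs : star p = p) (hp : p * p = p) (T : EndA M) :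
    ‖cut p T‖ ≤ ‖T‖ := by
  have h1 : ‖Rm (M := M) p‖ ≤ 1 := (norm_Rm_le p).trans (norm_proj_le hs hp)
  calc ‖Rm p ∘L T ∘L Rm p‖ ≤ ‖Rm (M := M) p‖ * (‖T‖ * ‖Rm (M := M) p‖) :=
        (opNorm_comp_le _ _).trans (by gcongr; exact opNorm_comp_le _ _)
    _ ≤ 1 * (‖T‖ * 1) := by gcongr
    _ = ‖T‖ := by ring

lemma cut_add (p : M.toStarSubalgebra) (T T' : EndA M) : cut p (T + T') = cut p T + cut p T' := by
  ext x; simp [add_mul]

lemma cut_smul (p : M.toStarSubalgebra) (c : ℂ) (T : EndA M) : cut p (c • T) = c • cut p T := by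
  ext x; simp

/-- the unitary of `M` extending a unitary of the corner -/
def ext1 (p v : M.toStarSubalgebra) : M.toStarSubalgebra := v + (1 - p)

lemma star_ext1_mul {p v : M.toStarSubalgebra} (hs : star p = p) (hp : p * p = p) (hv : CU p v) :
    star (ext1 p v) * ext1 p v = 1 := by
  unfold ext1
  rw [star_add, star_sub, star_one, hs, add_mul, mul_add, mul_add, hv.st_mul, mul_sub, mul_one,
    hv.right' hs, sub_mul, sub_mul, one_mul, one_mul, mul_sub, mul_one, hp, hv.left]
  abel

lemma ext1_mul_star {p v : M.toStarSubalgebra} (hs : star p = p) (hp : p * p = p) (hv : CU p v) :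
    ext1 p v * star (ext1 p v) = 1 := by
  unfold ext1
  rw [star_add, star_sub, star_one, hs, add_mul, mul_add, mul_add, hv.mul_st, mul_sub, mul_one,
    hv.right, sub_mul, sub_mul, one_mul, one_mul, mul_sub, mul_one, hp, hv.left' hs]
  abel

lemma rho_ext1_isAvg {p v : M.toStarSubalgebra} (hs : star p = p) (hp : p * p = p)
    (hv : CU p v) : IsAvg (rho (ext1 p v)) :=
  rho_isAvg (star_ext1_mul hs hp hv) (ext1_mul_star hs hp hv)

lemma cut_rho_ext1 {p v : M.toStarSubalgebra} (hs : star p = p) (hp : p * p = p)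
    (hv : CU p v) (T : EndA M) (x : M.toStarSubalgebra) :
    cut p (rho (ext1 p v) T) x = cut p T (x * v) * star v := by
  have h1 : p * ext1 p v = v := by
    unfold ext1
    rw [mul_add, mul_sub, mul_one, hp, sub_self, add_zero, hv.left]
  have h2 : star (ext1 p v) * p = star v := by
    unfold ext1
    rw [star_add, star_sub, star_one, hs, add_mul, sub_mul, one_mul, hp, sub_self, add_zero,
      hv.right' hs]
  rw [cut_apply, rho_apply, cut_apply, mul_assoc x, h1, mul_assoc, h2, mul_assoc x v, hv.right,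
    mul_assoc _ p, hv.left' hs]

end

end Crest.Agent.R121.Fin
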