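import Mathlib

/-!
# Row 121: flat unitary matrices of every size (Fourier matrix)
-/

set_option autoImplicit false

namespace Crest.Agent.R121.Fin

open Matrix

/-- **Flat unitary matrices** of every size `n ≥ 1`. -/
theorem exists_flat_unitary (n : ℕ) (hn : n ≠ 0) :
    ∃ h : Matrix (Fin n) (Fin n) ℂ, h * hᴴ = 1 ∧ hᴴ * h = 1 ∧
      ∀ i j, ‖h i j‖ ^ 2 = 1 / (n : ℝ) := by
  set ζ : ℂ := Complex.exp (2 * Real.pi * Complex.I / n) with hζ
  have hprim : IsPrimitiveRoot ζ n := Complex.isPrimitiveRoot_exp n hn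
  have hnorm : ‖ζ‖ = 1 := hprim.norm'_eq_one hn
  have hζ0 : ζ ≠ 0 := by
    intro h0; rw [h0, norm_zero] at hnorm; exact zero_ne_one hnorm
  have hstar : star ζ = ζ⁻¹ := by
    rw [← mul_eq_one_iff_eq_inv₀ hζ0]
    have : star ζ * ζ = ((‖ζ‖ ^ 2 : ℝ) : ℂ) := by
      rw [Complex.star_def, Complex.conj_mul', Complex.ofReal_pow]
    rw [this, hnorm]; simp
  have hn0 : (n : ℝ) ≠ 0 := by exact_mod_cast hn
  have hnpos : (0 : ℝ) < n := by positivity
  have hsq : (((Real.sqrt n)⁻¹ : ℝ) : ℂ) * (((Real.sqrt n)⁻¹ : ℝ) : ℂ) = (n : ℂ)⁻¹ := by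
    rw [← Complex.ofReal_mul, ← mul_inv, Real.mul_self_sqrt hnpos.le]
    push_cast; rfl
  set h : Matrix (Fin n) (Fin n) ℂ := Matrix.of fun i j =>
    (((Real.sqrt n)⁻¹ : ℝ) : ℂ) * ζ ^ ((i : ℕ) * (j : ℕ)) with hh
  have hentry : ∀ i j, h i j = (((Real.sqrt n)⁻¹ : ℝ) : ℂ) * ζ ^ ((i : ℕ) * (j : ℕ)) :=
    fun i j => rfl
  have h1 : h * hᴴ = 1 := by
    ext i k
    rw [Matrix.mul_apply, Matrix.one_apply]
    have hterm : ∀ j : Fin n, h i j * hᴴ j k
        = (n : ℂ)⁻¹ * (ζ ^ (i : ℕ) * (ζ ^ (k : ℕ))⁻¹) ^ (j : ℕ) := by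
      intro j
      rw [Matrix.conjTranspose_apply, hentry, hentry, star_mul', star_pow, hstar,
        Complex.star_def, Complex.conj_ofReal, ← hsq, mul_pow, inv_pow, inv_pow, ← pow_mul,
        ← pow_mul]
      ring
    simp_rw [hterm]
    rw [← Finset.mul_sum, Fin.sum_univ_eq_sum_range
      (fun j => (ζ ^ (i : ℕ) * (ζ ^ (k : ℕ))⁻¹) ^ j) n]
    by_cases hik : i = k
    · subst hik
      rw [if_pos rfl, mul_inv_cancel₀ (pow_ne_zero _ hζ0)]
      simp only [one_pow, Finset.sum_const, Finset.card_range, nsmul_eq_mul, mul_one]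
      exact inv_mul_cancel₀ (by exact_mod_cast hn)
    · rw [if_neg hik]
      set w : ℂ := ζ ^ (i : ℕ) * (ζ ^ (k : ℕ))⁻¹ with hw
      have hw1 : w ≠ 1 := by
        intro hw1
        have h2 : ζ ^ (i : ℕ) = ζ ^ (k : ℕ) := by
          rw [hw, mul_inv_eq_one₀ (pow_ne_zero _ hζ0)] at hw1
          exact hw1
        exact hik (Fin.ext (hprim.pow_inj i.2 k.2 h2))
      have hwn : w ^ n = 1 := by
        rw [hw, mul_pow, inv_pow, ← pow_mul, ← pow_mul, mul_comm (i : ℕ), mul_comm (k : ℕ),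
          pow_mul, pow_mul, hprim.pow_eq_one]
        simp
      have hgeom : (∑ j ∈ Finset.range n, w ^ j) * (w - 1) = w ^ n - 1 := geom_sum_mul w n
      rw [hwn, sub_self] at hgeom
      have h3 : ∑ j ∈ Finset.range n, w ^ j = 0 :=
        (mul_eq_zero.mp hgeom).resolve_right (sub_ne_zero.mpr hw1)
      rw [h3, mul_zero]
  refine ⟨h, h1, mul_eq_one_comm.mp h1, fun i j => ?_⟩
  rw [hentry, norm_mul, norm_pow, hnorm, one_pow, mul_one, Complex.norm_real, norm_inv,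
    Real.norm_of_nonneg (Real.sqrt_nonneg _), inv_pow, Real.sq_sqrt hnpos.le, one_div]

end Crest.Agent.R121.Fin
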