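import Crest.Agent.R121.Fin.LB4

/-!
# Row 121, block FIN: from the decoupled mean square estimates to LB (4)
-/

set_option autoImplicit false

open scoped InnerProductSpace
open Finset

namespace Crest.Agent.R121.Fin

variable {A : Type*} [CStarAlgebra A]
variable {H : Type*} [NormedAddCommGroup H] [InnerProductSpace ℂ H] [CompleteSpace H]
variable {ϖ : A →⋆ₐ[ℂ] (H →L[ℂ] H)} {p : A} {ξ : H} {K : ℝ}

theorem pow_star_shift {p a c : A} (ha : CU p a) (k : ℕ) :
    a * star (c * a) ^ (k + 1) = p * (star c * star a) ^ k * star c := by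
  have h1 : ∀ k : ℕ, (star a * star c) ^ k * star a = star a * (star c * star a) ^ k := by
    intro k
    induction k with
    | zero => simp
    | succ k ih =>
      rw [pow_succ', pow_succ', mul_assoc, ih]
      noncomm_ring
  rw [star_mul, pow_succ, ← mul_assoc, ← mul_assoc, mul_assoc a, h1, ← mul_assoc a, ha.mul_st]

theorem pow_star_shift' {a c : A} (y : A) (k : ℕ) :
    y * star (c * a) ^ (k + 1) = y * star a * (star c * star a) ^ k * star c := by
  have h1 : ∀ k : ℕ, (star a * star c) ^ k * star a = star a * (star c * star a) ^ k := by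
    intro k
    induction k with
    | zero => simp
    | succ k ih =>
      rw [pow_succ', pow_succ', mul_assoc, ih]
      noncomm_ring
  rw [star_mul, pow_succ, ← mul_assoc, ← mul_assoc, mul_assoc y, h1, ← mul_assoc]

/-- **LB**, from the decoupled estimates (`h3`, `h3'`). -/
theorem LB_glue {Ω : Type*} [Fintype Ω] [Nonempty Ω] {C : ℝ} (hϖ : ∀ x, ‖ϖ x‖ = ‖x‖)
    (hc : Cor ϖ p ξ K) (c : Ω → A) (hcU : ∀ ω, CU p (c ω)) {R m : ℕ} (hm : 0 < m)
    (hR : 4 * m ≤ R) {ζ : ℂ} (hζ1 : ‖ζ‖ = 1) (hζ : ∀ n : ℕ, 0 < n → n < R → ζ ^ n ≠ 1)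
    {τ : Ω ≃ Ω} (hτ : ∀ ω, c (τ ω) = ζ • c ω)
    (S : A →L[ℂ] A) (hS : ‖S‖ ≤ C) (hSp : ∀ x, S x * p = S x)
    (hcN : ∀ ω x, S (x * star (c ω)) = S x * star (c ω))
    (y a : A) (hy : ‖y‖ ≤ 1) (ha : CU p a) {η : ℝ}
    (h3 : ∀ k, 1 ≤ k → k < 2 * m → ∑ ω, ‖ϖ (S (y * (c ω * a) ^ k) - S y * (c ω * a) ^ k) ξ‖ ^ 2
      ≤ Fintype.card Ω * η ^ 2)
    (h3' : ∀ k, 1 ≤ k → k < 2 * m → ∑ ω, ‖ϖ (S (y * star a * (star (c ω) * star a) ^ k)
      - S (y * star a) * (star (c ω) * star a) ^ k) ξ‖ ^ 2 ≤ Fintype.card Ω * η ^ 2) :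
    (∑ q ∈ range m, 1 / ((q : ℝ) + 1)) ^ 2 * ‖ϖ (S (y * star a) * a - S y) ξ‖ ^ 2
      ≤ 64 * K * (Real.pi ^ 2 * C ^ 2 * ‖ξ‖ ^ 2 + 8 * m ^ 3 * K * ((1 + K) * η ^ 2)) := by
  have hK := hc.K0
  have hp := hc.star_p
  set η' : ℝ := Real.sqrt ((1 + K) * η ^ 2) with hη'
  have hη2 : η' ^ 2 = (1 + K) * η ^ 2 := Real.sq_sqrt (by positivity)
  have hn : (0 : ℝ) ≤ Fintype.card Ω := Nat.cast_nonneg _
  have hηn : (0 : ℝ) ≤ Fintype.card Ω * η ^ 2 := by positivity
  have key := LB4 (ϖ := ϖ) (p := p) (ξ := ξ) (K := K) (Z := fun ω => c ω * a) (C := C) hϖ hc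
    (fun ω => (hcU ω).mul' ha) (M := 2 * m - 1) hm (by omega) hR hζ1 hζ (τ := τ)
    (fun ω => by rw [hτ, smul_mul_assoc]) S hS hSp y a hy ha (η := η') ?_ ?_
  · rwa [hη2] at key
  · intro q hq
    refine (h3 (q + 1) (by omega) (by omega)).trans ?_
    rw [hη2]
    nlinarith
  · intro q hq
    have e : ∀ ω, S (y * star (c ω * a) ^ (q + 1)) - S (y * star a) * a * star (c ω * a) ^ (q + 1)
        = (S (y * star a * (star (c ω) * star a) ^ q)
          - S (y * star a) * (star (c ω) * star a) ^ q) * star (c ω) := by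
      intro ω
      rw [pow_star_shift', hcN, mul_assoc (S (y * star a)), pow_star_shift ha, ← mul_assoc,
        ← mul_assoc, hSp, sub_mul]
    rcases q with _ | q
    · have : ∑ ω, ‖ϖ (S (y * star (c ω * a) ^ (0 + 1))
          - S (y * star a) * a * star (c ω * a) ^ (0 + 1)) ξ‖ ^ 2 = 0 := by
        refine sum_eq_zero fun ω _ => ?_
        rw [e ω]
        simp
      rw [this]
      positivity
    · have h4 := h3' (q + 1) (by omega) (by omega)
      calc ∑ ω, ‖ϖ (S (y * star (c ω * a) ^ (q + 1 + 1))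
            - S (y * star a) * a * star (c ω * a) ^ (q + 1 + 1)) ξ‖ ^ 2
          ≤ ∑ ω, K * ‖ϖ (S (y * star a * (star (c ω) * star a) ^ (q + 1))
            - S (y * star a) * (star (c ω) * star a) ^ (q + 1)) ξ‖ ^ 2 := by
            refine sum_le_sum fun ω _ => ?_
            rw [e ω]
            refine hc.norm_mul_cu ?_ ((hcU ω).star' hp)
            have h5 : (star (c ω) * star a) ^ (q + 1) * p = (star (c ω) * star a) ^ (q + 1) := by
              rw [pow_succ, mul_assoc, mul_assoc, ha.right' hp]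
            rw [sub_mul, hSp, mul_assoc (S (y * star a)), h5]
        _ ≤ K * (Fintype.card Ω * η ^ 2) := by
            rw [← mul_sum]
            exact mul_le_mul_of_nonneg_left h4 hK
        _ ≤ Fintype.card Ω * η' ^ 2 := by
            rw [hη2]
            nlinarith

/-- harmonic sum lower bound -/
theorem half_log_le_harm {m J : ℕ} (hJ : J ≤ 2 * m + 1) :
    Real.log J / 2 ≤ ∑ q ∈ range m, 1 / ((q : ℝ) + 1) := by
  have h1 : Real.log (m + 1) ≤ ∑ q ∈ range m, 1 / ((q : ℝ) + 1) := by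
    have h := log_add_one_le_harmonic m
    have e : ((harmonic m : ℚ) : ℝ) = ∑ q ∈ range m, 1 / ((q : ℝ) + 1) := by
      rw [harmonic]
      push_cast
      exact sum_congr rfl fun q _ => by rw [one_div]
    rw [← e]
    exact_mod_cast h
  rcases Nat.eq_zero_or_pos J with rfl | hJ0
  · simp only [Nat.cast_zero, Real.log_zero, zero_div]
    exact sum_nonneg fun q _ => by positivity
  refine le_trans ?_ h1
  have h2 : (J : ℝ) ≤ ((m : ℝ) + 1) ^ 2 := by
    have : (J : ℝ) ≤ 2 * m + 1 := by exact_mod_cast hJ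
    nlinarith [sq_nonneg (m : ℝ)]
  have h3 : Real.log J ≤ 2 * Real.log ((m : ℝ) + 1) := by
    have h4 := Real.log_le_log (by exact_mod_cast hJ0) h2
    rw [Real.log_pow] at h4
    exact_mod_cast h4
  linarith

end Crest.Agent.R121.Fin
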