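import Crest.Agent.R121.Fin.LB3
import Crest.Agent.R121.Fin.LBGlue

/-!
# Row 121, block FIN: theorem LB

`LB_main`: `H_m² ‖ϖ (S (y a*) a - S y) ξ‖² ≤ 64 K π² C² ‖ξ‖² + B ε²`, `B = B(K, m)`;
`LB_log`: the same divided by `log J`.
-/

set_option autoImplicit false
set_option linter.unusedSectionVars false

open scoped InnerProductSpace
open Finset Matrix

namespace Crest.Agent.R121.Fin

section
variable {A : Type*} [CStarAlgebra A]
variable {H : Type*} [NormedAddCommGroup H] [InnerProductSpace ℂ H] [CompleteSpace H]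
variable {ϖ : A →⋆ₐ[ℂ] (H →L[ℂ] H)} {p : A} {ξ : H} {K : ℝ}
variable {n : ℕ} {e : Fin n → Fin n → A}

lemma RMod.toM {S : A →L[ℂ] A} (hS : RMod e S) (x : A) (m : Matrix (Fin n) (Fin n) ℂ) :
    S (x * toM e m) = S x * toM e m := by
  unfold Fin.toM
  rw [mul_sum, mul_sum, map_sum]
  refine sum_congr rfl fun s _ => ?_
  rw [mul_smul_comm, mul_smul_comm, map_smul, hS]

variable {R : ℕ} [NeZero R]

/-- negated swap of the phases -/
def omSwap (n R : ℕ) : Om n R ≃ Om n R where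
  toFun ω := (-ω.2, -ω.1)
  invFun ω := (-ω.2, -ω.1)
  left_inv ω := by simp
  right_inv ω := by simp

/-- shift of the first family of phases by one -/
def omShift (n R : ℕ) : Om n R ≃ Om n R where
  toFun ω := (ω.1 + 1, ω.2)
  invFun ω := (ω.1 - 1, ω.2)
  left_inv ω := by simp
  right_inv ω := by simp

lemma cmat_conjTranspose (h : Matrix (Fin n) (Fin n) ℂ) (ω : Om n R) :
    (cmat h ω)ᴴ = cmat hᴴ (omSwap n R ω) := by
  ext i j
  have hst : ∀ a : ZMod R, star (ZMod.stdAddChar a : ℂ) = ZMod.stdAddChar (-a) := by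
    intro a
    rw [AddChar.map_neg_eq_conj]; rfl
  simp only [Matrix.conjTranspose_apply, cmat, omSwap, Equiv.coe_fn_mk, Pi.neg_apply, star_mul',
    hst]
  ring

lemma star_cu_swap (hm : MU p n e) (h : Matrix (Fin n) (Fin n) ℂ) (ω : Om n R) :
    star (cu h e ω) = cu hᴴ e (omSwap n R ω) := by
  unfold cu
  rw [hm.toM_star, cmat_conjTranspose]

lemma cu_shift (h : Matrix (Fin n) (Fin n) ℂ) (e : Fin n → Fin n → A) (ω : Om n R) :
    cu h e (omShift n R ω) = (ZMod.stdAddChar (1 : ZMod R) : ℂ) • cu h e ω := by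
  unfold cu toM
  rw [smul_sum]
  refine sum_congr rfl fun s _ => ?_
  rw [smul_smul]
  congr 1
  simp only [cmat, omShift, Equiv.coe_fn_mk, Pi.add_apply, Pi.one_apply, AddChar.map_add_eq_mul]
  ring

lemma stdAddChar_pow_ne (k : ℕ) (hk : 0 < k) (hkR : k < R) :
    (ZMod.stdAddChar (1 : ZMod R) : ℂ) ^ k ≠ 1 := by
  rw [← AddChar.map_nsmul_eq_pow]
  intro h1
  have h2 := ZMod.injective_stdAddChar (N := R) (h1.trans (AddChar.map_zero_eq_one _).symm)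
  rw [nsmul_one, ZMod.natCast_eq_zero_iff] at h2
  exact absurd (Nat.le_of_dvd hk h2) (by omega)

/-- the constant of `LB` -/
noncomputable def LBB (K : ℝ) (m : ℕ) : ℝ :=
  64 * K * (8 * m ^ 3 * K * ((1 + K) * (((2 * m).factorial : ℝ) ^ 2 * (24 * K ^ 2))))

/-- **LB**, main form -/
theorem LB_main (hϖ : ∀ x, ‖ϖ x‖ = ‖x‖) (hco : Cor ϖ p ξ K) (hm : MU p n e)
    {h : Matrix (Fin n) (Fin n) ℂ} (hh : h * hᴴ = 1) (flat : ∀ i j, ‖h i j‖ ^ 2 = 1 / n)
    {S : A →L[ℂ] A} {C : ℝ} (hSC : ‖S‖ ≤ C) (hS : RMod e S)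
    (hSp : ∀ x, S (x * p) = S x ∧ S x * p = S x) (y a : A) (hy : ‖y‖ ≤ 1) (ha : CU p a) {ε : ℝ}
    (small : ∀ t, CU p t → (∀ i j, t * e i j = e i j * t) →
      ‖ϖ (S (y * t) - S y * t) ξ‖ ≤ ε ∧
        ‖ϖ (S (y * star a * t) - S (y * star a) * t) ξ‖ ≤ ε) {m : ℕ} (hm0 : 0 < m) :
    (∑ q ∈ range m, 1 / ((q : ℝ) + 1)) ^ 2 * ‖ϖ (S (y * star a) * a - S y) ξ‖ ^ 2
      ≤ 64 * K * (Real.pi ^ 2 * C ^ 2 * ‖ξ‖ ^ 2) + LBB K m * ε ^ 2 := by
  have hp := hco.star_p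
  have hK := hco.K0
  have : NeZero (4 * m) := ⟨by omega⟩
  have hε : 0 ≤ ε := by
    refine (norm_nonneg _).trans (small p (CU.one' hp hco.p_p) fun i j => ?_).1
    rw [hm.left, hm.right]
  have hfac : ∀ k, k < 2 * m → (k.factorial : ℝ) ^ 2 ≤ ((2 * m).factorial : ℝ) ^ 2 := by
    intro k hk
    have : (k.factorial : ℝ) ≤ ((2 * m).factorial : ℝ) := by
      exact_mod_cast Nat.factorial_le hk.le
    exact pow_le_pow_left₀ (Nat.cast_nonneg _) this 2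
  set η : ℝ := Real.sqrt (((2 * m).factorial : ℝ) ^ 2 * (24 * K ^ 2 * ε ^ 2)) with hη
  have hη2 : η ^ 2 = ((2 * m).factorial : ℝ) ^ 2 * (24 * K ^ 2 * ε ^ 2) :=
    Real.sq_sqrt (by positivity)
  have hh' : hᴴ * hᴴᴴ = 1 := by
    rw [Matrix.conjTranspose_conjTranspose]
    exact mul_eq_one_comm.1 hh
  have flat' : ∀ i j, ‖hᴴ i j‖ ^ 2 = 1 / n := by
    intro i j
    rw [Matrix.conjTranspose_apply, norm_star, flat]
  have key := LB_glue (Ω := Om n (4 * m)) (C := C) hϖ hco (fun ω => cu h e ω)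
    (fun ω => cu_CU hm hh ω) (R := 4 * m) (m := m) hm0 le_rfl
    (ζ := (ZMod.stdAddChar (1 : ZMod (4 * m)) : ℂ)) (AddChar.norm_apply _ _)
    (fun k hk hkR => stdAddChar_pow_ne k hk hkR) (τ := omShift n (4 * m))
    (fun ω => cu_shift h e ω) S hSC (fun x => (hSp x).2)
    (fun ω x => by rw [star_cu_swap hm]; exact hS.toM _ _) y a hy ha (η := η) ?_ ?_
  · refine key.trans (le_of_eq ?_)
    rw [hη2, LBB]
    ring
  · intro k _ hk
    refine (LB3 hco hm hS hSp y (fun t ht htc => (small t ht htc).1) hh flat ha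
      (k := k) (R := 4 * m) (by omega)).trans ?_
    rw [hη2]
    refine mul_le_mul_of_nonneg_left ?_ (Nat.cast_nonneg _)
    exact mul_le_mul_of_nonneg_right (hfac k hk) (by positivity)
  · intro k _ hk
    have h1 := LB3 hco hm hS hSp (y * star a) (fun t ht htc => (small t ht htc).2) hh' flat'
      (ha.star' hp) (k := k) (R := 4 * m) (by omega)
    rw [← (omSwap n (4 * m)).sum_comp] at h1
    simp_rw [← star_cu_swap hm] at h1
    refine h1.trans ?_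
    rw [hη2]
    refine mul_le_mul_of_nonneg_left ?_ (Nat.cast_nonneg _)
    exact mul_le_mul_of_nonneg_right (hfac k hk) (by positivity)

lemma LBB_nonneg {K : ℝ} (hK : 0 ≤ K) (m : ℕ) : 0 ≤ LBB K m := by
  unfold LBB; positivity

/-- **LB**, with `log J` -/
theorem LB_log (hϖ : ∀ x, ‖ϖ x‖ = ‖x‖) (hco : Cor ϖ p ξ K) (hm : MU p n e)
    {h : Matrix (Fin n) (Fin n) ℂ} (hh : h * hᴴ = 1) (flat : ∀ i j, ‖h i j‖ ^ 2 = 1 / n)
    {S : A →L[ℂ] A} {C : ℝ} (hSC : ‖S‖ ≤ C) (hS : RMod e S)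
    (hSp : ∀ x, S (x * p) = S x ∧ S x * p = S x) (y a : A) (hy : ‖y‖ ≤ 1) (ha : CU p a) {ε : ℝ}
    (small : ∀ t, CU p t → (∀ i j, t * e i j = e i j * t) →
      ‖ϖ (S (y * t) - S y * t) ξ‖ ≤ ε ∧
        ‖ϖ (S (y * star a * t) - S (y * star a) * t) ξ‖ ≤ ε) {J : ℕ} (hJ : 2 ≤ J) :
    ‖ϖ (S (y * star a) * a - S y) ξ‖ ≤
      (16 * Real.pi * Real.sqrt K * C * ‖ξ‖ + 2 * Real.sqrt (LBB K J) * ε) / Real.log J := by
  have hp := hco.star_p
  have hK := hco.K0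
  have hC : 0 ≤ C := (norm_nonneg _).trans hSC
  have hε : 0 ≤ ε := by
    refine (norm_nonneg _).trans (small p (CU.one' hp hco.p_p) fun i j => ?_).1
    rw [hm.left, hm.right]
  have key := LB_main hϖ hco hm hh flat hSC hS hSp y a hy ha small (m := J) (by omega)
  have hlog : 0 < Real.log J := Real.log_pos (by exact_mod_cast hJ)
  have hH := half_log_le_harm (m := J) (J := J) (by omega)
  rw [le_div_iff₀ hlog]
  set D := ‖ϖ (S (y * star a) * a - S y) ξ‖ with hD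
  have hD0 : 0 ≤ D := norm_nonneg _
  have hπ := Real.pi_pos
  have hX0 : 0 ≤ 8 * Real.pi * Real.sqrt K * C * ‖ξ‖ := by positivity
  have hY0 : 0 ≤ Real.sqrt (LBB K J) * ε := by positivity
  have h1 : (Real.log J / 2 * D) ^ 2 ≤
      (8 * Real.pi * Real.sqrt K * C * ‖ξ‖ + Real.sqrt (LBB K J) * ε) ^ 2 := by
    have h2 : (Real.log J / 2 * D) ^ 2 ≤ (∑ q ∈ range J, 1 / ((q : ℝ) + 1)) ^ 2 * D ^ 2 := by
      rw [mul_pow]
      exact mul_le_mul_of_nonneg_right (pow_le_pow_left₀ (by positivity) hH 2) (by positivity)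
    have h3 : Real.sqrt K ^ 2 = K := Real.sq_sqrt hK
    have h4 : Real.sqrt (LBB K J) ^ 2 = LBB K J := Real.sq_sqrt (LBB_nonneg hK J)
    have h5 : (8 * Real.pi * Real.sqrt K * C * ‖ξ‖) ^ 2 = 64 * K * (Real.pi ^ 2 * C ^ 2 * ‖ξ‖ ^ 2) := by
      calc (8 * Real.pi * Real.sqrt K * C * ‖ξ‖) ^ 2
          = 64 * (Real.sqrt K ^ 2) * (Real.pi ^ 2 * C ^ 2 * ‖ξ‖ ^ 2) := by ring
        _ = _ := by rw [h3]
    have h6 : (Real.sqrt (LBB K J) * ε) ^ 2 = LBB K J * ε ^ 2 := by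
      rw [mul_pow, h4]
    nlinarith [mul_nonneg hX0 hY0]
  have h7 := abs_le_of_sq_le_sq' h1 (by positivity)
  linarith [h7.2]

end

end Crest.Agent.R121.Fin
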