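import Crest.Agent.R121.Fin.LAIneq

/-!
# Row 121, block FIN, module LA: almost invariance of harmonic maps in a `K`-tracial corner
-/

set_option autoImplicit false
set_option linter.unusedSectionVars false

namespace Crest.Agent.R121.Fin

open Finset Function Real
open scoped InnerProductSpace

section
variable {A : Type*} [CStarAlgebra A]
variable {H : Type*} [NormedAddCommGroup H] [InnerProductSpace ℂ H] [CompleteSpace H]
variable {X : Type*} [Fintype X] {p : A} {w : X → ℝ}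
  {t : X → A} {neg : X → X} {S : A →L[ℂ] A}
variable {ϖ : A →⋆ₐ[ℂ] (H →L[ℂ] H)} {ξ : H} {K : ℝ}

theorem Dl_mul_p {n : ℕ} {e : Fin n → Fin n → A} (h : WD p e w t neg S) (y : A) (x : X) :
    Dl S t y x * p = Dl S t y x := by
  have hp := h.mu.star_p
  have h1 : S y * p = S y := by
    rw [← h.harm y, sum_mul]
    refine sum_congr rfl fun x _ => ?_
    rw [smul_mul_assoc, mul_assoc, (h.ht x).right' hp]
  unfold Dl
  rw [sub_mul, h1, mul_assoc, (h.ht x).right' hp]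

theorem MU.sum_norm_sq {n : ℕ} {e : Fin n → Fin n → A} (he : MU p n e) (v : H) :
    ∑ k, ‖ϖ (e k k) v‖ ^ 2 = ‖ϖ p v‖ ^ 2 := by
  rw [← norm_sq_sum univ (fun k => ϖ (e k k) v)]
  · rw [← _root_.sum_apply, ← map_sum, he.sum]
  · intro l _ k _ hlk
    rw [inner_rep_left, ← mul_apply_eq_comp, ← map_mul, he.st, he.mul, if_neg hlk]
    simp

theorem LA_half (hϖ : ∀ x, ‖ϖ x‖ = ‖x‖) (hc : Cor ϖ p ξ K) {m : ℕ} (hm : 0 < m)
    {e : Fin (2 * m) → Fin (2 * m) → A} (h : WD p e w t neg S) (y : A)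
    (g : X → A) (hg1 : ∀ x, star (g x) = g x) (hg2 : ∀ x, g x * g x = star (Dl S t y x) *
      Dl S t y x) (hg4 : ∀ x, g x * p = g x) :
    Hn m ^ 2 * ∑ i ∈ univ.filter (fun i : Fin (2 * m) => (i : ℕ) < m),
        ∑ x, w x * ‖ϖ (e i i * g x) ξ‖ ^ 2 ≤ K * (‖S‖ * (‖y‖ * π)) ^ 2 * ‖ξ‖ ^ 2 := by
  classical
  have hp := h.mu.star_p
  have hpp := h.mu.p_p
  set s : Finset (Fin (2 * m)) := univ.filter (fun i : Fin (2 * m) => (i : ℕ) < m) with hs
  have hX : Nonempty X := by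
    by_contra hne
    rw [not_nonempty_iff] at hne
    have := h.hw1
    simp at this
  obtain ⟨x0⟩ := hX
  set τ0 : ℕ → X := fun _ => x0
  have i0 : Fin (2 * m) := ⟨0, by omega⟩
  have step1 : ∀ (i : Fin (2 * m)) (τ : ℕ → X), ((2 * m : ℕ) : ℝ) * ‖ϖ (e i i * g (τ i)) ξ‖ ^ 2 ≤
      K * ∑ k, ‖Th ϖ S p e t y i0 (ϖ (e i0 k) ξ) i τ‖ ^ 2 := by
    intro i τ
    have hu : CU p (wk t p τ i) := wk_CU hp hpp h.ht τ i
    have hcomm := wk_comm h.mu h.htc τ i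
    have a1 : ∀ k, ‖ϖ (e k i * wk t p τ i * g (τ i)) ξ‖ ^ 2 = ‖ϖ (e i i * g (τ i)) ξ‖ ^ 2 := by
      intro k
      congr 1
      apply norm_rep_eq
      have b1 : star (e k i * wk t p τ i * g (τ i)) * (e k i * wk t p τ i * g (τ i)) =
          star (g (τ i)) * (star (wk t p τ i) * (star (e k i) * e k i) * wk t p τ i) *
            g (τ i) := by
        simp only [star_mul]
        noncomm_ring
      have b2 : star (wk t p τ i) * (star (e k i) * e k i) * wk t p τ i = e i i := by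
        rw [h.mu.st, h.mu.mul, if_pos rfl, mul_assoc, ← hcomm, ← mul_assoc, hu.st_mul, h.mu.left]
      have b3 : e i i * (e i i * g (τ i)) = e i i * g (τ i) := by
        rw [← mul_assoc, h.mu.mul, if_pos rfl]
      rw [b1, b2, star_mul, h.mu.st, mul_assoc (star _) (e i i) (e i i * _), b3, mul_assoc]
    have a2 : ∀ k, ‖ϖ (e k i * wk t p τ i * g (τ i)) ξ‖ ^ 2 ≤
        K * ‖Th ϖ S p e t y i0 (ϖ (e i0 k) ξ) i τ‖ ^ 2 := by
      intro k
      have b1 := hc.hK (e k i * wk t p τ i * g (τ i))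
        (by rw [← mul_assoc, ← mul_assoc, h.mu.left]) (by rw [mul_assoc, hg4])
      refine b1.trans (mul_le_mul_of_nonneg_left (le_of_eq ?_) hc.K0)
      congr 1
      have b2 : Th ϖ S p e t y i0 (ϖ (e i0 k) ξ) i τ =
          ϖ (Dl S t y (τ i) * (star (wk t p τ i) * e i k)) ξ := by
        unfold Th vec
        rw [← mul_apply_eq_comp, ← mul_apply_eq_comp, ← map_mul, ← map_mul]
        congr 2
        rw [mul_assoc, mul_assoc (star _), h.mu.mul, if_pos rfl]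
      rw [b2]
      apply norm_rep_eq
      simp only [star_star, star_mul, h.mu.st, hg1]
      have b3 : e k i * wk t p τ i * g (τ i) * (g (τ i) * (star (wk t p τ i) * e i k)) =
          e k i * wk t p τ i * (g (τ i) * g (τ i)) * (star (wk t p τ i) * e i k) := by
        noncomm_ring
      rw [b3, hg2]
      noncomm_ring
    calc ((2 * m : ℕ) : ℝ) * ‖ϖ (e i i * g (τ i)) ξ‖ ^ 2
        = ∑ k : Fin (2 * m), ‖ϖ (e k i * wk t p τ i * g (τ i)) ξ‖ ^ 2 := by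
          rw [sum_congr rfl fun k _ => a1 k, sum_const, card_univ, Fintype.card_fin, nsmul_eq_mul]
      _ ≤ ∑ k, K * ‖Th ϖ S p e t y i0 (ϖ (e i0 k) ξ) i τ‖ ^ 2 := sum_le_sum fun k _ => a2 k
      _ = _ := by rw [mul_sum]
  have step2 : ∀ i : Fin (2 * m), ((2 * m : ℕ) : ℝ) * ∑ x, w x * ‖ϖ (e i i * g x) ξ‖ ^ 2 ≤
      K * ∑ k, ex w (2 * m) (fun τ => ‖Th ϖ S p e t y i0 (ϖ (e i0 k) ξ) i τ‖ ^ 2) τ0 := by
    intro i
    have h1 := ex_mono h.hw (2 * m) (step1 i) τ0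
    rw [ex_const_mul, ex_const_mul] at h1
    beta_reduce at h1
    rw [ex_sum] at h1
    rwa [ex_coord h.hw1 i.isLt (fun x => ‖ϖ (e i i * g x) ξ‖ ^ 2)] at h1
  have hB : ∀ k, Hn m ^ 2 * ∑ i ∈ s,
      ex w (2 * m) (fun τ => ‖Th ϖ S p e t y i0 (ϖ (e i0 k) ξ) i τ‖ ^ 2) τ0 ≤
      (‖S‖ * (‖y‖ * π)) ^ 2 * ((2 * m : ℕ) * ‖ϖ (e k k) ξ‖ ^ 2) := by
    intro k
    refine (LA_ineq ϖ hϖ hm h y i0 (ϖ (e i0 k) ξ) τ0).trans (le_of_eq ?_)
    congr 3
    rw [← mul_apply_eq_comp, ← map_mul, h.mu.mul, if_pos rfl]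
    apply norm_rep_eq
    rw [h.mu.st, h.mu.mul, if_pos rfl, h.mu.st, h.mu.mul, if_pos rfl]
  have hn : (0 : ℝ) < ((2 * m : ℕ) : ℝ) := by
    have : 0 < 2 * m := by omega
    exact_mod_cast this
  have hfin : ((2 * m : ℕ) : ℝ) * (Hn m ^ 2 * ∑ i ∈ s, ∑ x, w x * ‖ϖ (e i i * g x) ξ‖ ^ 2) ≤
      ((2 * m : ℕ) : ℝ) * (K * (‖S‖ * (‖y‖ * π)) ^ 2 * ‖ξ‖ ^ 2) := by
    calc ((2 * m : ℕ) : ℝ) * (Hn m ^ 2 * ∑ i ∈ s, ∑ x, w x * ‖ϖ (e i i * g x) ξ‖ ^ 2)
        = Hn m ^ 2 * ∑ i ∈ s, ((2 * m : ℕ) : ℝ) * ∑ x, w x * ‖ϖ (e i i * g x) ξ‖ ^ 2 := by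
          rw [← mul_sum]; ring
      _ ≤ Hn m ^ 2 * ∑ i ∈ s, K * ∑ k,
            ex w (2 * m) (fun τ => ‖Th ϖ S p e t y i0 (ϖ (e i0 k) ξ) i τ‖ ^ 2) τ0 := by
          exact mul_le_mul_of_nonneg_left (sum_le_sum fun i _ => step2 i) (by positivity)
      _ = K * ∑ k, Hn m ^ 2 * ∑ i ∈ s,
            ex w (2 * m) (fun τ => ‖Th ϖ S p e t y i0 (ϖ (e i0 k) ξ) i τ‖ ^ 2) τ0 := by
          rw [← mul_sum, sum_comm, ← mul_sum]; ring
      _ ≤ K * ∑ k, (‖S‖ * (‖y‖ * π)) ^ 2 * ((2 * m : ℕ) * ‖ϖ (e k k) ξ‖ ^ 2) :=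
          mul_le_mul_of_nonneg_left (sum_le_sum fun k _ => hB k) hc.K0
      _ = ((2 * m : ℕ) : ℝ) * (K * (‖S‖ * (‖y‖ * π)) ^ 2 * ∑ k, ‖ϖ (e k k) ξ‖ ^ 2) := by
          simp only [mul_sum]
          refine sum_congr rfl fun k _ => ?_
          ring
      _ = _ := by rw [h.mu.sum_norm_sq, hc.p_ξ]
  exact le_of_mul_le_mul_left hfin hn

theorem LA_signed (hϖ : ∀ x, ‖ϖ x‖ = ‖x‖) (hc : Cor ϖ p ξ K) {m : ℕ} (hm : 0 < m)
    {e : Fin (2 * m) → Fin (2 * m) → A} (h : WD p e w t neg S) (y : A) :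
    Hn m ^ 2 * ∑ x, w x * ‖ϖ (Dl S t y x) ξ‖ ^ 2 ≤
      2 * (K * (‖S‖ * (‖y‖ * π)) ^ 2 * ‖ξ‖ ^ 2) := by
  classical
  have hp := h.mu.star_p
  have hpp := h.mu.p_p
  choose g hg1 hg2 hg3 hg4 using fun x => exists_abs hp hpp (Dl_mul_p h y x)
  set σ : Fin (2 * m) ≃ Fin (2 * m) := Fin.revPerm with hσ
  have h' : WD p (fun i j => e (σ i) (σ j)) w t neg S :=
    { mu := h.mu.reindex σ
      hw := h.hw
      hw1 := h.hw1
      hn := h.hn
      hwn := h.hwn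
      htn := h.htn
      ht := h.ht
      htc := fun x i j => h.htc x _ _
      harm := h.harm
      rmod := fun x i j => h.rmod x _ _ }
  have h1 := LA_half hϖ hc hm h y g hg1 hg2 hg4
  have h2 := LA_half hϖ hc hm h' y g hg1 hg2 hg4
  have h3 : ∑ i ∈ univ.filter (fun i : Fin (2 * m) => (i : ℕ) < m),
        ∑ x, w x * ‖ϖ (e (σ i) (σ i) * g x) ξ‖ ^ 2 =
      ∑ i ∈ univ.filter (fun i : Fin (2 * m) => ¬ (i : ℕ) < m),
        ∑ x, w x * ‖ϖ (e i i * g x) ξ‖ ^ 2 := by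
    refine Finset.sum_equiv σ (fun i => ?_) (fun i _ => rfl)
    simp only [mem_filter, mem_univ, true_and, not_lt, hσ, Fin.revPerm_apply, Fin.val_rev]
    omega
  rw [h3] at h2
  have h4 : ∑ x, w x * ‖ϖ (Dl S t y x) ξ‖ ^ 2 =
      (∑ i ∈ univ.filter (fun i : Fin (2 * m) => (i : ℕ) < m),
        ∑ x, w x * ‖ϖ (e i i * g x) ξ‖ ^ 2) +
      ∑ i ∈ univ.filter (fun i : Fin (2 * m) => ¬ (i : ℕ) < m),
        ∑ x, w x * ‖ϖ (e i i * g x) ξ‖ ^ 2 := by
    rw [sum_filter_add_sum_filter_not, sum_comm]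
    refine sum_congr rfl fun x _ => ?_
    rw [← mul_sum]
    congr 1
    have e1 : ∀ i, ‖ϖ (e i i * g x) ξ‖ ^ 2 = ‖ϖ (e i i) (ϖ (g x) ξ)‖ ^ 2 := by
      intro i
      rw [map_mul, mul_apply_eq_comp]
    rw [sum_congr rfl fun i _ => e1 i, h.mu.sum_norm_sq, ← mul_apply_eq_comp, ← map_mul, hg3]
    congr 1
    apply norm_rep_eq
    rw [hg1, hg2]
  rw [h4, mul_add]
  linarith

/-- **LA**. Harmonic right modular maps in a `K`-tracial corner are almost invariant. -/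
theorem LA (hϖ : ∀ x, ‖ϖ x‖ = ‖x‖) (hc : Cor ϖ p ξ K) {m : ℕ} (hm : 0 < m)
    {e : Fin (2 * m) → Fin (2 * m) → A} (he : MU p (2 * m) e) (hS : RMod e S)
    {Ω : Type*} [Fintype Ω] (w : Ω → ℝ) (hw : ∀ ω, 0 ≤ w ω) (hw1 : ∑ ω, w ω = 1)
    (t : Ω → A) (ht : ∀ ω, CU p (t ω)) (htc : ∀ ω i j, t ω * e i j = e i j * t ω)
    (harm : ∀ y, ∑ ω, (w ω : ℂ) • (S (y * t ω) * star (t ω)) = S y) (y : A) :
    ∑ ω, w ω * ‖ϖ (S (y * t ω) * star (t ω) - S y) ξ‖ ^ 2 ≤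
      2 * K * π ^ 2 * ‖S‖ ^ 2 * ‖y‖ ^ 2 * ‖ξ‖ ^ 2 / (∑ k ∈ range m, 1 / ((k : ℝ) + 1)) ^ 2 := by
  set w' : Ω × Bool → ℝ := fun x => w x.1 / 2 with hw'
  set t' : Ω × Bool → A := fun x => if x.2 then t x.1 else - t x.1 with ht'
  set neg : Ω × Bool → Ω × Bool := fun x => (x.1, !x.2) with hneg
  have hd : WD p e w' t' neg S :=
    { mu := he
      hw := fun x => by simp only [hw']; have := hw x.1; positivity
      hw1 := by
        rw [Fintype.sum_prod_type]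
        simp only [hw', Fintype.sum_bool]
        rw [← hw1]
        exact sum_congr rfl fun x _ => by ring
      hn := fun x => by simp [hneg]
      hwn := fun x => rfl
      htn := fun x => by
        rcases x with ⟨x, b⟩
        cases b <;> simp [hneg, ht']
      ht := fun x => by
        rcases x with ⟨x, b⟩
        cases b
        · simpa [ht'] using (ht x).neg'
        · simpa [ht'] using ht x
      htc := fun x i j => by
        rcases x with ⟨x, b⟩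
        cases b
        · simp [ht', htc]
        · simp [ht', htc]
      harm := fun y => by
        rw [Fintype.sum_prod_type]
        conv_rhs => rw [← harm y]
        refine sum_congr rfl fun x _ => ?_
        simp only [Fintype.sum_bool, hw', ht', if_true, if_false, Bool.false_eq_true]
        rw [mul_neg, map_neg, star_neg, neg_mul_neg, ← add_smul]
        congr 1
        push_cast
        ring
      rmod := hS }
  have h1 := LA_signed hϖ hc hm hd y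
  have h2 : ∑ x, w' x * ‖ϖ (Dl S t' y x) ξ‖ ^ 2 =
      ∑ ω, w ω * ‖ϖ (S (y * t ω) * star (t ω) - S y) ξ‖ ^ 2 := by
    rw [Fintype.sum_prod_type]
    refine sum_congr rfl fun x _ => ?_
    simp only [Fintype.sum_bool, hw', ht', if_true, if_false, Bool.false_eq_true, Dl]
    rw [mul_neg, map_neg, star_neg, neg_mul_neg]
    ring
  rw [h2] at h1
  have hH : 0 < Hn m := Hn_pos hm
  have hH' : (∑ k ∈ range m, 1 / ((k : ℝ) + 1)) = Hn m := rfl
  rw [hH', le_div_iff₀ (by positivity)]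
  calc _ = Hn m ^ 2 * ∑ ω, w ω * ‖ϖ (S (y * t ω) * star (t ω) - S y) ξ‖ ^ 2 := by ring
    _ ≤ _ := h1
    _ = _ := by ring

end

end Crest.Agent.R121.Fin
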