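import Mathlib
import Crest.Agent.R121.AvgInv
import Crest.Agent.R121.Fin.Cut

/-!
# Row 121, block FIN: averaging over finite groups of unitaries of a corner, and existence of an
averaging operator which is right modular over matrix units.
-/

set_option autoImplicit false
set_option linter.unusedSectionVars false

namespace Crest.Agent.R121.Fin

open scoped InnerProductSpace Topology
open ContinuousLinearMap Filter

noncomputable section

universe u

variable {H : Type u} [NormedAddCommGroup H] [InnerProductSpace ℂ H] [CompleteSpace H]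
variable {M : VonNeumannAlgebra H}

lemma cut_sum {κ : Type*} (s : Finset κ) (p : M.toStarSubalgebra) (f : κ → EndA M) :
    cut p (∑ k ∈ s, f k) = ∑ k ∈ s, cut p (f k) := by
  classical
  induction s using Finset.induction_on with
  | empty => ext x; simp
  | insert a s ha ih => rw [Finset.sum_insert ha, Finset.sum_insert ha, cut_add, ih]

/-- average over a finite family of corner unitaries with weights -/
def wavg {Ω : Type*} [Fintype Ω] (p : M.toStarSubalgebra) (w : Ω → ℝ)
    (t : Ω → M.toStarSubalgebra) : EndA M →ₗ[ℂ] EndA M :=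
  ∑ ω, (w ω : ℂ) • rho (ext1 p (t ω))

lemma wavg_isAvg {Ω : Type*} [Fintype Ω] {p : M.toStarSubalgebra} (hs : star p = p)
    (hp : p * p = p) {w : Ω → ℝ} (hw : ∀ ω, 0 ≤ w ω) (hw1 : ∑ ω, w ω = 1)
    {t : Ω → M.toStarSubalgebra} (ht : ∀ ω, CU p (t ω)) : IsAvg (wavg p w t) :=
  IsAvg.convex (fun ω _ => hw ω) hw1 (fun ω _ => rho_ext1_isAvg hs hp (ht ω))

lemma cut_wavg {Ω : Type*} [Fintype Ω] {p : M.toStarSubalgebra} (hs : star p = p)
    (hp : p * p = p) (w : Ω → ℝ) {t : Ω → M.toStarSubalgebra} (ht : ∀ ω, CU p (t ω))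
    (T : EndA M) (x : M.toStarSubalgebra) :
    cut p (wavg p w t T) x = ∑ ω, (w ω : ℂ) • (cut p T (x * t ω) * star (t ω)) := by
  unfold wavg
  rw [LinearMap.sum_apply, cut_sum, sum_apply]
  refine Finset.sum_congr rfl fun ω _ => ?_
  rw [LinearMap.smul_apply, cut_smul, smul_apply, cut_rho_ext1 hs hp (ht ω)]

/-- the group average is modular over the group -/
lemma cut_gavg_mul {G : Type*} [Group G] [Fintype G] {p : M.toStarSubalgebra} (hs : star p = p)
    (hp : p * p = p) {r : G → M.toStarSubalgebra} (hr : ∀ g, CU p (r g))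
    (hmul : ∀ g h, r (g * h) = r g * r h) (w : ℝ) (T : EndA M) (x : M.toStarSubalgebra) (h : G) :
    cut p (wavg p (fun _ : G => w) r T) (x * r h) = cut p (wavg p (fun _ : G => w) r T) x * r h := by
  rw [cut_wavg hs hp _ hr, cut_wavg hs hp _ hr, Finset.sum_mul]
  have h1 : ∀ g : G, (w : ℂ) • (cut p T (x * r g) * star (r g)) * r h
      = (w : ℂ) • (cut p T (x * r g) * star (r (h⁻¹ * g))) := by
    intro g
    have h2 : r g = r h * r (h⁻¹ * g) := by rw [← hmul, mul_inv_cancel_left]
    have h3 : star (r g) * r h = star (r (h⁻¹ * g)) := by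
      rw [h2, star_mul, mul_assoc, (hr h).st_mul, (hr _).right' hs]
    rw [smul_mul_assoc, mul_assoc, h3]
  simp only [h1]
  rw [← Equiv.sum_comp (Equiv.mulLeft h)
    (fun g => (w : ℂ) • (cut p T (x * r g) * star (r (h⁻¹ * g))))]
  refine Finset.sum_congr rfl fun g _ => ?_
  simp only [Equiv.coe_mulLeft, inv_mul_cancel_left]
  rw [mul_assoc x, ← hmul]

/-- the group average preserves modularity over elements permuted by the group -/
lemma cut_wavg_mul_of {Ω : Type*} [Fintype Ω] {p : M.toStarSubalgebra} (hs : star p = p)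
    (hp : p * p = p) {t : Ω → M.toStarSubalgebra} (ht : ∀ ω, CU p (t ω)) (w : Ω → ℝ) (T : EndA M)
    (a : M.toStarSubalgebra) (b : Ω → M.toStarSubalgebra)
    (hab : ∀ ω, a * t ω = t ω * b ω) (hba : ∀ ω, b ω * star (t ω) = star (t ω) * a)
    (hb : ∀ ω x, cut p T (x * b ω) = cut p T x * b ω) (x : M.toStarSubalgebra) :
    cut p (wavg p w t T) (x * a) = cut p (wavg p w t T) x * a := by
  rw [cut_wavg hs hp _ ht, cut_wavg hs hp _ ht, Finset.sum_mul]
  refine Finset.sum_congr rfl fun ω _ => ?_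
  rw [smul_mul_assoc, mul_assoc x, hab, ← mul_assoc x, hb, mul_assoc _ (b ω), hba, mul_assoc]

section Units

variable {p : M.toStarSubalgebra} {n : ℕ} {e : Fin n → Fin n → M.toStarSubalgebra}

/-- signed diagonal unitaries -/
def sgnU (e : Fin n → Fin n → M.toStarSubalgebra) (s : Fin n → ℤˣ) : M.toStarSubalgebra :=
  ∑ i, ((s i : ℤ) : ℂ) • e i i

/-- permutation unitaries -/
def permU (e : Fin n → Fin n → M.toStarSubalgebra) (σ : Equiv.Perm (Fin n)) :
    M.toStarSubalgebra := ∑ i, e (σ i) i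

lemma sgnU_mul (he : MU p n e) (s s' : Fin n → ℤˣ) : sgnU e (s * s') = sgnU e s * sgnU e s' := by
  unfold sgnU
  rw [Finset.sum_mul]
  refine Finset.sum_congr rfl fun i _ => ?_
  rw [Finset.mul_sum, Finset.sum_eq_single i]
  · rw [smul_mul_smul_comm, he.mul, if_pos rfl]
    simp
  · intro j _ hj
    rw [smul_mul_smul_comm, he.mul, if_neg (Ne.symm hj), smul_zero]
  · intro hi; exact absurd (Finset.mem_univ i) hi

lemma sgnU_one (he : MU p n e) : sgnU e 1 = p := by
  unfold sgnU
  rw [← he.sum]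
  refine Finset.sum_congr rfl fun i _ => ?_
  simp

lemma star_sgnU (he : MU p n e) (s : Fin n → ℤˣ) : star (sgnU e s) = sgnU e s := by
  unfold sgnU
  rw [star_sum]
  refine Finset.sum_congr rfl fun i _ => ?_
  rw [star_smul, he.st]
  congr 1
  simp

lemma sgnU_CU (he : MU p n e) (s : Fin n → ℤˣ) : CU p (sgnU e s) := by
  have h1 : sgnU e s * sgnU e s = p := by
    rw [← sgnU_mul he, ← sgnU_one he]
    congr 1
    ext i
    simp
  have h3 : p * sgnU e s = sgnU e s := by
    rw [← sgnU_one he, ← sgnU_mul he, one_mul]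
  have h4 : sgnU e s * p = sgnU e s := by
    rw [← sgnU_one he, ← sgnU_mul he, mul_one]
  exact ⟨by rw [star_sgnU he, h1], by rw [star_sgnU he, h1], h3, h4⟩

lemma permU_mul (he : MU p n e) (σ τ : Equiv.Perm (Fin n)) :
    permU e (σ * τ) = permU e σ * permU e τ := by
  unfold permU
  rw [Finset.mul_sum]
  refine Finset.sum_congr rfl fun j _ => ?_
  rw [Finset.sum_mul, Finset.sum_eq_single (τ j)]
  · rw [he.mul, if_pos rfl]; rfl
  · intro i _ hi
    rw [he.mul, if_neg hi]
  · intro hi; exact absurd (Finset.mem_univ _) hi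

lemma permU_one (he : MU p n e) : permU e 1 = p := by
  unfold permU
  rw [← he.sum]; rfl

lemma star_permU (he : MU p n e) (σ : Equiv.Perm (Fin n)) : star (permU e σ) = permU e σ⁻¹ := by
  unfold permU
  rw [star_sum, ← Equiv.sum_comp σ (fun i => e (σ⁻¹ i) i)]
  refine Finset.sum_congr rfl fun i _ => ?_
  rw [he.st]; simp

lemma permU_CU (he : MU p n e) (σ : Equiv.Perm (Fin n)) : CU p (permU e σ) := by
  refine ⟨?_, ?_, ?_, ?_⟩
  · rw [star_permU he, ← permU_mul he, inv_mul_cancel, permU_one he]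
  · rw [star_permU he, ← permU_mul he, mul_inv_cancel, permU_one he]
  · rw [← permU_one he, ← permU_mul he, one_mul]
  · rw [← permU_one he, ← permU_mul he, mul_one]

lemma e_mul_permU (he : MU p n e) (σ : Equiv.Perm (Fin n)) (i : Fin n) :
    e i i * permU e σ = permU e σ * e (σ⁻¹ i) (σ⁻¹ i) := by
  unfold permU
  rw [Finset.mul_sum, Finset.sum_mul, Finset.sum_eq_single (σ⁻¹ i), Finset.sum_eq_single (σ⁻¹ i)]
  · rw [he.mul, he.mul, if_pos rfl]
    simp
  · intro j _ hj
    rw [he.mul, if_neg hj]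
  · intro hi; exact absurd (Finset.mem_univ _) hi
  · intro j _ hj
    rw [he.mul, if_neg]
    intro hij
    apply hj
    rw [hij]; simp
  · intro hi; exact absurd (Finset.mem_univ _) hi

lemma permU_mul_e (he : MU p n e) (σ : Equiv.Perm (Fin n)) (j : Fin n) :
    permU e σ * e j j = e (σ j) j := by
  unfold permU
  rw [Finset.sum_mul, Finset.sum_eq_single j]
  · rw [he.mul, if_pos rfl]
  · intro i _ hi
    rw [he.mul, if_neg hi]
  · intro hi; exact absurd (Finset.mem_univ _) hi

lemma e_eq_sgnU (he : MU p n e) (i : Fin n) :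
    e i i = (2⁻¹ : ℂ) • (p - sgnU e (Function.update 1 i (-1))) := by
  have h1 : p - sgnU e (Function.update 1 i (-1)) = (2 : ℂ) • e i i := by
    rw [← he.sum]
    unfold sgnU
    rw [← Finset.sum_sub_distrib, Finset.sum_eq_single i]
    · simp [two_smul]
    · intro j _ hj
      simp [Function.update_of_ne hj]
    · intro hi; exact absurd (Finset.mem_univ _) hi
  rw [h1, smul_smul]
  norm_num

/-- **There is an averaging operator which is right modular over the matrix units.** -/
theorem exists_rmod_avg (he : MU p n e) : ∃ Λ : EndA M →ₗ[ℂ] EndA M, IsAvg Λ ∧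
    ∀ T, RMod e (cut p (Λ T)) := by
  classical
  have hs := he.star_p
  have hp := he.p_p
  let w₁ : ℝ := ((Fintype.card (Fin n → ℤˣ) : ℝ))⁻¹
  let w₂ : ℝ := ((Fintype.card (Equiv.Perm (Fin n)) : ℝ))⁻¹
  let Λ₁ := wavg p (fun _ : Fin n → ℤˣ => w₁) (sgnU e)
  let Λ₂ := wavg p (fun _ : Equiv.Perm (Fin n) => w₂) (permU e)
  have h₁ : IsAvg Λ₁ := wavg_isAvg hs hp (fun _ => by positivity) (by
    rw [Finset.sum_const, Finset.card_univ, nsmul_eq_mul]
    exact mul_inv_cancel₀ (by exact_mod_cast Fintype.card_ne_zero)) (sgnU_CU he)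
  have h₂ : IsAvg Λ₂ := wavg_isAvg hs hp (fun _ => by positivity) (by
    rw [Finset.sum_const, Finset.card_univ, nsmul_eq_mul]
    exact mul_inv_cancel₀ (by exact_mod_cast Fintype.card_ne_zero)) (permU_CU he)
  have hd : ∀ T x i, cut p (Λ₁ T) (x * e i i) = cut p (Λ₁ T) x * e i i := by
    intro T x i
    rw [e_eq_sgnU he i, mul_smul_comm, mul_smul_comm, map_smul, mul_sub, mul_sub, map_sub,
      cut_mul_p hp, cut_p hp]
    congr 2
    exact cut_gavg_mul hs hp (sgnU_CU he) (sgnU_mul he) w₁ T x _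
  have hd₂ : ∀ T x i, cut p (Λ₂ (Λ₁ T)) (x * e i i) = cut p (Λ₂ (Λ₁ T)) x * e i i := by
    intro T x i
    refine cut_wavg_mul_of hs hp (permU_CU he) _ (Λ₁ T) (e i i)
      (fun σ => e (σ⁻¹ i) (σ⁻¹ i)) (fun σ => e_mul_permU he σ i) (fun σ => ?_)
      (fun σ x => hd T x _) x
    have h3 := congrArg star (e_mul_permU he σ i)
    rw [star_mul, star_mul, he.st, he.st] at h3
    exact h3.symm
  refine ⟨Λ₂ ∘ₗ Λ₁, h₂.comp h₁, fun T x i j => ?_⟩
  change cut p (Λ₂ (Λ₁ T)) (x * e i j) = cut p (Λ₂ (Λ₁ T)) x * e i j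
  have h4 : e i j = permU e (Equiv.swap j i) * e j j := by
    rw [permU_mul_e he, Equiv.swap_apply_left]
  rw [h4, ← mul_assoc, hd₂, ← mul_assoc]
  congr 1
  exact cut_gavg_mul hs hp (permU_CU he) (permU_mul he) w₂ (Λ₁ T) x _

end Units

end

end Crest.Agent.R121.Fin
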