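import Crest.Agent.R121.Fin.Walk

/-!
# Row 121, block FIN: `K`-trace inequalities
-/

set_option autoImplicit false
set_option linter.unusedSectionVars false

namespace Crest.Agent.R121.Fin

open Finset Function Real
open scoped InnerProductSpace

section
variable {A : Type*} [CStarAlgebra A]
variable {H : Type*} [NormedAddCommGroup H] [InnerProductSpace ℂ H] [CompleteSpace H]

attribute [local instance] CStarAlgebra.spectralOrder CStarAlgebra.spectralOrderedRing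

theorem exists_abs {p : A} (hp : star p = p) (_hpp : p * p = p) {D : A} (hD : D * p = D) :
    ∃ h : A, star h = h ∧ h * h = star D * D ∧ p * h = h ∧ h * p = h := by
  have h0 : 0 ≤ star D * D := star_mul_self_nonneg D
  refine ⟨CFC.sqrt (star D * D), ?_, CFC.sqrt_mul_sqrt_self _ h0, ?_, ?_⟩
  · exact (CFC.sqrt_nonneg (star D * D)).isSelfAdjoint
  all_goals
    have hs : star (CFC.sqrt (star D * D)) = CFC.sqrt (star D * D) :=
      (CFC.sqrt_nonneg (star D * D)).isSelfAdjoint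
    have hm : CFC.sqrt (star D * D) * CFC.sqrt (star D * D) = star D * D :=
      CFC.sqrt_mul_sqrt_self _ h0
    have h1 : CFC.sqrt (star D * D) * (1 - p) = 0 := by
      rw [← norm_eq_zero, ← mul_self_eq_zero, ← CStarRing.norm_star_mul_self, star_mul, hs,
        ← mul_assoc, mul_assoc (star (1 - p)), hm]
      have : star D * D * (1 - p) = 0 := by
        rw [mul_sub, mul_one, mul_assoc, hD, sub_self]
      rw [mul_assoc, this, mul_zero, norm_zero]
    have h2 : CFC.sqrt (star D * D) * p = CFC.sqrt (star D * D) := by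
      rw [mul_sub, mul_one, sub_eq_zero] at h1
      exact h1.symm
  · have := congrArg star h2
    rwa [star_mul, hs, hp] at this
  · exact h2

variable {ϖ : A →⋆ₐ[ℂ] (H →L[ℂ] H)} {p : A} {ξ : H} {K : ℝ}

theorem Cor.norm_mul (hc : Cor ϖ p ξ K) (hϖ : ∀ x, ‖ϖ x‖ = ‖x‖) {D x : A} (hD : D * p = D)
    (_hx1 : p * x = x) (hx2 : x * p = x) :
    ‖ϖ (D * x) ξ‖ ^ 2 ≤ K * ‖x‖ ^ 2 * ‖ϖ D ξ‖ ^ 2 := by
  obtain ⟨h, hs, hh, hph, hhp⟩ := exists_abs hc.star_p hc.p_p hD
  have e1 : ‖ϖ (D * x) ξ‖ = ‖ϖ (h * x) ξ‖ := by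
    apply norm_rep_eq
    rw [star_mul, star_mul, mul_assoc, ← mul_assoc (star D), ← hh, hs]
    simp only [mul_assoc]
  have e2 : ‖ϖ D ξ‖ = ‖ϖ h ξ‖ := by
    apply norm_rep_eq
    rw [hs, hh]
  have e3 : ‖ϖ (h * x) ξ‖ ^ 2 ≤ K * ‖ϖ (star (h * x)) ξ‖ ^ 2 :=
    hc.hK _ (by rw [← mul_assoc, hph]) (by rw [mul_assoc, hx2])
  have e4 : ‖ϖ (star (h * x)) ξ‖ ≤ ‖x‖ * ‖ϖ h ξ‖ := by
    rw [star_mul, hs, map_mul, mul_apply_eq_comp]
    refine (norm_rep_le ϖ hϖ _ _).trans ?_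
    rw [norm_star]
  rw [e1, e2]
  refine e3.trans ?_
  rw [mul_assoc, ← mul_pow]
  exact mul_le_mul_of_nonneg_left (pow_le_pow_left₀ (norm_nonneg _) e4 2) hc.K0

end

end Crest.Agent.R121.Fin
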