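import Mathlib

/-!
# Row 121, block FIN: a finite-dimensional minimax lemma
-/

set_option autoImplicit false

namespace Crest.Agent.R121.Fin

open scoped Topology

noncomputable section

theorem minimax_fin {V : Type*} [AddCommGroup V] [Module ℝ V] {K : Set V}
    {J : Type*} [Fintype J] [DecidableEq J] (F : J → V → ℝ) (hF : ∀ j, ConvexOn ℝ K (F j))
    (hK : Convex ℝ K) (hne : K.Nonempty) (c : ℝ)
    (h : ∀ w : J → ℝ, (∀ j, 0 ≤ w j) → ∑ j, w j = 1 → ∃ v ∈ K, ∑ j, w j * F j v ≤ c)
    {δ : ℝ} (hδ : 0 < δ) : ∃ v ∈ K, ∀ j, F j v < c + δ := by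
  by_contra hcon
  push Not at hcon
  set C : Set (J → ℝ) := {v | ∃ x ∈ K, ∀ j, F j x ≤ v j} with hC
  set B : Set (J → ℝ) := Set.pi Set.univ (fun _ => Set.Iio (c + δ)) with hB
  have hCc : Convex ℝ C := by
    rintro v ⟨x, hx, hxv⟩ v' ⟨x', hx', hxv'⟩ a b ha hb hab
    refine ⟨a • x + b • x', hK hx hx' ha hb hab, fun j => ?_⟩
    refine ((hF j).2 hx hx' ha hb hab).trans ?_
    simp only [Pi.add_apply, Pi.smul_apply, smul_eq_mul]
    exact add_le_add (mul_le_mul_of_nonneg_left (hxv j) ha) (mul_le_mul_of_nonneg_left (hxv' j) hb)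
  have hBc : Convex ℝ B := convex_pi fun _ _ => convex_Iio _
  have hBo : IsOpen B := isOpen_set_pi Set.finite_univ fun _ _ => isOpen_Iio
  have hdisj : Disjoint B C := by
    rw [Set.disjoint_left]
    rintro v hvB ⟨x, hx, hxv⟩
    obtain ⟨j, hj⟩ := hcon x hx
    have h1 : v j < c + δ := hvB j (Set.mem_univ j)
    linarith [hxv j]
  obtain ⟨f, u, hfB, hfC⟩ := geometric_hahn_banach_open hBc hBo hCc hdisj
  set w : J → ℝ := fun j => f (Pi.single j 1) with hw
  have hfw : ∀ v : J → ℝ, f v = ∑ j, w j * v j := by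
    intro v
    have h1 : v = ∑ j, v j • (Pi.single j (1 : ℝ) : J → ℝ) := by
      ext i
      simp [Finset.sum_apply, Pi.single_apply]
    conv_lhs => rw [h1]
    rw [map_sum]
    refine Finset.sum_congr rfl fun j _ => ?_
    rw [map_smul, smul_eq_mul, mul_comm]
  obtain ⟨x₀, hx₀⟩ := hne
  have hb₀ : (fun j => F j x₀) ∈ C := ⟨x₀, hx₀, fun j => le_rfl⟩
  have hw0 : ∀ j, 0 ≤ w j := by
    intro j
    by_contra hneg
    push Not at hneg
    set R : ℝ := (f (fun j => F j x₀) - u + 1) / (- w j) with hR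
    have hge : u ≤ f (fun j => F j x₀) := hfC _ hb₀
    have hR0 : 0 ≤ R := div_nonneg (by linarith) (by linarith)
    have h1 : (fun j => F j x₀) + R • (Pi.single j (1 : ℝ) : J → ℝ) ∈ C := by
      refine ⟨x₀, hx₀, fun i => ?_⟩
      simp only [Pi.add_apply, Pi.smul_apply, smul_eq_mul]
      have : 0 ≤ R * (Pi.single j (1 : ℝ) : J → ℝ) i := by
        refine mul_nonneg hR0 ?_
        by_cases hij : i = j
        · subst hij; simp
        · simp [Pi.single_eq_of_ne hij]
      linarith
    have h2 := hfC _ h1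
    rw [map_add, map_smul, smul_eq_mul] at h2
    have h3 : R * f (Pi.single j 1) = -(f (fun j => F j x₀) - u + 1) := by
      rw [hR]
      have hwj : w j ≠ 0 := hneg.ne
      change (f (fun j => F j x₀) - u + 1) / (- w j) * w j = _
      field_simp
    rw [h3] at h2
    linarith
  have hcst : ∀ s : ℝ, s < c + δ → s * ∑ j, w j < u := by
    intro s hs
    have h1 : (fun _ : J => s) ∈ B := fun j _ => hs
    have h2 := hfB _ h1
    rw [hfw] at h2
    rwa [← Finset.sum_mul, mul_comm] at h2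
  have hsum0 : 0 ≤ ∑ j, w j := Finset.sum_nonneg fun j _ => hw0 j
  have hsum : 0 < ∑ j, w j := by
    rcases hsum0.eq_or_lt with h0 | h0
    · exfalso
      have hall : ∀ j, w j = 0 := by
        intro j
        exact (Finset.sum_eq_zero_iff_of_nonneg fun j _ => hw0 j).1 h0.symm j (Finset.mem_univ j)
      have h1 := hcst (c + δ - 1) (by linarith)
      rw [← h0, mul_zero] at h1
      have h2 := hfC _ hb₀
      rw [hfw] at h2
      simp only [hall, zero_mul, Finset.sum_const_zero] at h2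
      linarith
    · exact h0
  obtain ⟨x, hx, hxc⟩ := h (fun j => w j / ∑ j, w j) (fun j => div_nonneg (hw0 j) hsum0) (by
    rw [← Finset.sum_div, div_self hsum.ne'])
  have h1 : ∑ j, w j * F j x ≤ c * ∑ j, w j := by
    have h2 : ∑ j, w j / (∑ j, w j) * F j x = (∑ j, w j * F j x) / ∑ j, w j := by
      rw [Finset.sum_div]
      exact Finset.sum_congr rfl fun j _ => by ring
    rw [h2, div_le_iff₀ hsum] at hxc
    exact hxc
  have h3 : u ≤ ∑ j, w j * F j x := by
    have := hfC (fun j => F j x) ⟨x, hx, fun j => le_rfl⟩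
    rwa [hfw] at this
  have h4 := hcst (c + δ / 2) (by linarith)
  nlinarith

end

end Crest.Agent.R121.Fin
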