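import Mathlib
import Crest.Agent.R121.Fin.Harm
import Crest.Agent.R121.Fin.Minimax
import Crest.Agent.R121.Fin.KTrace

/-!
# Row 121, block FIN, step MM: one averaging operator which is almost right modular over the whole
unitary group of the commutant of the matrix units.
-/

set_option autoImplicit false
set_option linter.unusedSectionVars false

namespace Crest.Agent.R121.Fin

open scoped InnerProductSpace Topology
open ContinuousLinearMap Filter Finset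

noncomputable section

universe u

variable {H : Type u} [NormedAddCommGroup H] [InnerProductSpace ℂ H] [CompleteSpace H]
variable {M : VonNeumannAlgebra H}

/-- the bound of step LA -/
def laB (K : ℝ) (m : ℕ) (ξ : H) (T : EndA M) (y : M.toStarSubalgebra) : ℝ :=
  2 * K * Real.pi ^ 2 * ‖T‖ ^ 2 * ‖y‖ ^ 2 * ‖ξ‖ ^ 2 / (∑ k ∈ range m, 1 / ((k : ℝ) + 1)) ^ 2

/-- defect of `cut p (Λ T)` at `y`, `t`, as a vector -/
def dfc (p : M.toStarSubalgebra) (ξ : H) (T : EndA M) (y t : M.toStarSubalgebra)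
    (Λ : EndA M →ₗ[ℂ] EndA M) : H :=
  ((cut p (Λ T) (y * t) * star t - cut p (Λ T) y : M.toStarSubalgebra) : H →L[ℂ] H) ξ

lemma dfc_def (p : M.toStarSubalgebra) (ξ : H) (T : EndA M) (y t : M.toStarSubalgebra)
    (Λ : EndA M →ₗ[ℂ] EndA M) : dfc p ξ T y t Λ =
      ((cut p (Λ T) (y * t) * star t - cut p (Λ T) y : M.toStarSubalgebra) : H →L[ℂ] H) ξ := rfl

lemma dfc_comb (p : M.toStarSubalgebra) (ξ : H) (T : EndA M) (y t : M.toStarSubalgebra)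
    (Λ Λ' : EndA M →ₗ[ℂ] EndA M) (a b : ℝ) :
    dfc p ξ T y t (a • Λ + b • Λ') = a • dfc p ξ T y t Λ + b • dfc p ξ T y t Λ' := by
  have e1 : (a • Λ + b • Λ') T = (a : ℂ) • Λ T + (b : ℂ) • Λ' T := rfl
  unfold dfc
  rw [e1, cut_add, cut_smul, cut_smul]
  have e2 : (((a : ℂ) • cut p (Λ T) + (b : ℂ) • cut p (Λ' T)) (y * t) * star t -
      ((a : ℂ) • cut p (Λ T) + (b : ℂ) • cut p (Λ' T)) y : M.toStarSubalgebra)
      = (a : ℂ) • (cut p (Λ T) (y * t) * star t - cut p (Λ T) y) +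
        (b : ℂ) • (cut p (Λ' T) (y * t) * star t - cut p (Λ' T) y) := by
    simp only [add_apply, smul_apply, add_mul, smul_mul_assoc, smul_sub]
    abel
  rw [e2]
  rfl

lemma sq_comb_le {E : Type*} [NormedAddCommGroup E] [NormedSpace ℝ E] (x y : E) {a b : ℝ}
    (ha : 0 ≤ a) (hb : 0 ≤ b) (hab : a + b = 1) :
    ‖a • x + b • y‖ ^ 2 ≤ a * ‖x‖ ^ 2 + b * ‖y‖ ^ 2 := by
  have h1 : ‖a • x + b • y‖ ≤ a * ‖x‖ + b * ‖y‖ := by
    refine (norm_add_le _ _).trans ?_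
    rw [norm_smul, norm_smul, Real.norm_of_nonneg ha, Real.norm_of_nonneg hb]
  have h2 : ‖a • x + b • y‖ ^ 2 ≤ (a * ‖x‖ + b * ‖y‖) ^ 2 :=
    pow_le_pow_left₀ (norm_nonneg _) h1 2
  refine h2.trans ?_
  have hb' : b = 1 - a := by linarith
  subst hb'
  nlinarith [mul_nonneg (mul_nonneg ha hb) (sq_nonneg (‖x‖ - ‖y‖))]

attribute [irreducible] dfc

/-- the convex set of averaging operators right modular over the matrix units -/
def AvS {n : ℕ} (p : M.toStarSubalgebra) (e : Fin n → Fin n → M.toStarSubalgebra) :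
    Set (EndA M →ₗ[ℂ] EndA M) := {Λ | IsAvg Λ ∧ ∀ T, RMod e (cut p (Λ T))}

lemma convex_AvS {n : ℕ} (p : M.toStarSubalgebra) (e : Fin n → Fin n → M.toStarSubalgebra) :
    Convex ℝ (AvS p e) := by
  rintro Λ ⟨h1, h2⟩ Λ' ⟨h1', h2'⟩ a b ha hb hab
  refine ⟨?_, fun T => ?_⟩
  · have h3 := IsAvg.convex (M := M) (s := (Finset.univ : Finset Bool))
      (w := fun i => if i then a else b)
      (fun k _ => by rcases k <;> simp [ha, hb]) (by simp [hab])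
      (Λ := fun i => if i then Λ else Λ') (fun k _ => by rcases k <;> simp [h1, h1'])
    have h4 : (∑ k : Bool, (((if k then a else b : ℝ)) : ℂ) • (if k then Λ else Λ'))
        = a • Λ + b • Λ' := by
      rw [Fintype.sum_bool]
      rfl
    rw [h4] at h3
    exact h3
  · have e1 : (a • Λ + b • Λ') T = (a : ℂ) • Λ T + (b : ℂ) • Λ' T := rfl
    rw [e1, cut_add, cut_smul, cut_smul]
    exact rmod_add (rmod_smul _ (h2 T)) (rmod_smul _ (h2' T))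

/-- The statement of step LA for the von Neumann algebra `M`. -/
def LAHyp (M : VonNeumannAlgebra H) (p : M.toStarSubalgebra) (ξ : H) (K : ℝ) (m : ℕ)
    (e : Fin (2 * m) → Fin (2 * m) → M.toStarSubalgebra) : Prop :=
  ∀ (S : EndA M), RMod e S → ∀ (Ω : Type u) [Fintype Ω] (w : Ω → ℝ), (∀ ω, 0 ≤ w ω) →
    ∑ ω, w ω = 1 → ∀ t : Ω → M.toStarSubalgebra, (∀ ω, CU p (t ω)) →
    (∀ ω i j, t ω * e i j = e i j * t ω) →
    (∀ y, ∑ ω, (w ω : ℂ) • (S (y * t ω) * star (t ω)) = S y) → ∀ y : M.toStarSubalgebra,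
    ∑ ω, w ω * ‖vinc M (S (y * t ω) * star (t ω) - S y) ξ‖ ^ 2 ≤ laB K m ξ S y

set_option maxHeartbeats 2000000 in
/-- finite stage: minimax -/
theorem mm_finite {p : M.toStarSubalgebra} {ξ : H} {K : ℝ} {m : ℕ}
    {e : Fin (2 * m) → Fin (2 * m) → M.toStarSubalgebra}
    (he : MU p (2 * m) e) (hLA : LAHyp M p ξ K m e) (hK0 : 0 ≤ K)
    (F : Finset (EndA M × M.toStarSubalgebra)) {δ : ℝ} (hδ : 0 < δ)
    {J : Type u} [Fintype J] (t : J → M.toStarSubalgebra) (ht : ∀ j, CU p (t j))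
    (hte : ∀ j i k, t j * e i k = e i k * t j) :
    ∃ Λ ∈ AvS p e, ∀ j, ∑ q ∈ F, ‖dfc p ξ q.1 q.2 (t j) Λ‖ ^ 2 <
      ∑ q ∈ F, laB K m ξ q.1 q.2 + δ := by
  classical
  have hs := he.star_p
  have hp := he.p_p
  have hne : (AvS p e).Nonempty := by
    obtain ⟨Λ, h1, h2⟩ := exists_rmod_avg he
    exact ⟨Λ, h1, h2⟩
  have hconv : ∀ j : J, ConvexOn ℝ (AvS p e)
      (fun Λ => ∑ q ∈ F, ‖dfc p ξ q.1 q.2 (t j) Λ‖ ^ 2) := by
    intro j
    refine ⟨convex_AvS p e, fun Λ _ Λ' _ a b ha hb hab => ?_⟩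
    simp only [smul_eq_mul]
    rw [Finset.mul_sum, Finset.mul_sum, ← Finset.sum_add_distrib]
    refine Finset.sum_le_sum fun q _ => ?_
    rw [dfc_comb]
    exact sq_comb_le _ _ ha hb hab
  refine minimax_fin (K := AvS p e) (J := J)
    (fun j Λ => ∑ q ∈ F, ‖dfc p ξ q.1 q.2 (t j) Λ‖ ^ 2) hconv (convex_AvS p e) hne _ ?_ hδ
  intro w hw hw1
  obtain ⟨Λ, hΛ, hΛr, hharm⟩ := exists_harm he hw hw1 (t := t) ht hte
  refine ⟨Λ, ⟨hΛ, hΛr⟩, ?_⟩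
  have h5 : ∑ j, w j * ∑ q ∈ F, ‖dfc p ξ q.1 q.2 (t j) Λ‖ ^ 2
      = ∑ q ∈ F, ∑ j, w j * ‖dfc p ξ q.1 q.2 (t j) Λ‖ ^ 2 := by
    rw [Finset.sum_comm]
    exact Finset.sum_congr rfl fun j _ => Finset.mul_sum _ _ _
  rw [h5]
  refine Finset.sum_le_sum fun q _ => ?_
  have h6 := hLA (cut p (Λ q.1)) (hΛr q.1) J w hw hw1 t ht hte (hharm q.1) q.2
  have h8 : ∑ j, w j * ‖dfc p ξ q.1 q.2 (t j) Λ‖ ^ 2 =
      ∑ ω, w ω * ‖vinc M ((cut p (Λ q.1)) (q.2 * t ω) * star (t ω) -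
        (cut p (Λ q.1)) q.2) ξ‖ ^ 2 := by
    refine Finset.sum_congr rfl fun j _ => ?_
    rw [dfc_def]
    rfl
  rw [h8]
  refine h6.trans ?_
  have h7 : ‖cut p (Λ q.1)‖ ≤ ‖q.1‖ := (norm_cut_le hs hp _).trans (hΛ.norm _)
  unfold laB
  gcongr

/-- infinite stage -/
theorem mm_unif {p : M.toStarSubalgebra} {ξ : H} {K : ℝ} {m : ℕ}
    {e : Fin (2 * m) → Fin (2 * m) → M.toStarSubalgebra}
    (he : MU p (2 * m) e) (hLA : LAHyp M p ξ K m e) (hK0 : 0 ≤ K)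
    (F : Finset (EndA M × M.toStarSubalgebra)) {δ : ℝ} (hδ : 0 < δ) :
    ∃ Λ : EndA M →ₗ[ℂ] EndA M, IsAvg Λ ∧ (∀ T, RMod e (cut p (Λ T))) ∧
      ∀ q ∈ F, ∀ t, CU p t → (∀ i j, t * e i j = e i j * t) →
        ‖dfc p ξ q.1 q.2 t Λ‖ ^ 2 ≤ ∑ q ∈ F, laB K m ξ q.1 q.2 + δ := by
  classical
  have hB0 : ∀ T y, 0 ≤ laB (M := M) K m ξ T y := fun T y => by
    unfold laB; positivity
  set c : ℝ := ∑ q ∈ F, laB K m ξ q.1 q.2 with hcdef
  let 𝒯 := {t : M.toStarSubalgebra // CU p t ∧ ∀ i j, t * e i j = e i j * t}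
  have hfin : ∀ s : Finset 𝒯, ∃ Λ : EndA M →ₗ[ℂ] EndA M, (IsAvg Λ ∧
      ∀ T, RMod e (cut p (Λ T))) ∧ ∀ t ∈ s, ∀ q ∈ F,
      ‖dfc p ξ q.1 q.2 (t : M.toStarSubalgebra) Λ‖ ^ 2 ≤ c + δ := by
    intro s
    obtain ⟨Λ, hΛ, h4⟩ := mm_finite he hLA hK0 F hδ
      (fun t : s => ((t : 𝒯) : M.toStarSubalgebra)) (fun t => (t : 𝒯).2.1)
        (fun t => (t : 𝒯).2.2)
    refine ⟨Λ, hΛ, fun t ht q hq => ?_⟩
    refine le_trans ?_ (h4 ⟨t, ht⟩).le
    exact Finset.single_le_sum (f := fun q : EndA M × M.toStarSubalgebra =>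
      ‖dfc p ξ q.1 q.2 (t : M.toStarSubalgebra) Λ‖ ^ 2) (fun _ _ => sq_nonneg _) hq
  choose L hL hLF using hfin
  let 𝒰 : Ultrafilter (Finset 𝒯) := Ultrafilter.of atTop
  obtain ⟨Λ, hΛ, hlim⟩ := exists_limit 𝒰 (fun s => (hL s).1)
  have hlim' : ATends 𝒰 L Λ := hlim
  refine ⟨Λ, hΛ, fun T => rmod_limit hlim' (fun s => (hL s).2) T, ?_⟩
  intro q hq t ht hte
  have h1 : WTends 𝒰 (fun s => ((cut p (L s q.1) (q.2 * t) * star t - cut p (L s q.1) q.2 :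
      M.toStarSubalgebra) : H →L[ℂ] H))
      ((cut p (Λ q.1) (q.2 * t) * star t - cut p (Λ q.1) q.2 : M.toStarSubalgebra) :
        H →L[ℂ] H) := by
    exact (((hlim' q.1 (q.2 * t * p)).mul_right (p : H →L[ℂ] H)).mul_right
      ((star t : M.toStarSubalgebra) : H →L[ℂ] H)).sub
      ((hlim' q.1 (q.2 * p)).mul_right (p : H →L[ℂ] H))
  have hcδ : 0 ≤ c + δ := by
    have : 0 ≤ c := Finset.sum_nonneg fun q _ => hB0 _ _
    linarith
  have h2 : ‖dfc p ξ q.1 q.2 t Λ‖ ≤ Real.sqrt (c + δ) := by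
    rw [dfc_def]
    refine WTends.norm_apply_le h1 ξ (Real.sqrt_nonneg _) ?_
    have h3 : ∀ᶠ s in (𝒰 : Filter (Finset 𝒯)), ({⟨t, ht, hte⟩} : Finset 𝒯) ≤ s :=
      (Ultrafilter.of_le atTop) (eventually_ge_atTop _)
    filter_upwards [h3] with s hs'
    have h5 := hLF s ⟨t, ht, hte⟩ (hs' (Finset.mem_singleton_self _)) q hq
    rw [dfc_def] at h5
    exact Real.le_sqrt_of_sq_le h5
  rw [← Real.sqrt_le_sqrt_iff hcδ, Real.sqrt_sq (norm_nonneg _)]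
  exact h2

set_option maxHeartbeats 2000000 in
theorem mm_of_LA (M : VonNeumannAlgebra H) {p : M.toStarSubalgebra} {ξ : H} {K : ℝ}
    (hc : Cor (vinc M) p ξ K) {m : ℕ} {e : Fin (2 * m) → Fin (2 * m) → M.toStarSubalgebra}
    (he : MU p (2 * m) e) (hLA : LAHyp M p ξ K m e)
    (F : Finset (EndA M × M.toStarSubalgebra)) {ε : ℝ} (hε0 : 0 < ε)
    (hε : ∀ q ∈ F, (F.card : ℝ) * (K * laB K m ξ q.1 q.2) < ε ^ 2) :
    ∃ Λ : EndA M →ₗ[ℂ] EndA M, IsAvg Λ ∧ (∀ T, RMod e (cut p (Λ T))) ∧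
      ∀ q ∈ F, ∀ t, CU p t → (∀ i j, t * e i j = e i j * t) →
        ‖((cut p (Λ q.1) (q.2 * t) - cut p (Λ q.1) q.2 * t : M.toStarSubalgebra) :
          H →L[ℂ] H) ξ‖ ≤ ε := by
  classical
  have hs := he.star_p
  have hp := he.p_p
  have hK0 := hc.K0
  set c : ℝ := ∑ q ∈ F, laB K m ξ q.1 q.2 with hcdef
  have hKc : K * c < ε ^ 2 := by
    rcases F.eq_empty_or_nonempty with rfl | hne
    · simp only [hcdef, Finset.sum_empty, mul_zero]; positivity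
    · have h1 : ∑ q ∈ F, (F.card : ℝ) * (K * laB K m ξ q.1 q.2) < ∑ _q ∈ F, ε ^ 2 :=
        Finset.sum_lt_sum_of_nonempty hne hε
      rw [← Finset.mul_sum, ← Finset.mul_sum, Finset.sum_const, nsmul_eq_mul] at h1
      have h2 : (0 : ℝ) < F.card := by exact_mod_cast hne.card_pos
      exact lt_of_mul_lt_mul_left h1 h2.le
  set δ : ℝ := (ε ^ 2 - K * c) / (K + 1) with hδdef
  have hδ : 0 < δ := div_pos (by linarith) (by linarith)
  have hKδ : K * (c + δ) ≤ ε ^ 2 := by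
    have h1 : (K + 1) * δ = ε ^ 2 - K * c := by
      rw [hδdef]; field_simp
    nlinarith
  obtain ⟨Λ, hΛ, hΛr, hdf⟩ := mm_unif he hLA hK0 F hδ
  refine ⟨Λ, hΛ, hΛr, fun q hq t ht hte => ?_⟩
  have h3 := hdf q hq t ht hte
  rw [← hcdef] at h3
  -- conversion
  set D : M.toStarSubalgebra := cut p (Λ q.1) (q.2 * t) * star t - cut p (Λ q.1) q.2 with hD
  have hDp : D * p = D := by
    rw [hD, sub_mul, mul_assoc, ht.right' hs, cut_p hp]
  have hDt : cut p (Λ q.1) (q.2 * t) - cut p (Λ q.1) q.2 * t = D * t := by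
    rw [hD, sub_mul, mul_assoc, ht.st_mul, cut_p hp]
  have h4 := hc.norm_mul norm_vinc hDp ht.left ht.right
  rw [hDt]
  have h5 : ‖t‖ ≤ 1 := by
    have h6 : ‖star t * t‖ = ‖t‖ * ‖t‖ := CStarRing.norm_star_mul_self
    rw [ht.st_mul] at h6
    have h7 := norm_proj_le hs hp
    nlinarith [norm_nonneg t]
  have h8 : ‖vinc M (D * t) ξ‖ ^ 2 ≤ ε ^ 2 := by
    refine h4.trans ?_
    have h9 : ‖vinc M D ξ‖ ^ 2 ≤ c + δ := by
      rw [dfc_def] at h3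
      exact h3
    have h10 : ‖t‖ ^ 2 ≤ 1 := pow_le_one₀ (norm_nonneg _) h5
    calc K * ‖t‖ ^ 2 * ‖vinc M D ξ‖ ^ 2 ≤ K * 1 * (c + δ) := by gcongr
      _ ≤ ε ^ 2 := by linarith
  exact (abs_le_of_sq_le_sq' h8 hε0.le).2

end

end Crest.Agent.R121.Fin
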