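import Mathlib
import Crest.Agent.R121.Fin.MM
import Crest.Agent.R121.Fin.LA

/-!
# Row 121, block FIN: step MM, final form
-/

set_option autoImplicit false
set_option linter.unusedSectionVars false

namespace Crest.Agent.R121.Fin

open scoped InnerProductSpace Topology
open ContinuousLinearMap Filter Finset

noncomputable section

universe u

variable {H : Type u} [NormedAddCommGroup H] [InnerProductSpace ℂ H] [CompleteSpace H]

theorem laHyp (M : VonNeumannAlgebra H) {p : M.toStarSubalgebra} {ξ : H} {K : ℝ}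
    (hc : Cor (vinc M) p ξ K) {m : ℕ} (hm : 0 < m)
    {e : Fin (2 * m) → Fin (2 * m) → M.toStarSubalgebra}
    (he : MU p (2 * m) e) : LAHyp M p ξ K m e := by
  intro S hS Ω _ w hw hw1 t ht hte harm y
  exact LA norm_vinc hc hm he hS w hw hw1 t ht hte harm y

/-- **Step MM.** -/
theorem mm (M : VonNeumannAlgebra H) {p : M.toStarSubalgebra} {ξ : H} {K : ℝ}
    (hc : Cor (vinc M) p ξ K) {m : ℕ} (hm : 0 < m)
    {e : Fin (2 * m) → Fin (2 * m) → M.toStarSubalgebra}
    (he : MU p (2 * m) e)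
    (F : Finset (EndA M × M.toStarSubalgebra)) {ε : ℝ} (hε0 : 0 < ε)
    (hε : ∀ q ∈ F, (F.card : ℝ) * (K * laB K m ξ q.1 q.2) < ε ^ 2) :
    ∃ Λ : EndA M →ₗ[ℂ] EndA M, IsAvg Λ ∧ (∀ T, RMod e (cut p (Λ T))) ∧
      ∀ q ∈ F, ∀ t, CU p t → (∀ i j, t * e i j = e i j * t) →
        ‖((cut p (Λ q.1) (q.2 * t) - cut p (Λ q.1) q.2 * t : M.toStarSubalgebra) :
          H →L[ℂ] H) ξ‖ ≤ ε :=
  mm_of_LA M hc he (laHyp M hc hm he) F hε0 hε

end

end Crest.Agent.R121.Fin
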