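import Mathlib

/-!
# Row 121: Hilbert's inequality for finite sequences in a Hilbert space
-/

set_option autoImplicit false

namespace Crest.Agent.R121.Fin

open Real MeasureTheory intervalIntegral Finset
open scoped InnerProductSpace

lemma int_exp (k : ℤ) :
    ∫ θ in (0:ℝ)..(2 * π), Complex.exp (Complex.I * k * θ) = if k = 0 then 2 * π else 0 := by
  split_ifs with h
  · subst h
    simp
  · have hk : Complex.I * (k : ℂ) ≠ 0 := mul_ne_zero Complex.I_ne_zero (by exact_mod_cast h)
    rw [integral_exp_mul_complex hk]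
    have : Complex.exp (Complex.I * k * ((2 * π : ℝ) : ℂ)) = 1 := by
      rw [Complex.exp_eq_one_iff]
      exact ⟨k, by push_cast; ring⟩
    rw [this]
    simp

lemma int_saw (k : ℤ) :
    ∫ θ in (0:ℝ)..(2 * π), ((π : ℂ) - θ) * Complex.exp (Complex.I * k * θ) =
      2 * π * Complex.I * ((k : ℂ))⁻¹ := by
  by_cases h : k = 0
  · subst h
    simp
    have : ∫ θ in (0:ℝ)..(2 * π), ((π : ℂ) - θ) = ((∫ θ in (0:ℝ)..(2 * π), (π - θ) : ℝ) : ℂ) := by
      rw [← intervalIntegral.integral_ofReal]
      push_cast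
      rfl
    rw [this]
    have h2 : ∫ θ in (0:ℝ)..(2 * π), (π - θ) = 0 := by
      rw [intervalIntegral.integral_sub (by simp) (by simp)]
      simp only [intervalIntegral.integral_const, integral_id, smul_eq_mul]
      ring
    rw [h2]
    simp
  · have hk : Complex.I * (k : ℂ) ≠ 0 := mul_ne_zero Complex.I_ne_zero (by exact_mod_cast h)
    have hk0 : (k : ℂ) ≠ 0 := by exact_mod_cast h
    have hd : ∀ x : ℝ, HasDerivAt
        (fun θ : ℝ => ((π : ℂ) - θ) * (Complex.exp (Complex.I * k * θ) / (Complex.I * k)) +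
          Complex.exp (Complex.I * k * θ) / (Complex.I * k) ^ 2)
        (((π : ℂ) - x) * Complex.exp (Complex.I * k * x)) x := by
      intro x
      have h1 : HasDerivAt (fun θ : ℝ => Complex.exp (Complex.I * k * θ))
          (Complex.exp (Complex.I * k * x) * (Complex.I * k)) x := by
        have : HasDerivAt (fun θ : ℝ => (Complex.I * k * (θ : ℂ))) (Complex.I * k) x := by
          simpa using (Complex.ofRealCLM.hasDerivAt (x := x)).const_mul (Complex.I * k)
        exact this.cexp
      have h2 : HasDerivAt (fun θ : ℝ => ((π : ℂ) - θ)) (-1) x := by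
        simpa using (Complex.ofRealCLM.hasDerivAt (x := x)).const_sub (π : ℂ)
      have h3 := (h2.mul (h1.div_const (Complex.I * k))).add (h1.div_const ((Complex.I * k) ^ 2))
      have e2 : Complex.exp (Complex.I * k * x) * (Complex.I * k) / (Complex.I * k) =
          Complex.exp (Complex.I * k * x) := mul_div_cancel_right₀ _ hk
      have e3 : Complex.exp (Complex.I * k * x) * (Complex.I * k) / (Complex.I * k) ^ 2 =
          Complex.exp (Complex.I * k * x) / (Complex.I * k) := by
        rw [sq, ← div_div, e2]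
      rw [e2, e3] at h3
      have e4 : -1 * (Complex.exp (Complex.I * k * x) / (Complex.I * k)) +
          ((π : ℂ) - x) * Complex.exp (Complex.I * k * x) +
          Complex.exp (Complex.I * k * x) / (Complex.I * k) =
          ((π : ℂ) - x) * Complex.exp (Complex.I * k * x) := by ring
      rw [e4] at h3
      exact h3
    rw [intervalIntegral.integral_eq_sub_of_hasDerivAt (fun x _ => hd x)]
    · have e1 : Complex.exp (Complex.I * k * ((2 * π : ℝ) : ℂ)) = 1 := by
        rw [Complex.exp_eq_one_iff]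
        exact ⟨k, by push_cast; ring⟩
      rw [e1]
      push_cast
      simp only [mul_zero, Complex.exp_zero, sub_zero]
      field_simp
      linear_combination (-2 * (π : ℂ) * Complex.I * k) * Complex.I_sq
    · apply Continuous.intervalIntegrable
      fun_prop

variable {H : Type*} [NormedAddCommGroup H] [InnerProductSpace ℂ H]

/-- the trigonometric polynomial with coefficients `v` -/
noncomputable def tp (n : ℕ) (v : ℕ → H) (θ : ℝ) : H :=
  ∑ j ∈ range n, Complex.exp (Complex.I * j * θ) • v j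

lemma continuous_tp (n : ℕ) (v : ℕ → H) : Continuous (tp n v) := by
  unfold tp
  fun_prop

lemma inner_tp (n : ℕ) (v w : ℕ → H) (θ : ℝ) :
    ⟪tp n w θ, tp n v θ⟫_ℂ =
      ∑ i ∈ range n, ∑ j ∈ range n,
        Complex.exp (Complex.I * ((j : ℤ) - (i : ℤ) : ℤ) * θ) * ⟪w i, v j⟫_ℂ := by
  unfold tp
  rw [sum_inner]
  refine sum_congr rfl fun i _ => ?_
  rw [inner_sum]
  refine sum_congr rfl fun j _ => ?_
  rw [inner_smul_left, inner_smul_right, ← mul_assoc]
  congr 1
  rw [← Complex.exp_conj, ← Complex.exp_add]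
  congr 1
  simp only [map_mul, Complex.conj_I, Complex.conj_natCast, Complex.conj_ofReal]
  push_cast
  ring

lemma int_norm_tp (n : ℕ) (v : ℕ → H) :
    ∫ θ in (0:ℝ)..(2 * π), ‖tp n v θ‖ ^ 2 = 2 * π * ∑ j ∈ range n, ‖v j‖ ^ 2 := by
  have h1 : ((∫ θ in (0:ℝ)..(2 * π), ‖tp n v θ‖ ^ 2 : ℝ) : ℂ) =
      ((2 * π * ∑ j ∈ range n, ‖v j‖ ^ 2 : ℝ) : ℂ) := by
    rw [← intervalIntegral.integral_ofReal]
    have h2 : ∀ θ : ℝ, ((‖tp n v θ‖ ^ 2 : ℝ) : ℂ) = ∑ i ∈ range n, ∑ j ∈ range n,
        Complex.exp (Complex.I * ((j : ℤ) - (i : ℤ) : ℤ) * θ) * ⟪v i, v j⟫_ℂ := by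
      intro θ
      rw [← inner_tp, inner_self_eq_norm_sq_to_K]
      norm_cast
    simp_rw [h2]
    rw [intervalIntegral.integral_finsetSum]
    · have h3 : ∀ i ∈ range n, (∫ θ in (0:ℝ)..(2 * π), ∑ j ∈ range n,
          Complex.exp (Complex.I * ((j : ℤ) - (i : ℤ) : ℤ) * θ) * ⟪v i, v j⟫_ℂ) =
          2 * π * (‖v i‖ ^ 2 : ℝ) := by
        intro i hi
        rw [intervalIntegral.integral_finsetSum]
        · simp_rw [intervalIntegral.integral_mul_const, int_exp]
          rw [Finset.sum_eq_single i]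
          · simp only [sub_self, if_true]
            rw [inner_self_eq_norm_sq_to_K]
            push_cast
            rfl
          · intro j _ hj
            have : ((j : ℤ) - (i : ℤ)) ≠ 0 := by
              intro h
              exact hj (by omega)
            rw [if_neg this]
            simp
          · intro h
            exact absurd hi h
        · intro j _
          apply Continuous.intervalIntegrable
          fun_prop
      rw [sum_congr rfl h3]
      push_cast
      rw [mul_sum]
    · intro i _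
      apply Continuous.intervalIntegrable
      fun_prop
  exact_mod_cast h1

/-- **Hilbert's inequality** (finite form, values in an inner product space) -/
theorem hilbert_ineq (n : ℕ) (v : ℕ → H) :
    ∑ i ∈ range n, ‖∑ j ∈ range n, (((j : ℂ) - (i : ℂ))⁻¹) • v j‖ ^ 2 ≤
      π ^ 2 * ∑ j ∈ range n, ‖v j‖ ^ 2 := by
  set w : ℕ → H := fun i => ∑ j ∈ range n, (((j : ℂ) - (i : ℂ))⁻¹) • v j with hw
  have key : ((2 * π * ∑ i ∈ range n, ‖w i‖ ^ 2 : ℝ) : ℂ) =
      -Complex.I * ∫ θ in (0:ℝ)..(2 * π), ((π : ℂ) - θ) * ⟪tp n w θ, tp n v θ⟫_ℂ := by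
    have h2 : ∀ θ : ℝ, ((π : ℂ) - θ) * ⟪tp n w θ, tp n v θ⟫_ℂ = ∑ i ∈ range n, ∑ j ∈ range n,
        (((π : ℂ) - θ) * Complex.exp (Complex.I * ((j : ℤ) - (i : ℤ) : ℤ) * θ)) *
          ⟪w i, v j⟫_ℂ := by
      intro θ
      rw [inner_tp, mul_sum]
      refine sum_congr rfl fun i _ => ?_
      rw [mul_sum]
      refine sum_congr rfl fun j _ => ?_
      ring
    simp_rw [h2]
    rw [intervalIntegral.integral_finsetSum]
    · have h3 : ∀ i ∈ range n, (∫ θ in (0:ℝ)..(2 * π), ∑ j ∈ range n,
          (((π : ℂ) - θ) * Complex.exp (Complex.I * ((j : ℤ) - (i : ℤ) : ℤ) * θ)) *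
            ⟪w i, v j⟫_ℂ) = 2 * π * Complex.I * (‖w i‖ ^ 2 : ℝ) := by
        intro i _
        rw [intervalIntegral.integral_finsetSum]
        · simp_rw [intervalIntegral.integral_mul_const, int_saw]
          have : ((‖w i‖ ^ 2 : ℝ) : ℂ) = ⟪w i, w i⟫_ℂ := by
            rw [inner_self_eq_norm_sq_to_K]
            norm_cast
          rw [this]
          conv_rhs => rw [hw]
          simp only
          rw [inner_sum, mul_sum]
          refine sum_congr rfl fun j _ => ?_
          rw [inner_smul_right]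
          push_cast
          ring
        · intro j _
          apply Continuous.intervalIntegrable
          fun_prop
      rw [sum_congr rfl h3]
      push_cast
      rw [mul_sum, mul_sum]
      refine sum_congr rfl fun j _ => ?_
      linear_combination (2 * π * (‖w j‖ : ℂ) ^ 2) * Complex.I_sq
    · intro i _
      apply Continuous.intervalIntegrable
      fun_prop
  have hle : 2 * π * ∑ i ∈ range n, ‖w i‖ ^ 2 ≤
      ∫ θ in (0:ℝ)..(2 * π), ((1 / 2) * ‖tp n w θ‖ ^ 2 + (π ^ 2 / 2) * ‖tp n v θ‖ ^ 2) := by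
    have h0 : 0 ≤ 2 * π * ∑ i ∈ range n, ‖w i‖ ^ 2 := by positivity
    have h1 : 2 * π * ∑ i ∈ range n, ‖w i‖ ^ 2 =
        ‖∫ θ in (0:ℝ)..(2 * π), ((π : ℂ) - θ) * ⟪tp n w θ, tp n v θ⟫_ℂ‖ := by
      have := congrArg norm key
      rw [norm_mul, norm_neg, Complex.norm_I, one_mul, Complex.norm_real,
        Real.norm_of_nonneg h0] at this
      exact this
    rw [h1]
    refine (intervalIntegral.norm_integral_le_integral_norm (by positivity)).trans ?_
    apply intervalIntegral.integral_mono_on (by positivity)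
    · apply Continuous.intervalIntegrable
      have := continuous_tp n v
      have := continuous_tp n w
      fun_prop
    · apply Continuous.intervalIntegrable
      have := continuous_tp n v
      have := continuous_tp n w
      fun_prop
    · intro θ hθ
      rw [norm_mul]
      have a1 : ‖(π : ℂ) - θ‖ ≤ π := by
        have : (π : ℂ) - θ = ((π - θ : ℝ) : ℂ) := by push_cast; rfl
        rw [this, Complex.norm_real, Real.norm_eq_abs, abs_le]
        constructor <;> linarith [hθ.1, hθ.2]
      have a2 : ‖⟪tp n w θ, tp n v θ⟫_ℂ‖ ≤ ‖tp n w θ‖ * ‖tp n v θ‖ := norm_inner_le_norm _ _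
      calc ‖(π : ℂ) - θ‖ * ‖⟪tp n w θ, tp n v θ⟫_ℂ‖ ≤ π * (‖tp n w θ‖ * ‖tp n v θ‖) := by
            gcongr
        _ ≤ (1 / 2) * ‖tp n w θ‖ ^ 2 + (π ^ 2 / 2) * ‖tp n v θ‖ ^ 2 := by
            nlinarith [sq_nonneg (‖tp n w θ‖ - π * ‖tp n v θ‖)]
  rw [intervalIntegral.integral_add, intervalIntegral.integral_const_mul,
    intervalIntegral.integral_const_mul, int_norm_tp, int_norm_tp] at hle
  · have hpi : 0 < π := Real.pi_pos
    have : π * ∑ i ∈ range n, ‖w i‖ ^ 2 ≤ π * (π ^ 2 * ∑ j ∈ range n, ‖v j‖ ^ 2) := by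
      nlinarith
    exact le_of_mul_le_mul_left this hpi
  · apply Continuous.intervalIntegrable
    have := continuous_tp n w
    fun_prop
  · apply Continuous.intervalIntegrable
    have := continuous_tp n v
    fun_prop

end Crest.Agent.R121.Fin
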