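import Crest.Agent.R121.Fin.Walk

/-!
# Row 121, block FIN, module LA, part 2: the estimate for harmonic maps
-/

set_option autoImplicit false
set_option linter.unusedSectionVars false

namespace Crest.Agent.R121.Fin

open Finset Function Real
open scoped InnerProductSpace

section
variable {A : Type*} [CStarAlgebra A]
variable {H : Type*} [NormedAddCommGroup H] [InnerProductSpace ℂ H] [CompleteSpace H]

theorem hilbert_fin (n : ℕ) (v : Fin n → H) :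
    ∑ i : Fin n, ‖∑ j : Fin n, ((((j : ℕ) : ℂ) - ((i : ℕ) : ℂ))⁻¹) • v j‖ ^ 2 ≤
      π ^ 2 * ∑ j, ‖v j‖ ^ 2 := by
  have h := hilbert_ineq n (fun j => if h : j < n then v ⟨j, h⟩ else 0)
  simp only [Finset.sum_range] at h
  simpa using h

/-- data of a random walk with steps `t x` (signed), and a harmonic right modular map -/
structure WD {X : Type*} [Fintype X] (p : A) {n : ℕ} (e : Fin n → Fin n → A) (w : X → ℝ)
    (t : X → A) (neg : X → X) (S : A →L[ℂ] A) : Prop where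
  mu : MU p n e
  hw : ∀ x, 0 ≤ w x
  hw1 : ∑ x, w x = 1
  hn : Involutive neg
  hwn : ∀ x, w (neg x) = w x
  htn : ∀ x, t (neg x) = - t x
  ht : ∀ x, CU p (t x)
  htc : ∀ x i j, t x * e i j = e i j * t x
  harm : ∀ y, ∑ x, (w x : ℂ) • (S (y * t x) * star (t x)) = S y
  rmod : RMod e S

variable {X : Type*} [Fintype X] {p : A} {n : ℕ} {e : Fin n → Fin n → A} {w : X → ℝ}
  {t : X → A} {neg : X → X} {S : A →L[ℂ] A}
variable (ϖ : A →⋆ₐ[ℂ] (H →L[ℂ] H))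

/-- the operator `U⋆ K U` -/
noncomputable def XX (p : A) (e : Fin n → Fin n → A) (t : X → A) (τ : ℕ → X) : A :=
  ∑ l : Fin n, ∑ j : Fin n, ((((j : ℕ) : ℂ) - ((l : ℕ) : ℂ))⁻¹) •
    (star (wk t p τ l) * wk t p τ j * e l j)

theorem rep_XX (h : WD p e w t neg S) (τ : ℕ → X) (i0 : Fin n) (v : H) :
    ϖ (XX p e t τ) v = ∑ l : Fin n, ϖ (star (wk t p τ l) * e l i0)
      (∑ j : Fin n, ((((j : ℕ) : ℂ) - ((l : ℕ) : ℂ))⁻¹) • ϖ (e i0 j * wk t p τ j) v) := by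
  unfold XX
  rw [map_sum, _root_.sum_apply]
  refine sum_congr rfl fun l _ => ?_
  rw [map_sum, _root_.sum_apply, map_sum]
  refine sum_congr rfl fun j _ => ?_
  rw [map_smul, _root_.smul_apply, map_smul, ← mul_apply_eq_comp, ← map_mul]
  congr 3
  rw [mul_assoc, wk_comm h.mu h.htc, mul_assoc (star _) (e l i0), ← mul_assoc (e l i0),
    h.mu.mul, if_pos rfl]

theorem orth_aux (h : WD p e w t neg S) (τ : ℕ → X) (i0 : Fin n) (a : Fin n → H) :
    ‖∑ l : Fin n, ϖ (star (wk t p τ l) * e l i0) (a l)‖ ^ 2 =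
      ∑ l : Fin n, ‖ϖ (star (wk t p τ l) * e l i0) (a l)‖ ^ 2 := by
  apply norm_sq_sum
  intro l _ k _ hlk
  rw [inner_rep_left, ← mul_apply_eq_comp, ← map_mul]
  have : star (star (wk t p τ l) * e l i0) * (star (wk t p τ k) * e k i0) = 0 := by
    rw [star_mul, star_star, h.mu.st, ← wk_comm h.mu h.htc, star_comm h.mu
      (fun i j => wk_comm h.mu h.htc τ k i j), mul_assoc, ← mul_assoc (e i0 l), h.mu.mul,
      if_neg hlk, zero_mul, mul_zero]
  rw [this]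
  simp

theorem norm_XX (hϖ : ∀ x, ‖ϖ x‖ = ‖x‖) (h : WD p e w t neg S) (τ : ℕ → X) (i0 : Fin n) :
    ‖XX p e t τ‖ ≤ π := by
  rw [← hϖ]
  refine ContinuousLinearMap.opNorm_le_bound _ (by positivity) fun v => ?_
  have hp := h.mu.star_p
  have hpp := h.mu.p_p
  have hu : ∀ i, ‖wk t p τ i‖ ≤ 1 := fun i => (wk_CU hp hpp h.ht τ i).norm_le hp hpp
  have hu' : ∀ i, ‖star (wk t p τ i)‖ ≤ 1 := fun i => by rw [norm_star]; exact hu i
  have h1 : ‖ϖ (XX p e t τ) v‖ ^ 2 ≤ π ^ 2 * ‖v‖ ^ 2 := by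
    rw [rep_XX ϖ h τ i0, orth_aux ϖ h]
    calc ∑ l : Fin n, ‖ϖ (star (wk t p τ l) * e l i0)
          (∑ j : Fin n, ((((j : ℕ) : ℂ) - ((l : ℕ) : ℂ))⁻¹) • ϖ (e i0 j * wk t p τ j) v)‖ ^ 2
        ≤ ∑ l : Fin n, ‖∑ j : Fin n, ((((j : ℕ) : ℂ) - ((l : ℕ) : ℂ))⁻¹) •
            ϖ (e i0 j * wk t p τ j) v‖ ^ 2 := by
          refine sum_le_sum fun l _ => ?_
          refine pow_le_pow_left₀ (norm_nonneg _) ?_ 2
          refine (norm_rep_le ϖ hϖ _ _).trans ?_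
          have : ‖star (wk t p τ l) * e l i0‖ ≤ 1 :=
            (norm_mul_le _ _).trans (mul_le_one₀ (hu' _) (norm_nonneg _) (h.mu.norm_le _ _))
          exact mul_le_of_le_one_left (norm_nonneg _) this
      _ ≤ π ^ 2 * ∑ j : Fin n, ‖ϖ (e i0 j * wk t p τ j) v‖ ^ 2 := hilbert_fin n _
      _ ≤ π ^ 2 * ‖v‖ ^ 2 := by
          gcongr
          have h2 : ∀ j : Fin n, ‖ϖ (e i0 j * wk t p τ j) v‖ ^ 2 ≤ ‖ϖ (e j j) v‖ ^ 2 := by
            intro j
            refine pow_le_pow_left₀ (norm_nonneg _) ?_ 2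
            have e1 : e i0 j * wk t p τ j = wk t p τ j * e i0 j * e j j := by
              rw [mul_assoc, h.mu.mul, if_pos rfl, wk_comm h.mu h.htc]
            rw [e1, map_mul, mul_apply_eq_comp]
            refine (norm_rep_le ϖ hϖ _ _).trans ?_
            have : ‖wk t p τ j * e i0 j‖ ≤ 1 :=
              (norm_mul_le _ _).trans (mul_le_one₀ (hu _) (norm_nonneg _) (h.mu.norm_le _ _))
            exact mul_le_of_le_one_left (norm_nonneg _) this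
          refine (sum_le_sum fun j _ => h2 j).trans ?_
          rw [← norm_sq_sum univ (fun j => ϖ (e j j) v)]
          · rw [← _root_.sum_apply, ← map_sum, h.mu.sum]
            refine pow_le_pow_left₀ (norm_nonneg _) ?_ 2
            refine (norm_rep_le ϖ hϖ _ _).trans ?_
            exact mul_le_of_le_one_left (norm_nonneg _) (norm_le_one_of_proj hp hpp)
          · intro l _ k _ hlk
            rw [inner_rep_left, ← mul_apply_eq_comp, ← map_mul, h.mu.st, h.mu.mul, if_neg hlk]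
            simp
  have h2 : ‖ϖ (XX p e t τ) v‖ ^ 2 ≤ (π * ‖v‖) ^ 2 := by rw [mul_pow]; exact h1
  exact (sq_le_sq₀ (norm_nonneg _) (by positivity)).1 h2

theorem norm_vec (hϖ : ∀ x, ‖ϖ x‖ = ‖x‖) (h : WD p e w t neg S) (τ : ℕ → X) (i0 : Fin n)
    (ζ : H) :
    ‖∑ k : Fin n, ϖ (star (wk t p τ k) * e k i0) ζ‖ ^ 2 ≤ n * ‖ϖ (e i0 i0) ζ‖ ^ 2 := by
  have hp := h.mu.star_p
  have hpp := h.mu.p_p
  have hu' : ∀ i, ‖star (wk t p τ i)‖ ≤ 1 := fun i => by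
    rw [norm_star]; exact (wk_CU hp hpp h.ht τ i).norm_le hp hpp
  rw [orth_aux ϖ h τ i0 (fun _ => ζ)]
  have h2 : ∀ k : Fin n, ‖ϖ (star (wk t p τ k) * e k i0) ζ‖ ^ 2 ≤ ‖ϖ (e i0 i0) ζ‖ ^ 2 := by
    intro k
    refine pow_le_pow_left₀ (norm_nonneg _) ?_ 2
    have e1 : star (wk t p τ k) * e k i0 = star (wk t p τ k) * e k i0 * e i0 i0 := by
      rw [mul_assoc, h.mu.mul, if_pos rfl]
    rw [e1, map_mul, mul_apply_eq_comp]
    refine (norm_rep_le ϖ hϖ _ _).trans ?_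
    have : ‖star (wk t p τ k) * e k i0‖ ≤ 1 :=
      (norm_mul_le _ _).trans (mul_le_one₀ (hu' _) (norm_nonneg _) (h.mu.norm_le _ _))
    exact mul_le_of_le_one_left (norm_nonneg _) this
  refine (sum_le_sum fun k _ => h2 k).trans ?_
  rw [sum_const, card_univ, Fintype.card_fin, nsmul_eq_mul]

/-- the vectors `D`-terms -/
noncomputable def WW (S : A →L[ℂ] A) (p : A) (e : Fin n → Fin n → A) (t : X → A) (y : A)
    (i0 : Fin n) (ζ : H) (l j : Fin n) (τ : ℕ → X) : H :=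
  ϖ (S (y * (star (wk t p τ l) * wk t p τ j)) * star (wk t p τ j) * e l i0) ζ

theorem sum_WW (h : WD p e w t neg S) (τ : ℕ → X) (i0 : Fin n) (y : A) (ζ : H) :
    ∑ l : Fin n, ∑ j : Fin n, ((((j : ℕ) : ℂ) - ((l : ℕ) : ℂ))⁻¹) • WW ϖ S p e t y i0 ζ l j τ =
      ϖ (S (y * XX p e t τ)) (∑ k : Fin n, ϖ (star (wk t p τ k) * e k i0) ζ) := by
  have h1 : S (y * XX p e t τ) = ∑ l : Fin n, ∑ j : Fin n,
      ((((j : ℕ) : ℂ) - ((l : ℕ) : ℂ))⁻¹) •
        (S (y * (star (wk t p τ l) * wk t p τ j)) * e l j) := by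
    unfold XX
    rw [mul_sum, map_sum]
    refine sum_congr rfl fun l _ => ?_
    rw [mul_sum, map_sum]
    refine sum_congr rfl fun j _ => ?_
    rw [mul_smul_comm, map_smul, ← mul_assoc, h.rmod]
  rw [h1]
  obtain ⟨V, hV⟩ : ∃ V : H, V = ∑ k : Fin n, ϖ (star (wk t p τ k) * e k i0) ζ := ⟨_, rfl⟩
  rw [← hV]
  rw [map_sum, _root_.sum_apply]
  refine sum_congr rfl fun l _ => ?_
  rw [map_sum, _root_.sum_apply]
  refine sum_congr rfl fun j _ => ?_
  rw [map_smul, _root_.smul_apply, hV, map_sum]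
  congr 1
  rw [sum_eq_single j]
  · rw [← mul_apply_eq_comp, ← map_mul, WW]
    congr 2
    have e1 : e l j * (star (wk t p τ j) * e j i0) = star (wk t p τ j) * e l i0 := by
      rw [← mul_assoc, ← star_comm h.mu (fun i j => wk_comm h.mu h.htc τ _ i j), mul_assoc,
        h.mu.mul, if_pos rfl]
    rw [mul_assoc, mul_assoc _ (e l j), e1]
  · intro k _ hk
    rw [← mul_apply_eq_comp, ← map_mul]
    have : S (y * (star (wk t p τ l) * wk t p τ j)) * e l j * (star (wk t p τ k) * e k i0) = 0 := by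
      have e1 : e l j * (star (wk t p τ k) * e k i0) = 0 := by
        rw [← mul_assoc, ← star_comm h.mu (fun i j => wk_comm h.mu h.htc τ _ i j), mul_assoc,
          h.mu.mul, if_neg (Ne.symm hk), mul_zero]
      rw [mul_assoc, e1, mul_zero]
    rw [this]
    simp
  · intro hj
    exact absurd (mem_univ j) hj

/-- **norm bound** -/
theorem norm_sum_WW (hϖ : ∀ x, ‖ϖ x‖ = ‖x‖) (h : WD p e w t neg S) (τ : ℕ → X) (i0 : Fin n)
    (y : A) (ζ : H) :
    ‖∑ l : Fin n, ∑ j : Fin n, ((((j : ℕ) : ℂ) - ((l : ℕ) : ℂ))⁻¹) •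
        WW ϖ S p e t y i0 ζ l j τ‖ ^ 2 ≤
      (‖S‖ * (‖y‖ * π)) ^ 2 * (n * ‖ϖ (e i0 i0) ζ‖ ^ 2) := by
  rw [sum_WW ϖ h]
  have h1 : ‖S (y * XX p e t τ)‖ ≤ ‖S‖ * (‖y‖ * π) := by
    refine (S.le_opNorm _).trans ?_
    gcongr
    refine (norm_mul_le _ _).trans ?_
    gcongr
    exact norm_XX ϖ hϖ h τ i0
  calc _ ≤ (‖S (y * XX p e t τ)‖ * ‖∑ k : Fin n, ϖ (star (wk t p τ k) * e k i0) ζ‖) ^ 2 :=
        pow_le_pow_left₀ (norm_nonneg _) (norm_rep_le ϖ hϖ _ _) 2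
    _ = ‖S (y * XX p e t τ)‖ ^ 2 * ‖∑ k : Fin n, ϖ (star (wk t p τ k) * e k i0) ζ‖ ^ 2 :=
        mul_pow _ _ _
    _ ≤ (‖S‖ * (‖y‖ * π)) ^ 2 * (n * ‖ϖ (e i0 i0) ζ‖ ^ 2) := by
        gcongr
        exact norm_vec ϖ hϖ h τ i0 ζ

end

end Crest.Agent.R121.Fin
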