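import Crest.Agent.R121.Fin.LACore

/-!
# Row 121, block FIN, module LA, part 3: expectations, test vectors
-/

set_option autoImplicit false
set_option linter.unusedSectionVars false

namespace Crest.Agent.R121.Fin

open Finset Function Real
open scoped InnerProductSpace

section
variable {A : Type*} [CStarAlgebra A]
variable {H : Type*} [NormedAddCommGroup H] [InnerProductSpace ℂ H] [CompleteSpace H]
variable {X : Type*} [Fintype X] {p : A} {n : ℕ} {e : Fin n → Fin n → A} {w : X → ℝ}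
  {t : X → A} {neg : X → X} {S : A →L[ℂ] A}
variable (ϖ : A →⋆ₐ[ℂ] (H →L[ℂ] H))

/-- the increment of the martingale -/
noncomputable def Dl (S : A →L[ℂ] A) (t : X → A) (y : A) (x : X) : A :=
  S (y * t x) * star (t x) - S y

theorem Dl_neg (h : WD p e w t neg S) (y : A) (x : X) : Dl S t y (neg x) = Dl S t y x := by
  unfold Dl
  rw [h.htn, mul_neg, map_neg, star_neg, neg_mul_neg]

theorem sum_Dl (h : WD p e w t neg S) (y : A) : ∑ x, (w x : ℂ) • Dl S t y x = 0 := by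
  unfold Dl
  simp only [smul_sub, sum_sub_distrib]
  rw [h.harm, ← sum_smul]
  have : ∑ x, (w x : ℂ) = 1 := by exact_mod_cast h.hw1
  rw [this, one_smul, sub_self]

/-- the test vectors -/
noncomputable def vec (p : A) (e : Fin n → Fin n → A) (t : X → A) (i0 : Fin n) (ζ : H)
    (i : Fin n) (τ : ℕ → X) : H :=
  ϖ (star (wk t p τ i) * e i i0) ζ

noncomputable def Th (S : A →L[ℂ] A) (p : A) (e : Fin n → Fin n → A) (t : X → A) (y : A)
    (i0 : Fin n) (ζ : H) (i : Fin n) (τ : ℕ → X) : H :=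
  ϖ (Dl S t y (τ i)) (vec ϖ p e t i0 ζ i τ)

noncomputable def WN (S : A →L[ℂ] A) (p : A) (e : Fin n → Fin n → A) (t : X → A) (y : A)
    (i0 : Fin n) (ζ : H) (l : Fin n) (b : ℕ) (τ : ℕ → X) : H :=
  ϖ (S (y * (star (wk t p τ l) * wk t p τ b)) * star (wk t p τ b) * e l i0) ζ

theorem Th_flip (h : WD p e w t neg S) (y : A) (i0 : Fin n) (ζ : H) (i : Fin n) (k : ℕ)
    (τ : ℕ → X) : Th ϖ S p e t y i0 ζ i (update τ k (neg (τ k))) =
      if k < i then - Th ϖ S p e t y i0 ζ i τ else Th ϖ S p e t y i0 ζ i τ := by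
  unfold Th vec
  split_ifs with hk
  · rw [wk_neg h.htn _ hk, update_of_ne (by omega), star_neg, neg_mul, map_neg]
    simp
  · rw [wk_update _ (by omega)]
    by_cases hik : (i : ℕ) = k
    · rw [hik, update_self, Dl_neg h]
    · rw [update_of_ne hik]

theorem WN_flip (h : WD p e w t neg S) (y : A) (i0 : Fin n) (ζ : H) (l : Fin n) (b k : ℕ)
    (τ : ℕ → X) : WN ϖ S p e t y i0 ζ l b (update τ k (neg (τ k))) =
      if k < l then - WN ϖ S p e t y i0 ζ l b τ else WN ϖ S p e t y i0 ζ l b τ := by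
  have hb : ∀ z : A, S (z * wk t p (update τ k (neg (τ k))) b) *
      star (wk t p (update τ k (neg (τ k))) b) = S (z * wk t p τ b) * star (wk t p τ b) := by
    intro z
    by_cases hk : k < b
    · rw [wk_neg h.htn _ hk, star_neg, mul_neg z, map_neg, neg_mul_neg]
    · rw [wk_update _ (by omega)]
  unfold WN
  rw [← mul_assoc, hb]
  split_ifs with hk
  · rw [wk_neg h.htn _ hk, star_neg, mul_neg, neg_mul, map_neg, neg_mul, neg_mul, map_neg]
    rw [mul_assoc y]
    simp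
  · rw [wk_update _ (by omega), mul_assoc y]

theorem ex_Th_Th (h : WD p e w t neg S) (y : A) (i0 : Fin n) (ζ : H) {i l : Fin n} (hil : i ≠ l)
    (τ : ℕ → X) :
    ex w n (fun τ => (⟪Th ϖ S p e t y i0 ζ i τ, Th ϖ S p e t y i0 ζ l τ⟫_ℂ).re) τ = 0 := by
  have hil' : (i : ℕ) ≠ l := fun h => hil (Fin.ext h)
  refine ex_odd h.hw1 h.hn h.hwn (k := min i l) (by omega) (fun τ => ?_) τ
  rw [Th_flip ϖ h, Th_flip ϖ h]
  rcases lt_or_gt_of_ne hil' with h1 | h1
  · rw [if_neg (by omega), if_pos (by omega), inner_neg_right]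
    simp
  · rw [if_pos (by omega), if_neg (by omega), inner_neg_left]
    simp

theorem ex_WN_Th (h : WD p e w t neg S) (y : A) (i0 : Fin n) (ζ : H) {i l : Fin n} (hil : l ≠ i)
    (b : ℕ) (τ : ℕ → X) :
    ex w n (fun τ => (⟪WN ϖ S p e t y i0 ζ l b τ, Th ϖ S p e t y i0 ζ i τ⟫_ℂ).re) τ = 0 := by
  have hil' : (l : ℕ) ≠ i := fun h => hil (Fin.ext h)
  refine ex_odd h.hw1 h.hn h.hwn (k := min i l) (by omega) (fun τ => ?_) τ
  rw [Th_flip ϖ h, WN_flip ϖ h]
  rcases lt_or_gt_of_ne hil' with h1 | h1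
  · rw [if_neg (by omega), if_pos (by omega), inner_neg_right]
    simp
  · rw [if_pos (by omega), if_neg (by omega), inner_neg_left]
    simp

/-- averages of inner products over one coordinate -/
theorem avg_inner_left (k : ℕ) (F : (ℕ → X) → H) (G : (ℕ → X) → H) (τ : ℕ → X)
    (hG : ∀ x, G (update τ k x) = G τ) :
    avg w k (fun τ => (⟪F τ, G τ⟫_ℂ).re) τ =
      (⟪∑ x, (w x : ℂ) • F (update τ k x), G τ⟫_ℂ).re := by
  unfold avg
  rw [sum_inner, Complex.re_sum]
  refine sum_congr rfl fun x _ => ?_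
  simp only []
  rw [hG, inner_smul_left, Complex.conj_ofReal, Complex.re_ofReal_mul]

theorem avg_inner_right (k : ℕ) (F : (ℕ → X) → H) (G : (ℕ → X) → H) (τ : ℕ → X)
    (hF : ∀ x, F (update τ k x) = F τ) :
    avg w k (fun τ => (⟪F τ, G τ⟫_ℂ).re) τ =
      (⟪F τ, ∑ x, (w x : ℂ) • G (update τ k x)⟫_ℂ).re := by
  unfold avg
  rw [inner_sum, Complex.re_sum]
  refine sum_congr rfl fun x _ => ?_
  simp only []
  rw [hF, inner_smul_right, Complex.re_ofReal_mul]

theorem vec_update (i0 : Fin n) (ζ : H) (i : Fin n) (x : X) (τ : ℕ → X) :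
    vec ϖ p e t i0 ζ i (update τ i x) = vec ϖ p e t i0 ζ i τ := by
  unfold vec
  rw [wk_update _ le_rfl]

theorem sum_Th_update (h : WD p e w t neg S) (y : A) (i0 : Fin n) (ζ : H) (i : Fin n)
    (τ : ℕ → X) :
    ∑ x, (w x : ℂ) • Th ϖ S p e t y i0 ζ i (update τ i x) = 0 := by
  unfold Th
  have : ∀ x, (w x : ℂ) • ϖ (Dl S t y (update τ (i : ℕ) x i)) (vec ϖ p e t i0 ζ i (update τ i x)) =
      ϖ ((w x : ℂ) • Dl S t y x) (vec ϖ p e t i0 ζ i τ) := by
    intro x
    rw [update_self, vec_update, map_smul]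
    rfl
  rw [sum_congr rfl fun x _ => this x, ← _root_.sum_apply, ← map_sum, sum_Dl h]
  simp

theorem ex_indep_Th (h : WD p e w t neg S) (y : A) (i0 : Fin n) (ζ : H) (i : Fin n)
    (F : (ℕ → X) → H) (hF : ∀ τ x, F (update τ (i : ℕ) x) = F τ) (τ : ℕ → X) :
    ex w n (fun τ => (⟪F τ, Th ϖ S p e t y i0 ζ i τ⟫_ℂ).re) τ = 0 := by
  refine ex_eq_zero h.hw1 (k := i) i.isLt (fun τ => ?_) τ
  rw [avg_inner_right _ _ _ _ (hF τ), sum_Th_update ϖ h]
  simp

theorem ex_WN_Th_lt (h : WD p e w t neg S) (y : A) (i0 : Fin n) (ζ : H) (i : Fin n) {b : ℕ}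
    (hb : b < i) (τ : ℕ → X) :
    ex w n (fun τ => (⟪WN ϖ S p e t y i0 ζ i b τ, Th ϖ S p e t y i0 ζ i τ⟫_ℂ).re) τ = 0 := by
  apply ex_indep_Th ϖ h
  intro τ x
  unfold WN
  rw [wk_update _ le_rfl, wk_update _ (by omega)]

theorem ex_WN_Th_gt (h : WD p e w t neg S) (y : A) (i0 : Fin n) (ζ : H) (i : Fin n) (b : ℕ)
    (hb : (i : ℕ) < b) (hbn : b ≤ n) (τ : ℕ → X) :
    ex w n (fun τ => (⟪WN ϖ S p e t y i0 ζ i b τ, Th ϖ S p e t y i0 ζ i τ⟫_ℂ).re) τ =
      ex w n (fun τ => ‖Th ϖ S p e t y i0 ζ i τ‖ ^ 2) τ := by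
  have hp := h.mu.star_p
  have hpp := h.mu.p_p
  induction b, hb using Nat.le_induction with
  | base =>
    have h1 : ∀ τ : ℕ → X, (⟪WN ϖ S p e t y i0 ζ i ((i : ℕ) + 1) τ,
        Th ϖ S p e t y i0 ζ i τ⟫_ℂ).re = ‖Th ϖ S p e t y i0 ζ i τ‖ ^ 2 +
        (⟪ϖ (S y) (vec ϖ p e t i0 ζ i τ), Th ϖ S p e t y i0 ζ i τ⟫_ℂ).re := by
      intro τ
      have h2 : WN ϖ S p e t y i0 ζ i ((i : ℕ) + 1) τ =
          Th ϖ S p e t y i0 ζ i τ + ϖ (S y) (vec ϖ p e t i0 ζ i τ) := by
        unfold WN Th vec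
        rw [wk, ← mul_assoc (star _), (wk_CU hp hpp h.ht τ i).st_mul, (h.ht _).left,
          ← mul_apply_eq_comp, ← mul_apply_eq_comp, ← map_mul, ← map_mul,
          ← _root_.add_apply, ← map_add, Dl, star_mul]
        congr 2
        noncomm_ring
      rw [h2, inner_add_left, Complex.add_re]
      congr 1
      exact (inner_self_eq_norm_sq (𝕜 := ℂ) _)
    simp only [h1]
    rw [ex_add]
    simp only
    rw [ex_indep_Th ϖ h y i0 ζ i (fun τ => ϖ (S y) (vec ϖ p e t i0 ζ i τ)), add_zero]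
    intro τ x
    simp only [vec_update]
  | succ b hb ih =>
    rw [← ih (by omega)]
    refine ex_congr h.hw1 (k := b) (by omega) (fun τ => ?_) τ
    have hG : ∀ x, Th ϖ S p e t y i0 ζ i (update τ b x) = Th ϖ S p e t y i0 ζ i τ := by
      intro x
      unfold Th vec
      rw [wk_update _ (by omega), update_of_ne (by omega)]
    rw [avg_inner_left _ _ _ _ hG, avg_inner_left _ _ _ _ hG]
    congr 2
    have h3 : ∀ x, WN ϖ S p e t y i0 ζ i b (update τ b x) = WN ϖ S p e t y i0 ζ i b τ := by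
      intro x
      unfold WN
      rw [wk_update _ (by omega), wk_update _ le_rfl]
    simp only [h3]
    rw [← sum_smul]
    have hw1 : ∑ x, (w x : ℂ) = 1 := by exact_mod_cast h.hw1
    rw [hw1, one_smul]
    have h4 : ∀ x, (w x : ℂ) • WN ϖ S p e t y i0 ζ i (b + 1) (update τ b x) =
        ϖ (((w x : ℂ) • (S (y * (star (wk t p τ i) * wk t p τ b) * t x) * star (t x))) *
          star (wk t p τ b) * e i i0) ζ := by
      intro x
      unfold WN
      rw [wk_update_succ, wk_update _ (by omega : (i : ℕ) ≤ b), star_mul, smul_mul_assoc,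
        smul_mul_assoc, map_smul, _root_.smul_apply]
      congr 3
      noncomm_ring
    rw [sum_congr rfl fun x _ => h4 x, ← _root_.sum_apply, ← map_sum, ← sum_mul, ← sum_mul,
      h.harm]
    rfl

end

end Crest.Agent.R121.Fin
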