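import Crest.Agent.R121.Fin.LAExp
import Crest.Agent.R121.Fin.KTrace

/-!
# Row 121, block FIN, module LA, part 4: the core inequality
-/

set_option autoImplicit false
set_option linter.unusedSectionVars false

namespace Crest.Agent.R121.Fin

open Finset Function Real
open scoped InnerProductSpace

section
variable {A : Type*} [CStarAlgebra A]
variable {H : Type*} [NormedAddCommGroup H] [InnerProductSpace ℂ H] [CompleteSpace H]
variable {X : Type*} [Fintype X] {p : A} {w : X → ℝ}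
  {t : X → A} {neg : X → X} {S : A →L[ℂ] A}
variable (ϖ : A →⋆ₐ[ℂ] (H →L[ℂ] H))

/-- harmonic number -/
noncomputable def Hn (m : ℕ) : ℝ := ∑ k ∈ range m, 1 / ((k : ℝ) + 1)

theorem Hn_pos {m : ℕ} (hm : 0 < m) : 0 < Hn m := by
  unfold Hn
  exact sum_pos (fun k _ => by positivity) ⟨0, by simpa using hm⟩

theorem hsum {m : ℕ} {i : Fin (2 * m)} (hi : (i : ℕ) < m) :
    Hn m ≤ ∑ j : Fin (2 * m), if (i : ℕ) < j then (((j : ℕ) : ℝ) - ((i : ℕ) : ℝ))⁻¹ else 0 := by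
  set f : ℕ → ℝ := fun j => if (i : ℕ) < j then ((j : ℝ) - ((i : ℕ) : ℝ))⁻¹ else 0 with hf
  have h1 : ∑ j : Fin (2 * m), (if (i : ℕ) < j then (((j : ℕ) : ℝ) - ((i : ℕ) : ℝ))⁻¹ else 0) =
      ∑ j ∈ range (2 * m), f j := by
    rw [Finset.sum_range]
  rw [h1]
  have h2 : Hn m = ∑ j ∈ (range m).image (fun k => (i : ℕ) + 1 + k), f j := by
    rw [sum_image]
    · unfold Hn
      refine sum_congr rfl fun k _ => ?_
      simp only [hf]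
      rw [if_pos (by omega)]
      push_cast
      rw [one_div]
      congr 1
      ring
    · intro a _ b _ hab
      simp only at hab
      omega
  rw [h2]
  apply sum_le_sum_of_subset_of_nonneg
  · intro j hj
    simp only [mem_image, mem_range] at hj ⊢
    obtain ⟨k, hk, rfl⟩ := hj
    omega
  · intro j _ _
    simp only [hf]
    split_ifs with hij
    · have : ((i : ℕ) : ℝ) < (j : ℝ) := by exact_mod_cast hij
      exact inv_nonneg.2 (by linarith)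
    · exact le_rfl

theorem re_inner_sums {n : ℕ} (W : Fin n → Fin n → H) (s : Finset (Fin n)) (T : Fin n → H) :
    (⟪∑ l : Fin n, ∑ j : Fin n, ((((j : ℕ) : ℂ) - ((l : ℕ) : ℂ))⁻¹) • W l j,
      ∑ i ∈ s, T i⟫_ℂ).re = ∑ i ∈ s, ∑ l : Fin n, ∑ j : Fin n,
        ((((j : ℕ) : ℝ) - ((l : ℕ) : ℝ))⁻¹) * (⟪W l j, T i⟫_ℂ).re := by
  rw [inner_sum, Complex.re_sum]
  refine sum_congr rfl fun i _ => ?_
  rw [sum_inner, Complex.re_sum]
  refine sum_congr rfl fun l _ => ?_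
  rw [sum_inner, Complex.re_sum]
  refine sum_congr rfl fun j _ => ?_
  have : ((((j : ℕ) : ℂ) - ((l : ℕ) : ℂ))⁻¹) = (((((j : ℕ) : ℝ) - ((l : ℕ) : ℝ))⁻¹ : ℝ) : ℂ) := by
    push_cast
    rfl
  rw [this, inner_smul_left, Complex.conj_ofReal, Complex.re_ofReal_mul]

theorem two_re_inner_le (x y : H) {s : ℝ} (hs : 0 < s) :
    2 * (⟪x, y⟫_ℂ).re ≤ s * ‖x‖ ^ 2 + s⁻¹ * ‖y‖ ^ 2 := by
  have h1 : (⟪x, y⟫_ℂ).re ≤ ‖x‖ * ‖y‖ := (Complex.re_le_norm _).trans (norm_inner_le_norm x y)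
  have h2 : 2 * (‖x‖ * ‖y‖) ≤ s * ‖x‖ ^ 2 + s⁻¹ * ‖y‖ ^ 2 := by
    have h3 : 0 ≤ s⁻¹ * (s * ‖x‖ - ‖y‖) ^ 2 := by positivity
    have h4 : s⁻¹ * (s * ‖x‖ - ‖y‖) ^ 2 = s * ‖x‖ ^ 2 + s⁻¹ * ‖y‖ ^ 2 - 2 * (‖x‖ * ‖y‖) := by
      field_simp
      ring
    linarith
  linarith

/-- **core inequality** -/
theorem LA_ineq (hϖ : ∀ x, ‖ϖ x‖ = ‖x‖) {m : ℕ} (hm : 0 < m)
    {e : Fin (2 * m) → Fin (2 * m) → A} (h : WD p e w t neg S) (y : A) (i0 : Fin (2 * m)) (ζ : H)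
    (τ : ℕ → X) :
    Hn m ^ 2 * ∑ i ∈ univ.filter (fun i : Fin (2 * m) => (i : ℕ) < m),
        ex w (2 * m) (fun τ => ‖Th ϖ S p e t y i0 ζ i τ‖ ^ 2) τ ≤
      (‖S‖ * (‖y‖ * π)) ^ 2 * ((2 * m : ℕ) * ‖ϖ (e i0 i0) ζ‖ ^ 2) := by
  classical
  set s : Finset (Fin (2 * m)) := univ.filter (fun i : Fin (2 * m) => (i : ℕ) < m) with hs
  set Q : Fin (2 * m) → ℝ := fun i => ex w (2 * m) (fun τ => ‖Th ϖ S p e t y i0 ζ i τ‖ ^ 2) τ
    with hQ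
  set Z : (ℕ → X) → H := fun τ => ∑ l : Fin (2 * m), ∑ j : Fin (2 * m),
    ((((j : ℕ) : ℂ) - ((l : ℕ) : ℂ))⁻¹) • WW ϖ S p e t y i0 ζ l j τ with hZ
  set T : (ℕ → X) → H := fun τ => ∑ i ∈ s, Th ϖ S p e t y i0 ζ i τ with hT
  have hQ0 : ∀ i, 0 ≤ Q i := by
    intro i
    have := ex_mono h.hw (2 * m) (F := fun _ => 0)
      (G := fun τ => ‖Th ϖ S p e t y i0 ζ i τ‖ ^ 2) (fun τ => by positivity) τ
    rwa [ex_zero] at this
  have hH := Hn_pos hm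
  -- expectation of the pairing
  have key1 : ex w (2 * m) (fun τ => (⟪Z τ, T τ⟫_ℂ).re) τ =
      ∑ i ∈ s, (∑ j : Fin (2 * m), if (i : ℕ) < j then (((j : ℕ) : ℝ) - ((i : ℕ) : ℝ))⁻¹ else 0)
        * Q i := by
    have e1 : (fun τ => (⟪Z τ, T τ⟫_ℂ).re) = fun τ => ∑ i ∈ s, ∑ l : Fin (2 * m),
        ∑ j : Fin (2 * m), ((((j : ℕ) : ℝ) - ((l : ℕ) : ℝ))⁻¹) *
          (⟪WW ϖ S p e t y i0 ζ l j τ, Th ϖ S p e t y i0 ζ i τ⟫_ℂ).re := by
      ext τ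
      exact re_inner_sums _ s _
    rw [e1, ex_sum]
    refine sum_congr rfl fun i _ => ?_
    rw [ex_sum, sum_eq_single i]
    · rw [ex_sum, sum_mul]
      refine sum_congr rfl fun j _ => ?_
      rw [ex_const_mul]
      simp only
      rcases lt_trichotomy (i : ℕ) (j : ℕ) with hij | hij | hij
      · rw [if_pos hij]
        congr 1
        exact ex_WN_Th_gt ϖ h y i0 ζ i j hij (le_of_lt j.isLt) τ
      · rw [if_neg (by omega), hij]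
        simp
      · rw [if_neg (by omega), zero_mul]
        have := ex_WN_Th_lt ϖ h y i0 ζ i (b := j) hij τ
        unfold WN at this
        unfold WW
        rw [this, mul_zero]
    · intro l _ hl
      rw [ex_sum]
      refine sum_eq_zero fun j _ => ?_
      rw [ex_const_mul]
      simp only
      have := ex_WN_Th ϖ h y i0 ζ hl j τ
      unfold WN at this
      unfold WW
      rw [this, mul_zero]
    · intro hi
      exact absurd (mem_univ i) hi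
  have key2 : ex w (2 * m) (fun τ => ‖T τ‖ ^ 2) τ = ∑ i ∈ s, Q i := by
    have e1 : (fun τ => ‖T τ‖ ^ 2) = fun τ => ∑ i ∈ s, ∑ l ∈ s,
        (⟪Th ϖ S p e t y i0 ζ i τ, Th ϖ S p e t y i0 ζ l τ⟫_ℂ).re := by
      ext τ
      rw [← inner_self_eq_norm_sq (𝕜 := ℂ)]
      change (⟪T τ, T τ⟫_ℂ).re = _
      simp only [hT]
      rw [sum_inner, Complex.re_sum]
      refine sum_congr rfl fun i _ => ?_
      rw [inner_sum, Complex.re_sum]
    rw [e1, ex_sum]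
    refine sum_congr rfl fun i hi => ?_
    rw [ex_sum, sum_eq_single i]
    · simp only [hQ]
      congr 1
      ext τ
      exact inner_self_eq_norm_sq (𝕜 := ℂ) _
    · intro l _ hl
      exact ex_Th_Th ϖ h y i0 ζ (Ne.symm hl) τ
    · intro hi'
      exact absurd hi hi'
  have key3 : ex w (2 * m) (fun τ => ‖Z τ‖ ^ 2) τ ≤
      (‖S‖ * (‖y‖ * π)) ^ 2 * ((2 * m : ℕ) * ‖ϖ (e i0 i0) ζ‖ ^ 2) := by
    have := ex_mono h.hw (2 * m) (F := fun τ => ‖Z τ‖ ^ 2)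
      (G := fun _ => (‖S‖ * (‖y‖ * π)) ^ 2 * ((2 * m : ℕ) * ‖ϖ (e i0 i0) ζ‖ ^ 2))
      (fun τ => norm_sum_WW ϖ hϖ h τ i0 y ζ) τ
    rwa [ex_const h.hw1] at this
  have key4 : 2 * ex w (2 * m) (fun τ => (⟪Z τ, T τ⟫_ℂ).re) τ ≤
      (Hn m)⁻¹ * ex w (2 * m) (fun τ => ‖Z τ‖ ^ 2) τ +
        Hn m * ex w (2 * m) (fun τ => ‖T τ‖ ^ 2) τ := by
    have := ex_mono h.hw (2 * m) (F := fun τ => 2 * (⟪Z τ, T τ⟫_ℂ).re)
      (G := fun τ => (Hn m)⁻¹ * ‖Z τ‖ ^ 2 + Hn m * ‖T τ‖ ^ 2)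
      (fun τ => by
        have := two_re_inner_le (Z τ) (T τ) (inv_pos.2 hH)
        rwa [inv_inv] at this) τ
    rw [ex_const_mul, ex_add, ex_const_mul, ex_const_mul] at this
    exact this
  have key5 : Hn m * ∑ i ∈ s, Q i ≤ ex w (2 * m) (fun τ => (⟪Z τ, T τ⟫_ℂ).re) τ := by
    rw [key1, mul_sum]
    refine sum_le_sum fun i hi => ?_
    refine mul_le_mul_of_nonneg_right (hsum ?_) (hQ0 i)
    simpa [hs] using hi
  rw [key2] at key4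
  set B := (‖S‖ * (‖y‖ * π)) ^ 2 * ((2 * m : ℕ) * ‖ϖ (e i0 i0) ζ‖ ^ 2) with hB
  have h6 : 2 * (Hn m * ∑ i ∈ s, Q i) ≤ (Hn m)⁻¹ * B + Hn m * ∑ i ∈ s, Q i := by
    have : (Hn m)⁻¹ * ex w (2 * m) (fun τ => ‖Z τ‖ ^ 2) τ ≤ (Hn m)⁻¹ * B :=
      mul_le_mul_of_nonneg_left key3 (inv_nonneg.2 hH.le)
    linarith
  have h7 : Hn m * ∑ i ∈ s, Q i ≤ (Hn m)⁻¹ * B := by linarith
  calc Hn m ^ 2 * ∑ i ∈ s, Q i = Hn m * (Hn m * ∑ i ∈ s, Q i) := by ring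
    _ ≤ Hn m * ((Hn m)⁻¹ * B) := mul_le_mul_of_nonneg_left h7 hH.le
    _ = B := by rw [← mul_assoc, mul_inv_cancel₀ hH.ne', one_mul]

end

end Crest.Agent.R121.Fin
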