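import Crest.Agent.R121.Fin.LBTr
import Crest.Agent.R124.LGT

/-!
# Row 121, FIN, LB (1), (2)

`LB1`: little Grothendieck for `d(x) = S (y x) - S y x` on the relative commutant of the matrix
units; `LB2`: `∑ ‖d (e i k z) ξ‖² ≤ 24 K² ε² n` for every corner unitary `z`.
-/

set_option autoImplicit false

namespace Crest.Agent.R121.Fin

open Finset

section
variable {A : Type*} [CStarAlgebra A]
variable {H : Type*} [NormedAddCommGroup H] [InnerProductSpace ℂ H] [CompleteSpace H]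
variable {ϖ : A →⋆ₐ[ℂ] (H →L[ℂ] H)} {p : A} {ξ : H} {K : ℝ}
variable {n : ℕ} {e : Fin n → Fin n → A}

/-- `dd S y x = S (y x) - S y x` -/
noncomputable def dd (S : A →L[ℂ] A) (y : A) : A →L[ℂ] A :=
  S.comp (ContinuousLinearMap.mul ℂ A y) - ContinuousLinearMap.mul ℂ A (S y)

@[simp] lemma dd_apply (S : A →L[ℂ] A) (y x : A) : dd S y x = S (y * x) - S y * x := rfl

lemma dd_mul {S : A →L[ℂ] A} (hS : RMod e S) (y x : A) (i j : Fin n) :
    dd S y (x * e i j) = dd S y x * e i j := by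
  rw [dd_apply, dd_apply, sub_mul, ← mul_assoc, hS, mul_assoc (S y)]

lemma dd_mul_p {S : A →L[ℂ] A} (hS : ∀ x, S (x * p) = S x ∧ S x * p = S x) {y x : A}
    (hx : x * p = x) : dd S y x * p = dd S y x := by
  rw [dd_apply, sub_mul, (hS _).2, mul_assoc, hx]

/-- L2 -/
theorem Cor.le_sum_diag (h : Cor ϖ p ξ K) (hm : MU p n e) {D : A} (hD : D * p = D) :
    ‖ϖ D ξ‖ ^ 2 ≤ K * ∑ j, ‖ϖ (D * e j j) ξ‖ ^ 2 := by
  obtain ⟨a, ha, hpa, hap, -, hn⟩ := lb_exists_abs (ϖ := ϖ) h.star_p hD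
  have h1 : ‖ϖ D ξ‖ ^ 2 = ∑ j, ‖ϖ (e j j * a) ξ‖ ^ 2 := by
    rw [← hn, norm_sq_star_mul]
    have h2 : star a * a = ∑ j, star (e j j * a) * (e j j * a) := by
      have : ∀ j, star (e j j * a) * (e j j * a) = a * e j j * a := by
        intro j
        rw [star_mul, ha, hm.st, ← mul_assoc, mul_assoc a, hm.mul, if_pos rfl]
      simp_rw [this]
      rw [← sum_mul, ← mul_sum, hm.sum, hap, ha]
    rw [h2, map_sum, _root_.sum_apply, sum_inner, Complex.re_sum]
    refine sum_congr rfl fun j _ => ?_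
    rw [norm_sq_star_mul]
  rw [h1, mul_sum]
  refine sum_le_sum fun j _ => ?_
  have h3 : ‖ϖ (D * e j j) ξ‖ = ‖ϖ (a * e j j) ξ‖ := by
    rw [map_mul, map_mul, mul_apply_eq_comp, mul_apply_eq_comp, hn]
  rw [h3]
  refine (h.hK (e j j * a) (by rw [← mul_assoc, hm.left]) (by rw [mul_assoc, hap])).trans ?_
  rw [star_mul, ha, hm.st]

/-- `exk j k a = ∑ i, e i j * a * e k i` -/
def exk (e : Fin n → Fin n → A) (j k : Fin n) (a : A) : A := ∑ i, e i j * a * e k i

lemma MU.exk_mul (hm : MU p n e) (j k k' j' : Fin n) (a b : A) :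
    exk e j k a * exk e k' j' b = exk e j j' (a * e k k' * b) := by
  unfold exk
  rw [sum_mul]
  refine sum_congr rfl fun i _ => ?_
  rw [mul_sum, sum_eq_single i]
  · have : e k i * e i k' = e k k' := by rw [hm.mul, if_pos rfl]
    calc e i j * a * e k i * (e i k' * b * e j' i)
        = e i j * a * (e k i * e i k') * b * e j' i := by noncomm_ring
      _ = e i j * (a * e k k' * b) * e j' i := by rw [this]; noncomm_ring
  · intro i' _ hi'
    have : e k i * e i' k' = 0 := by rw [hm.mul, if_neg (Ne.symm hi')]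
    calc e i j * a * e k i * (e i' k' * b * e j' i')
        = e i j * a * (e k i * e i' k') * b * e j' i' := by noncomm_ring
      _ = 0 := by rw [this]; simp
  · intro hi; exact absurd (mem_univ i) hi

lemma MU.exk_star (hm : MU p n e) (j k : Fin n) (a : A) :
    star (exk e j k a) = exk e k j (star a) := by
  unfold exk
  rw [star_sum]
  refine sum_congr rfl fun i _ => ?_
  rw [star_mul, star_mul, hm.st, hm.st, mul_assoc]

lemma exk_sum_left {ι : Type*} (s : Finset ι) (j k : Fin n) (f : ι → A) :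
    ∑ x ∈ s, exk e j k (f x) = exk e j k (∑ x ∈ s, f x) := by
  unfold exk
  rw [sum_comm]
  refine sum_congr rfl fun i _ => ?_
  rw [mul_sum, sum_mul]

lemma MU.exk_p (hm : MU p n e) (j : Fin n) : exk e j j p = p := by
  unfold exk
  conv_rhs => rw [← hm.sum]
  refine sum_congr rfl fun i _ => ?_
  rw [hm.right, hm.mul, if_pos rfl]

lemma MU.exk_comm (hm : MU p n e) (j k : Fin n) (a : A) (s t : Fin n) :
    e s t * exk e j k a = exk e j k a * e s t := by
  unfold exk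
  rw [mul_sum, sum_mul, sum_eq_single t, sum_eq_single s]
  · have h1 : e s t * e t j = e s j := by rw [hm.mul, if_pos rfl]
    have h2 : e k s * e s t = e k t := by rw [hm.mul, if_pos rfl]
    rw [← mul_assoc, ← mul_assoc, h1, mul_assoc _ (e k s), h2]
  · intro i _ hi
    have h2 : e k i * e s t = 0 := by rw [hm.mul, if_neg hi]
    rw [mul_assoc, h2, mul_zero]
  · intro hi; exact absurd (mem_univ s) hi
  · intro i _ hi
    have h2 : e s t * e i j = 0 := by rw [hm.mul, if_neg (Ne.symm hi)]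
    rw [← mul_assoc, ← mul_assoc, h2, zero_mul, zero_mul]
  · intro hi; exact absurd (mem_univ t) hi

/-- relative commutant of the matrix units -/
def A0 (e : Fin n → Fin n → A) : StarSubalgebra ℂ A :=
  StarSubalgebra.centralizer ℂ (Set.range fun s : Fin n × Fin n => e s.1 s.2)

lemma MU.mem_A0 (hm : MU p n e) {x : A} : x ∈ A0 e ↔ ∀ i j, e i j * x = x * e i j := by
  unfold A0
  rw [StarSubalgebra.mem_centralizer_iff]
  constructor
  · intro h i j
    exact (h _ ⟨(i, j), rfl⟩).1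
  · rintro h _ ⟨⟨i, j⟩, rfl⟩
    refine ⟨h i j, ?_⟩
    rw [hm.st]
    exact h j i

instance : IsClosed ((A0 e : StarSubalgebra ℂ A) : Set A) := by
  unfold A0
  rw [StarSubalgebra.coe_centralizer]
  exact Set.isClosed_centralizer _

noncomputable instance : CStarAlgebra (A0 e : StarSubalgebra ℂ A) :=
  StarSubalgebra.cstarAlgebra _

lemma MU.p_comm (hm : MU p n e) {x : A} (hx : x ∈ A0 e) : p * x = x * p := by
  rw [← hm.sum, sum_mul, mul_sum]
  exact sum_congr rfl fun i _ => (hm.mem_A0.1 hx) i i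

/-- the map of little Grothendieck -/
lemma LB_bound (hm : MU p n e) (S : A →L[ℂ] A) (y : A) {ε : ℝ}
    (small : ∀ t, CU p t → (∀ i j, t * e i j = e i j * t) → ‖ϖ (dd S y t) ξ‖ ≤ ε)
    (x : A0 e) : ‖ϖ (dd S y ((x : A) * p)) ξ‖ ≤ 2 * ε * ‖x‖ := by
  obtain ⟨u, c, hx, hc⟩ := CStarAlgebra.exists_sum_four_unitary x
  have hcu : ∀ i, CU p (((u i : A0 e) : A) * p) := by
    intro i
    have h1 : star (((u i : A0 e) : A)) * ((u i : A0 e) : A) = 1 := by
      have := Unitary.star_mul_self (u i)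
      exact congrArg (fun z : unitary (A0 e) => (((z : A0 e)) : A)) this
    have h2 : ((u i : A0 e) : A) * star (((u i : A0 e) : A)) = 1 := by
      have := Unitary.mul_star_self (u i)
      exact congrArg (fun z : unitary (A0 e) => (((z : A0 e)) : A)) this
    have h3 := hm.p_comm (u i : A0 e).2
    refine ⟨?_, ?_, ?_, ?_⟩
    · rw [star_mul, hm.star_p, mul_assoc, ← mul_assoc (star _), h1, one_mul, hm.p_p]
    · rw [star_mul, hm.star_p, ← h3, mul_assoc, ← mul_assoc _ p, ← h3, mul_assoc, ← mul_assoc p,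
        hm.p_p, h2, mul_one]
    · rw [← mul_assoc, h3, mul_assoc, hm.p_p]
    · rw [mul_assoc, hm.p_p]
  have hco : ∀ i s t, ((u i : A0 e) : A) * p * e s t = e s t * (((u i : A0 e) : A) * p) := by
    intro i s t
    rw [mul_assoc, hm.left, ← mul_assoc, (hm.mem_A0.1 (u i : A0 e).2) s t, mul_assoc, hm.right]
  have h4 : ((x : A) * p) = ∑ i, c i • (((u i : A0 e) : A) * p) := by
    have : (x : A) = ∑ i, c i • ((u i : A0 e) : A) := by
      conv_lhs => rw [hx]
      simp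
    rw [this, sum_mul]
    exact sum_congr rfl fun i _ => smul_mul_assoc _ _ _
  have h5 : ϖ (dd S y ((x : A) * p)) ξ =
      ∑ i, c i • ϖ (dd S y (((u i : A0 e) : A) * p)) ξ := by
    rw [h4]
    simp only [map_sum, map_smul, _root_.sum_apply, _root_.smul_apply]
  rw [h5]
  refine (norm_sum_le _ _).trans ?_
  calc ∑ i, ‖c i • ϖ (dd S y (((u i : A0 e) : A) * p)) ξ‖
      ≤ ∑ i : Fin 4, (‖x‖ / 2) * ε := by
        refine sum_le_sum fun i _ => ?_
        rw [norm_smul]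
        exact mul_le_mul (hc i) (small _ (hcu i) (hco i)) (norm_nonneg _) (by positivity)
    _ = 2 * ε * ‖x‖ := by simp; ring

/-- **LB1** -/
theorem LB1 (hm : MU p n e) (S : A →L[ℂ] A) (y : A) {ε : ℝ}
    (small : ∀ t, CU p t → (∀ i j, t * e i j = e i j * t) → ‖ϖ (dd S y t) ξ‖ ≤ ε)
    {z : A} (hz : CU p z) :
    ∑ s : Fin n × Fin n, ‖ϖ (dd S y (exk e s.1 s.2 z)) ξ‖ ^ 2 ≤ 24 * ε ^ 2 * n := by
  have hε : 0 ≤ ε := (norm_nonneg _).trans (small p (CU.one' hm.star_p hm.p_p)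
    (fun i j => by rw [hm.left, hm.right]))
  let T0 : A0 e →ₗ[ℂ] H :=
    { toFun := fun x => ϖ (dd S y ((x : A) * p)) ξ
      map_add' := by intro x x'; simp [add_mul, mul_add]; abel
      map_smul' := by intro c x; simp [smul_sub] }
  let T : A0 e →L[ℂ] H := T0.mkContinuous (2 * ε) (fun x => LB_bound hm S y small x)
  have hT : ‖T‖ ≤ 2 * ε := LinearMap.mkContinuous_norm_le _ (by positivity) _
  have hTa : ∀ x : A0 e, T x = ϖ (dd S y ((x : A) * p)) ξ := fun x => rfl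
  have hmem : ∀ s : Fin n × Fin n, exk e s.1 s.2 z ∈ A0 e := fun s =>
    hm.mem_A0.2 fun i j => hm.exk_comm _ _ _ _ _
  let zz : Fin n × Fin n → A0 e := fun s => ⟨exk e s.1 s.2 z, hmem s⟩
  have hexp : ∀ s : Fin n × Fin n, exk e s.1 s.2 z * p = exk e s.1 s.2 z := by
    intro s
    unfold exk
    rw [sum_mul]
    exact sum_congr rfl fun i _ => by rw [mul_assoc, hm.right]
  letI := CStarAlgebra.spectralOrder (A0 e)
  haveI := CStarAlgebra.spectralOrderedRing (A0 e)
  have h1 := Crest.Agent.R124.LGT.lgt_list T ((univ : Finset (Fin n × Fin n)).toList.map zz)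
  rw [List.map_map, Finset.sum_map_toList] at h1
  have h2 : ∀ s, ((fun x => ‖T x‖ ^ 2) ∘ zz) s = ‖ϖ (dd S y (exk e s.1 s.2 z)) ξ‖ ^ 2 := by
    intro s
    simp only [Function.comp_apply, hTa, zz, hexp]
  simp_rw [h2] at h1
  have h3 : ((Crest.Agent.R124.LGT.qq ((univ : Finset (Fin n × Fin n)).toList.map zz) : A0 e) : A) =
      ((2 * n : ℕ) : ℂ) • p := by
    unfold Crest.Agent.R124.LGT.qq
    rw [List.map_map, Finset.sum_map_toList]
    have e1 : ∀ j, ∑ k, star (exk e k j z) * exk e k j z = p := by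
      intro j
      have : ∀ k, star (exk e k j z) * exk e k j z = exk e j j (star z * e k k * z) := by
        intro k; rw [hm.exk_star, hm.exk_mul]
      simp_rw [this]
      rw [exk_sum_left, ← sum_mul, ← mul_sum, hm.sum, mul_assoc, hz.left, hz.st_mul, hm.exk_p]
    have e2 : ∀ k, ∑ j, exk e k j z * star (exk e k j z) = p := by
      intro k
      have : ∀ j, exk e k j z * star (exk e k j z) = exk e k k (z * e j j * star z) := by
        intro j; rw [hm.exk_star, hm.exk_mul]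
      simp_rw [this]
      rw [exk_sum_left, ← sum_mul, ← mul_sum, hm.sum, hz.right, hz.mul_st, hm.exk_p]
    have e3 : ((∑ s, ((fun x : A0 e => star x * x + x * star x) ∘ zz) s : A0 e) : A) =
        ∑ s : Fin n × Fin n, (star (exk e s.1 s.2 z) * exk e s.1 s.2 z +
          exk e s.1 s.2 z * star (exk e s.1 s.2 z)) := by
      rw [AddSubmonoidClass.coe_finset_sum]
      rfl
    rw [e3, sum_add_distrib, Fintype.sum_prod_type, Fintype.sum_prod_type, sum_comm]
    simp_rw [e1, e2]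
    rw [sum_const, card_univ, Fintype.card_fin, two_mul, Nat.cast_add, add_smul,
      ← Nat.cast_smul_eq_nsmul ℂ]
  have h4 : ‖Crest.Agent.R124.LGT.qq ((univ : Finset (Fin n × Fin n)).toList.map zz)‖ ≤ 2 * n := by
    change ‖((Crest.Agent.R124.LGT.qq ((univ : Finset (Fin n × Fin n)).toList.map zz) : A0 e) : A)‖ ≤ _
    rw [h3, norm_smul]
    have : ‖p‖ ≤ 1 := (CU.one' hm.star_p hm.p_p).norm_le_lb hm.star_p hm.p_p
    rw [Complex.norm_natCast]
    push_cast
    nlinarith [norm_nonneg p, (Nat.cast_nonneg n : (0 : ℝ) ≤ n)]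
  refine h1.trans ?_
  have h5 : ‖T‖ ^ 2 ≤ (2 * ε) ^ 2 := pow_le_pow_left₀ (norm_nonneg _) hT 2
  calc 3 * ‖T‖ ^ 2 * ‖Crest.Agent.R124.LGT.qq ((univ : Finset (Fin n × Fin n)).toList.map zz)‖
      ≤ 3 * (2 * ε) ^ 2 * (2 * n) := by gcongr
    _ = 24 * ε ^ 2 * n := by ring

/-- **LB2** -/
theorem LB2 (h : Cor ϖ p ξ K) (hm : MU p n e) {S : A →L[ℂ] A} (hS : RMod e S)
    (hSp : ∀ x, S (x * p) = S x ∧ S x * p = S x) (y : A) {ε : ℝ}
    (small : ∀ t, CU p t → (∀ i j, t * e i j = e i j * t) → ‖ϖ (dd S y t) ξ‖ ≤ ε)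
    {z : A} (hz : CU p z) :
    ∑ s : Fin n × Fin n, ‖ϖ (dd S y (e s.1 s.2 * z)) ξ‖ ^ 2 ≤ 24 * K ^ 2 * ε ^ 2 * n := by
  have h1 : ∀ s : Fin n × Fin n, ‖ϖ (dd S y (e s.1 s.2 * z)) ξ‖ ^ 2 ≤
      K * ∑ j, ‖ϖ (dd S y (exk e s.2 j z) * e s.1 j) ξ‖ ^ 2 := by
    intro s
    refine (h.le_sum_diag hm (dd_mul_p hSp (by rw [mul_assoc, hz.right]))).trans_eq ?_
    congr 1
    refine sum_congr rfl fun j _ => ?_
    rw [← dd_mul hS, ← dd_mul hS]
    have : e s.1 s.2 * z * e j j = exk e s.2 j z * e s.1 j := by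
      unfold exk
      rw [sum_mul, sum_eq_single s.1]
      · rw [mul_assoc _ (e j s.1), hm.mul, if_pos rfl]
      · intro i _ hi
        rw [mul_assoc _ (e j i), hm.mul, if_neg hi, mul_zero]
      · intro hi; exact absurd (mem_univ _) hi
    rw [this]
  have h2 : ∀ k j, ∑ i, ‖ϖ (dd S y (exk e k j z) * e i j) ξ‖ ^ 2 ≤
      K * ‖ϖ (dd S y (exk e k j z)) ξ‖ ^ 2 := by
    intro k j
    refine h.sum_row_le hm (dd_mul_p hSp ?_) j
    unfold exk
    rw [sum_mul]
    exact sum_congr rfl fun i _ => by rw [mul_assoc, hm.right]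
  calc ∑ s : Fin n × Fin n, ‖ϖ (dd S y (e s.1 s.2 * z)) ξ‖ ^ 2
      ≤ ∑ s : Fin n × Fin n, K * ∑ j, ‖ϖ (dd S y (exk e s.2 j z) * e s.1 j) ξ‖ ^ 2 :=
        sum_le_sum fun s _ => h1 s
    _ = K * ∑ k, ∑ j, ∑ i, ‖ϖ (dd S y (exk e k j z) * e i j) ξ‖ ^ 2 := by
        rw [← mul_sum, Fintype.sum_prod_type, sum_comm]
        congr 1
        refine sum_congr rfl fun k _ => ?_
        rw [sum_comm]
    _ ≤ K * ∑ k, ∑ j, K * ‖ϖ (dd S y (exk e k j z)) ξ‖ ^ 2 :=
        mul_le_mul_of_nonneg_left (sum_le_sum fun k _ => sum_le_sum fun j _ => h2 k j) h.K0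
    _ = K ^ 2 * ∑ s : Fin n × Fin n, ‖ϖ (dd S y (exk e s.1 s.2 z)) ξ‖ ^ 2 := by
        rw [Fintype.sum_prod_type]
        simp_rw [← mul_sum]
        ring
    _ ≤ K ^ 2 * (24 * ε ^ 2 * n) :=
        mul_le_mul_of_nonneg_left (LB1 hm S y small hz) (sq_nonneg _)
    _ = 24 * K ^ 2 * ε ^ 2 * n := by ring

end

end Crest.Agent.R121.Fin
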