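import Mathlib

/-!
# Row 121, FIN, LB: phase averages

`PH`: averages of `‖∑ ψ_i(g) • F_i‖²` over a finite abelian group, `ψ_i` additive characters.
`Om n R`: the group of pairs of families of phases, `wch f`: the character of a word.
-/

set_option autoImplicit false

namespace Crest.Agent.R121.Fin

open scoped InnerProductSpace
open Finset

section PH
variable {H : Type*} [NormedAddCommGroup H] [InnerProductSpace ℂ H]
variable {G : Type*} [AddCommGroup G] [Fintype G]
variable {ι : Type*} [Fintype ι]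

open Classical in
theorem PH_eq (ψ : ι → AddChar G ℂ) (F : ι → H) :
    ∑ g, ‖∑ i, ψ i g • F i‖ ^ 2 =
      (Fintype.card G : ℝ) * ∑ i, ∑ j, if ψ j = ψ i then (⟪F i, F j⟫_ℂ).re else 0 := by
  have h1 : ∀ g, ‖∑ i, ψ i g • F i‖ ^ 2 = ∑ i, ∑ j, ((ψ j - ψ i) g * ⟪F i, F j⟫_ℂ).re := by
    intro g
    have h2 : (‖∑ i, ψ i g • F i‖ ^ 2 : ℝ) = (⟪∑ i, ψ i g • F i, ∑ j, ψ j g • F j⟫_ℂ).re := by
      rw [inner_self_eq_norm_sq_to_K]; norm_cast
    rw [h2, sum_inner, Complex.re_sum]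
    refine sum_congr rfl fun i _ => ?_
    rw [inner_sum, Complex.re_sum]
    refine sum_congr rfl fun j _ => ?_
    rw [inner_smul_left, inner_smul_right, AddChar.sub_apply, AddChar.map_neg_eq_conj]
    ring_nf
  simp_rw [h1]
  rw [sum_comm, mul_sum]
  refine sum_congr rfl fun i _ => ?_
  rw [sum_comm, mul_sum]
  refine sum_congr rfl fun j _ => ?_
  rw [← Complex.re_sum, ← sum_mul, AddChar.sum_eq_ite]
  by_cases h : ψ j = ψ i
  · rw [if_pos (sub_eq_zero.2 h), if_pos h, ← Complex.ofReal_natCast, Complex.re_ofReal_mul]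
  · rw [if_neg (fun h' => h (sub_eq_zero.1 h')), if_neg h]
    simp

theorem PH_inj (ψ : ι → AddChar G ℂ) (hψ : Function.Injective ψ) (F : ι → H) :
    ∑ g, ‖∑ i, ψ i g • F i‖ ^ 2 = (Fintype.card G : ℝ) * ∑ i, ‖F i‖ ^ 2 := by
  classical
  rw [PH_eq]
  congr 1
  refine sum_congr rfl fun i _ => ?_
  rw [sum_eq_single i]
  · rw [if_pos rfl, inner_self_eq_norm_sq_to_K]; norm_cast
  · intro j _ hj
    rw [if_neg (fun h => hj (hψ h))]
  · intro hi; exact absurd (mem_univ i) hi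

open Classical in
theorem PH_le (ψ : ι → AddChar G ℂ) (m : ℕ)
    (hψ : ∀ i, (univ.filter fun j => ψ j = ψ i).card ≤ m) (F : ι → H) :
    ∑ g, ‖∑ i, ψ i g • F i‖ ^ 2 ≤ (Fintype.card G : ℝ) * (m * ∑ i, ‖F i‖ ^ 2) := by
  rw [PH_eq]
  refine mul_le_mul_of_nonneg_left ?_ (Nat.cast_nonneg _)
  have h1 : ∀ i j, (if ψ j = ψ i then (⟪F i, F j⟫_ℂ).re else 0) ≤
      (if ψ j = ψ i then ‖F i‖ ^ 2 / 2 else 0) + (if ψ i = ψ j then ‖F j‖ ^ 2 / 2 else 0) := by
    intro i j
    by_cases h : ψ j = ψ i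
    · rw [if_pos h, if_pos h, if_pos h.symm]
      have h2 : (⟪F i, F j⟫_ℂ).re ≤ ‖F i‖ * ‖F j‖ :=
        (Complex.re_le_norm _).trans (norm_inner_le_norm _ _)
      nlinarith [sq_nonneg (‖F i‖ - ‖F j‖)]
    · rw [if_neg h, if_neg h, if_neg (fun h' => h h'.symm), add_zero]
  have h2 : ∀ i, ∑ j, (if ψ j = ψ i then ‖F i‖ ^ 2 / 2 else 0) ≤ m * (‖F i‖ ^ 2 / 2) := by
    intro i
    rw [← sum_filter, sum_const, nsmul_eq_mul]
    exact mul_le_mul_of_nonneg_right (by exact_mod_cast hψ i) (by positivity)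
  calc ∑ i, ∑ j, (if ψ j = ψ i then (⟪F i, F j⟫_ℂ).re else 0)
      ≤ ∑ i, ∑ j, ((if ψ j = ψ i then ‖F i‖ ^ 2 / 2 else 0) +
          (if ψ i = ψ j then ‖F j‖ ^ 2 / 2 else 0)) :=
        sum_le_sum fun i _ => sum_le_sum fun j _ => h1 i j
    _ = ∑ i, ∑ j, (if ψ j = ψ i then ‖F i‖ ^ 2 / 2 else 0) +
          ∑ j, ∑ i, (if ψ i = ψ j then ‖F j‖ ^ 2 / 2 else 0) := by
        simp_rw [sum_add_distrib]
        congr 1
        exact sum_comm
    _ ≤ ∑ i, m * (‖F i‖ ^ 2 / 2) + ∑ j, m * (‖F j‖ ^ 2 / 2) :=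
        add_le_add (sum_le_sum fun i _ => h2 i) (sum_le_sum fun j _ => h2 j)
    _ = m * ∑ i, ‖F i‖ ^ 2 := by
        rw [← sum_add_distrib, mul_sum]
        exact sum_congr rfl fun i _ => by ring

end PH

section words

/-- equal fibre cardinalities: `g = f ∘ σ` -/
lemma exists_perm_of_card {k : ℕ} {α : Type*} [DecidableEq α] (f g : Fin k → α)
    (h : ∀ a, (univ.filter fun l => f l = a).card = (univ.filter fun l => g l = a).card) :
    ∃ σ : Equiv.Perm (Fin k), g = f ∘ σ := by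
  have h1 : ∀ a, Nonempty ({l // g l = a} ≃ {l // f l = a}) := by
    intro a
    refine ⟨Fintype.equivOfCardEq ?_⟩
    rw [Fintype.card_subtype, Fintype.card_subtype, h a]
  refine ⟨Equiv.ofFiberEquiv (f := g) (g := f) (fun a => (h1 a).some), ?_⟩
  funext l
  exact (Equiv.ofFiberEquiv_map (fun a => (h1 a).some) l).symm

variable (n R : ℕ)

/-- pairs of families of phases -/
abbrev Om := (Fin n → ZMod R) × (Fin n → ZMod R)

variable {n R} [NeZero R]

set_option linter.unusedSectionVars false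

/-- the homomorphism of the letter `s = (i, j)` -/
def lh (s : Fin n × Fin n) : Om n R →+ ZMod R :=
  ((Pi.evalAddMonoidHom (fun _ => ZMod R) s.1).comp (AddMonoidHom.fst _ _)) +
    ((Pi.evalAddMonoidHom (fun _ => ZMod R) s.2).comp (AddMonoidHom.snd _ _))

@[simp] lemma lh_apply (s : Fin n × Fin n) (ω : Om n R) : lh s ω = ω.1 s.1 + ω.2 s.2 := rfl

/-- the character of a word -/
noncomputable def wch {k : ℕ} (f : Fin k → Fin n × Fin n) : AddChar (Om n R) ℂ :=
  (ZMod.stdAddChar (N := R)).compAddMonoidHom (∑ l, lh (f l))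

lemma wch_apply {k : ℕ} (f : Fin k → Fin n × Fin n) (ω : Om n R) :
    wch f ω = ZMod.stdAddChar (∑ l, (ω.1 (f l).1 + ω.2 (f l).2)) := by
  simp [wch, AddChar.compAddMonoidHom_apply, AddMonoidHom.finsetSum_apply]

/-- the character of a letter -/
noncomputable def lch (s : Fin n × Fin n) : AddChar (Om n R) ℂ :=
  (ZMod.stdAddChar (N := R)).compAddMonoidHom (lh s)

lemma lch_apply (s : Fin n × Fin n) (ω : Om n R) :
    lch s ω = ZMod.stdAddChar (ω.1 s.1 + ω.2 s.2) := rfl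

lemma wch_cons {k : ℕ} (s : Fin n × Fin n) (f : Fin k → Fin n × Fin n) (ω : Om n R) :
    wch (Fin.cons s f : Fin (k + 1) → Fin n × Fin n) ω = lch s ω * wch f ω := by
  rw [wch_apply, wch_apply, lch_apply, Fin.sum_univ_succ]
  simp only [Fin.cons_zero, Fin.cons_succ]
  exact AddChar.map_add_eq_mul _ _ _

lemma natCast_inj_of_lt {a b : ℕ} (ha : a < R) (hb : b < R) (h : (a : ZMod R) = b) : a = b := by
  rw [ZMod.natCast_eq_natCast_iff'] at h
  rwa [Nat.mod_eq_of_lt ha, Nat.mod_eq_of_lt hb] at h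

lemma wch_inj {k : ℕ} (hk : k < R) (f g : Fin k → Fin n × Fin n)
    (h : (wch g : AddChar (Om n R) ℂ) = wch f) :
    (∃ σ : Equiv.Perm (Fin k), Prod.fst ∘ g = (Prod.fst ∘ f) ∘ σ) ∧
      (∃ τ : Equiv.Perm (Fin k), Prod.snd ∘ g = (Prod.snd ∘ f) ∘ τ) := by
  have h1 : ∀ ω : Om n R, ∑ l, (ω.1 (g l).1 + ω.2 (g l).2) = ∑ l, (ω.1 (f l).1 + ω.2 (f l).2) := by
    intro ω
    have h2 := DFunLike.congr_fun h ω
    rw [wch_apply, wch_apply] at h2
    exact ZMod.injective_stdAddChar h2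
  constructor
  · refine exists_perm_of_card _ _ fun a => ?_
    have h3 := h1 (Pi.single a 1, 0)
    simp only [Pi.zero_apply, add_zero, Pi.single_apply] at h3
    rw [sum_boole, sum_boole] at h3
    have h4 : ∀ q : Fin k → Fin n × Fin n, (univ.filter fun l => (q l).1 = a).card < R := fun q =>
      lt_of_le_of_lt ((card_filter_le _ _).trans (by simp)) hk
    exact (natCast_inj_of_lt (h4 g) (h4 f) h3).symm
  · refine exists_perm_of_card _ _ fun a => ?_
    have h3 := h1 (0, Pi.single a 1)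
    simp only [Pi.zero_apply, zero_add, Pi.single_apply] at h3
    rw [sum_boole, sum_boole] at h3
    have h4 : ∀ q : Fin k → Fin n × Fin n, (univ.filter fun l => (q l).2 = a).card < R := fun q =>
      lt_of_le_of_lt ((card_filter_le _ _).trans (by simp)) hk
    exact (natCast_inj_of_lt (h4 g) (h4 f) h3).symm

open Classical in
lemma wch_card {k : ℕ} (hk : k < R) (f : Fin k → Fin n × Fin n) :
    (univ.filter fun g : Fin k → Fin n × Fin n =>
      (wch g : AddChar (Om n R) ℂ) = wch f).card ≤ k.factorial ^ 2 := by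
  have h1 : (univ.filter fun g : Fin k → Fin n × Fin n =>
      (wch g : AddChar (Om n R) ℂ) = wch f) ⊆
      (univ : Finset (Equiv.Perm (Fin k) × Equiv.Perm (Fin k))).image
        (fun s => fun l => ((f (s.1 l)).1, (f (s.2 l)).2)) := by
    intro g hg
    rw [mem_filter] at hg
    obtain ⟨⟨σ, hσ⟩, ⟨τ, hτ⟩⟩ := wch_inj hk f g hg.2
    rw [mem_image]
    refine ⟨(σ, τ), mem_univ _, ?_⟩
    funext l
    exact Prod.ext (congrFun hσ l).symm (congrFun hτ l).symm
  refine (card_le_card h1).trans (card_image_le.trans ?_)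
  rw [card_univ, Fintype.card_prod, Fintype.card_perm, Fintype.card_fin, pow_two]

lemma lch_inj (hR : 1 < R) : Function.Injective (lch : Fin n × Fin n → AddChar (Om n R) ℂ) := by
  intro s t h
  have h1 : ∀ ω : Om n R, ω.1 s.1 + ω.2 s.2 = ω.1 t.1 + ω.2 t.2 := by
    intro ω
    have h2 := DFunLike.congr_fun h ω
    rw [lch_apply, lch_apply] at h2
    exact ZMod.injective_stdAddChar h2
  have : Fact (1 < R) := ⟨hR⟩
  refine Prod.ext ?_ ?_
  · by_contra hne
    have h3 := h1 (Pi.single s.1 1, 0)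
    simp only [Pi.zero_apply, add_zero, Pi.single_apply, if_true] at h3
    rw [if_neg (fun h => hne h.symm)] at h3
    exact one_ne_zero h3
  · by_contra hne
    have h3 := h1 (0, Pi.single s.2 1)
    simp only [Pi.zero_apply, zero_add, Pi.single_apply, if_true] at h3
    rw [if_neg (fun h => hne h.symm)] at h3
    exact one_ne_zero h3

end words

end Crest.Agent.R121.Fin
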