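import Crest.Agent.R121.Fin.LB12
import Crest.Agent.R121.Fin.LBPhase

/-!
# Row 121, FIN, LB (3): decoupling by phases

`cu h e ω = D_α h D_β ∈ N` for `ω = (α, β)` two families of `R`-th roots of unity.
`LB3`: `E ‖d ((cu h e ω * b) ^ k) ξ‖² ≤ (k!)² · 24 K² ε²` for `k < R`, `h` flat unitary.
-/

set_option autoImplicit false
set_option linter.unusedSectionVars false

namespace Crest.Agent.R121.Fin

open Finset Matrix

section
variable {A : Type*} [CStarAlgebra A]
variable {H : Type*} [NormedAddCommGroup H] [InnerProductSpace ℂ H] [CompleteSpace H]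
variable {ϖ : A →⋆ₐ[ℂ] (H →L[ℂ] H)} {p : A} {ξ : H} {K : ℝ}
variable {n : ℕ} {e : Fin n → Fin n → A}

/-- the element of `N` with matrix `m` -/
noncomputable def toM (e : Fin n → Fin n → A) (m : Matrix (Fin n) (Fin n) ℂ) : A :=
  ∑ s : Fin n × Fin n, m s.1 s.2 • e s.1 s.2

lemma MU.toM_mul (hm : MU p n e) (m m' : Matrix (Fin n) (Fin n) ℂ) :
    toM e m * toM e m' = toM e (m * m') := by
  simp only [toM, Fintype.sum_prod_type]
  rw [sum_mul]
  refine sum_congr rfl fun i _ => ?_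
  have h1 : ∀ j, (m i j • e i j) * ∑ k, ∑ l, m' k l • e k l =
      ∑ l, (m i j * m' j l) • e i l := by
    intro j
    rw [mul_sum, sum_eq_single j]
    · rw [mul_sum]
      refine sum_congr rfl fun l _ => ?_
      rw [smul_mul_smul_comm, hm.mul, if_pos rfl]
    · intro k _ hk
      rw [mul_sum]
      refine sum_eq_zero fun l _ => ?_
      rw [smul_mul_smul_comm, hm.mul, if_neg (Ne.symm hk), smul_zero]
    · intro hi; exact absurd (mem_univ _) hi
  rw [sum_mul]
  simp_rw [h1]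
  rw [sum_comm]
  refine sum_congr rfl fun l _ => ?_
  rw [← sum_smul, Matrix.mul_apply]

lemma MU.toM_star (hm : MU p n e) (m : Matrix (Fin n) (Fin n) ℂ) :
    star (toM e m) = toM e mᴴ := by
  unfold toM
  rw [star_sum, Fintype.sum_prod_type, Fintype.sum_prod_type, sum_comm]
  refine sum_congr rfl fun i _ => sum_congr rfl fun j _ => ?_
  rw [star_smul, hm.st, Matrix.conjTranspose_apply]

lemma MU.toM_one (hm : MU p n e) : toM e (1 : Matrix (Fin n) (Fin n) ℂ) = p := by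
  unfold toM
  rw [← hm.sum, Fintype.sum_prod_type]
  refine sum_congr rfl fun i _ => ?_
  rw [sum_eq_single i]
  · rw [Matrix.one_apply_eq, one_smul]
  · intro j _ hj
    rw [Matrix.one_apply_ne (Ne.symm hj), zero_smul]
  · intro hi; exact absurd (mem_univ _) hi

lemma MU.toM_CU (hm : MU p n e) {m : Matrix (Fin n) (Fin n) ℂ} (h1 : m * mᴴ = 1)
    (h2 : mᴴ * m = 1) : CU p (toM e m) := by
  refine ⟨?_, ?_, ?_, ?_⟩
  · rw [hm.toM_star, hm.toM_mul, h2, hm.toM_one]
  · rw [hm.toM_star, hm.toM_mul, h1, hm.toM_one]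
  · unfold toM; rw [mul_sum]
    exact sum_congr rfl fun s _ => by rw [mul_smul_comm, hm.left]
  · unfold toM; rw [sum_mul]
    exact sum_congr rfl fun s _ => by rw [smul_mul_assoc, hm.right]

variable {R : ℕ} [NeZero R]

/-- the matrix of `cu` -/
noncomputable def cmat (h : Matrix (Fin n) (Fin n) ℂ) (ω : Om n R) : Matrix (Fin n) (Fin n) ℂ :=
  fun i j => ZMod.stdAddChar (ω.1 i) * h i j * ZMod.stdAddChar (ω.2 j)

/-- the random unitary `D_α h D_β` -/
noncomputable def cu (h : Matrix (Fin n) (Fin n) ℂ) (e : Fin n → Fin n → A) (ω : Om n R) : A :=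
  toM e (cmat h ω)

lemma star_char_mul (a : ZMod R) :
    star (ZMod.stdAddChar a : ℂ) * ZMod.stdAddChar a = 1 := by
  have h1 : star (ZMod.stdAddChar a : ℂ) = ZMod.stdAddChar (-a) := by
    rw [AddChar.map_neg_eq_conj]; rfl
  rw [h1, ← AddChar.map_add_eq_mul, neg_add_cancel, AddChar.map_zero_eq_one]

lemma cmat_eq (h : Matrix (Fin n) (Fin n) ℂ) (ω : Om n R) :
    cmat h ω = Matrix.diagonal (fun i => (ZMod.stdAddChar (ω.1 i) : ℂ)) * h *
      Matrix.diagonal (fun j => (ZMod.stdAddChar (ω.2 j) : ℂ)) := by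
  ext i j
  rw [Matrix.mul_diagonal, Matrix.diagonal_mul]
  rfl

lemma diag_unitary (α : Fin n → ZMod R) :
    Matrix.diagonal (fun i => (ZMod.stdAddChar (α i) : ℂ)) *
      (Matrix.diagonal (fun i => (ZMod.stdAddChar (α i) : ℂ)))ᴴ = 1 ∧
    (Matrix.diagonal (fun i => (ZMod.stdAddChar (α i) : ℂ)))ᴴ *
      Matrix.diagonal (fun i => (ZMod.stdAddChar (α i) : ℂ)) = 1 := by
  rw [Matrix.diagonal_conjTranspose, Matrix.diagonal_mul_diagonal, Matrix.diagonal_mul_diagonal,
    ← Matrix.diagonal_one]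
  constructor
  · congr 1; funext i
    rw [mul_comm]; exact star_char_mul _
  · congr 1; funext i
    exact star_char_mul _

lemma cmat_unitary {h : Matrix (Fin n) (Fin n) ℂ} (hh : h * hᴴ = 1) (ω : Om n R) :
    cmat h ω * (cmat h ω)ᴴ = 1 ∧ (cmat h ω)ᴴ * cmat h ω = 1 := by
  have h1 : cmat h ω * (cmat h ω)ᴴ = 1 := by
    rw [cmat_eq, Matrix.conjTranspose_mul, Matrix.conjTranspose_mul]
    calc _ = Matrix.diagonal (fun i => (ZMod.stdAddChar (ω.1 i) : ℂ)) * (h *
        (Matrix.diagonal (fun j => (ZMod.stdAddChar (ω.2 j) : ℂ)) *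
          (Matrix.diagonal (fun j => (ZMod.stdAddChar (ω.2 j) : ℂ)))ᴴ) * hᴴ) *
          (Matrix.diagonal (fun i => (ZMod.stdAddChar (ω.1 i) : ℂ)))ᴴ := by
          simp only [Matrix.mul_assoc]
      _ = 1 := by
        rw [(diag_unitary _).1, Matrix.mul_one, hh, Matrix.mul_one, (diag_unitary _).1]
  exact ⟨h1, mul_eq_one_comm.1 h1⟩

lemma cu_CU (hm : MU p n e) {h : Matrix (Fin n) (Fin n) ℂ} (hh : h * hᴴ = 1) (ω : Om n R) :
    CU p (cu h e ω) :=
  hm.toM_CU (cmat_unitary hh ω).1 (cmat_unitary hh ω).2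

lemma cu_eq (h : Matrix (Fin n) (Fin n) ℂ) (e : Fin n → Fin n → A) (ω : Om n R) :
    cu h e ω = ∑ s : Fin n × Fin n, lch s ω • (h s.1 s.2 • e s.1 s.2) := by
  unfold cu toM
  refine sum_congr rfl fun s _ => ?_
  rw [smul_smul, lch_apply, AddChar.map_add_eq_mul]
  congr 1
  unfold cmat
  ring

/-- the word `X_{f 0} b X_{f 1} b ⋯`, `X_s = h s.1 s.2 • e s.1 s.2` -/
noncomputable def wd (h : Matrix (Fin n) (Fin n) ℂ) (e : Fin n → Fin n → A) (b : A) {k : ℕ}
    (f : Fin k → Fin n × Fin n) : A :=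
  (List.ofFn fun l => (h (f l).1 (f l).2 • e (f l).1 (f l).2) * b).prod

lemma wd_cons (h : Matrix (Fin n) (Fin n) ℂ) (e : Fin n → Fin n → A) (b : A) {k : ℕ}
    (s : Fin n × Fin n) (f : Fin k → Fin n × Fin n) :
    wd h e b (Fin.cons s f : Fin (k + 1) → Fin n × Fin n) =
      (h s.1 s.2 • e s.1 s.2) * b * wd h e b f := by
  unfold wd
  rw [List.ofFn_succ, List.prod_cons]
  simp only [Fin.cons_zero, Fin.cons_succ]

lemma sum_cons {X : Type*} [AddCommMonoid X] {σ : Type*} [Fintype σ] {k : ℕ}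
    (F : (Fin (k + 1) → σ) → X) :
    ∑ f, F f = ∑ s : σ, ∑ f : Fin k → σ, F (Fin.cons s f) := by
  rw [← (Fin.consEquiv fun _ : Fin (k + 1) => σ).sum_comp, Fintype.sum_prod_type]
  rfl

lemma cu_pow (h : Matrix (Fin n) (Fin n) ℂ) (e : Fin n → Fin n → A) (b : A) (k : ℕ)
    (ω : Om n R) :
    (cu h e ω * b) ^ k = ∑ f : Fin k → Fin n × Fin n, wch f ω • wd h e b f := by
  induction k with
  | zero =>
    rw [pow_zero, Fintype.sum_unique]
    simp [wch_apply, wd]
  | succ k ih =>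
    rw [pow_succ', ih, sum_cons, cu_eq, sum_mul, sum_mul]
    refine sum_congr rfl fun s _ => ?_
    rw [mul_sum]
    refine sum_congr rfl fun f _ => ?_
    rw [wch_cons, wd_cons, smul_mul_assoc, smul_mul_smul_comm]

/-- independent letters -/
theorem indep (L : A →ₗ[ℂ] H) {h : Matrix (Fin n) (Fin n) ℂ} (hR : 1 < R) {B : ℝ} {b : A}
    (hb : CU p b) (hc : ∀ ω : Om n R, CU p (cu h e ω))
    (hB : ∀ z, CU p z → ∑ s : Fin n × Fin n, ‖L ((h s.1 s.2 • e s.1 s.2) * z)‖ ^ 2 ≤ B) (k : ℕ) :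
    ∀ x, CU p x → ∑ f : Fin k → Fin n × Fin n, ∑ s : Fin n × Fin n,
      ‖L ((h s.1 s.2 • e s.1 s.2) * (x * wd h e b f))‖ ^ 2 ≤ B := by
  induction k with
  | zero =>
    intro x hx
    rw [Fintype.sum_unique]
    simpa [wd] using hB x hx
  | succ k ih =>
    intro x hx
    have hN : (0 : ℝ) < Fintype.card (Om n R) := by exact_mod_cast Fintype.card_pos
    have h1 : ∀ (f : Fin k → Fin n × Fin n) (s : Fin n × Fin n),
        (Fintype.card (Om n R) : ℝ) * ∑ s' : Fin n × Fin n,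
          ‖L ((h s.1 s.2 • e s.1 s.2) * (x * wd h e b (Fin.cons s' f :
            Fin (k + 1) → Fin n × Fin n)))‖ ^ 2 =
        ∑ ω : Om n R, ‖L ((h s.1 s.2 • e s.1 s.2) * (x * (cu h e ω * b) * wd h e b f))‖ ^ 2 := by
      intro f s
      rw [← PH_inj (lch : Fin n × Fin n → AddChar (Om n R) ℂ) (lch_inj hR)]
      refine sum_congr rfl fun ω _ => ?_
      congr 2
      have : (h s.1 s.2 • e s.1 s.2) * (x * (cu h e ω * b) * wd h e b f) =
          ∑ s' : Fin n × Fin n, lch s' ω • ((h s.1 s.2 • e s.1 s.2) *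
            (x * wd h e b (Fin.cons s' f : Fin (k + 1) → Fin n × Fin n))) := by
        rw [cu_eq, sum_mul, mul_sum, sum_mul, mul_sum]
        refine sum_congr rfl fun s' _ => ?_
        rw [wd_cons]
        generalize h s'.1 s'.2 • e s'.1 s'.2 = X'
        generalize h s.1 s.2 • e s.1 s.2 = X
        simp only [smul_mul_assoc, mul_smul_comm, mul_assoc]
      rw [this, map_sum]
      exact sum_congr rfl fun s' _ => (map_smul L _ _).symm
    have h2 : (Fintype.card (Om n R) : ℝ) * ∑ f : Fin (k + 1) → Fin n × Fin n,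
        ∑ s : Fin n × Fin n, ‖L ((h s.1 s.2 • e s.1 s.2) * (x * wd h e b f))‖ ^ 2 ≤
        (Fintype.card (Om n R) : ℝ) * B := by
      calc (Fintype.card (Om n R) : ℝ) * ∑ f : Fin (k + 1) → Fin n × Fin n,
            ∑ s : Fin n × Fin n, ‖L ((h s.1 s.2 • e s.1 s.2) * (x * wd h e b f))‖ ^ 2
          = ∑ f : Fin k → Fin n × Fin n, ∑ s : Fin n × Fin n,
            (Fintype.card (Om n R) : ℝ) * ∑ s' : Fin n × Fin n,
              ‖L ((h s.1 s.2 • e s.1 s.2) * (x * wd h e b (Fin.cons s' f :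
                Fin (k + 1) → Fin n × Fin n)))‖ ^ 2 := by
            rw [sum_cons]
            simp_rw [← mul_sum]
            congr 1
            rw [sum_comm]
            refine sum_congr rfl fun f _ => ?_
            rw [sum_comm]
        _ = ∑ f : Fin k → Fin n × Fin n, ∑ s : Fin n × Fin n, ∑ ω : Om n R,
            ‖L ((h s.1 s.2 • e s.1 s.2) * (x * (cu h e ω * b) * wd h e b f))‖ ^ 2 := by
            simp_rw [h1]
        _ = ∑ ω : Om n R, ∑ f : Fin k → Fin n × Fin n, ∑ s : Fin n × Fin n,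
            ‖L ((h s.1 s.2 • e s.1 s.2) * (x * (cu h e ω * b) * wd h e b f))‖ ^ 2 := by
            simp_rw [sum_comm (s := (univ : Finset (Fin n × Fin n))) (t := (univ : Finset (Om n R)))]
            rw [sum_comm]
        _ ≤ ∑ ω : Om n R, B :=
            sum_le_sum fun ω _ => ih _ (hx.mul' ((hc ω).mul' hb))
        _ = (Fintype.card (Om n R) : ℝ) * B := by
            rw [sum_const, card_univ, nsmul_eq_mul]
    exact le_of_mul_le_mul_left h2 hN

/-- **LB3** -/
theorem LB3 (hco : Cor ϖ p ξ K) (hm : MU p n e) {S : A →L[ℂ] A} (hS : RMod e S)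
    (hSp : ∀ x, S (x * p) = S x ∧ S x * p = S x) (y : A) {ε : ℝ}
    (small : ∀ t, CU p t → (∀ i j, t * e i j = e i j * t) → ‖ϖ (dd S y t) ξ‖ ≤ ε)
    {h : Matrix (Fin n) (Fin n) ℂ} (hh : h * hᴴ = 1) (flat : ∀ i j, ‖h i j‖ ^ 2 = 1 / n)
    {b : A} (hb : CU p b) {k : ℕ} (hk : k < R) :
    ∑ ω : Om n R, ‖ϖ (dd S y ((cu h e ω * b) ^ k)) ξ‖ ^ 2 ≤
      Fintype.card (Om n R) * ((k.factorial : ℝ) ^ 2 * (24 * K ^ 2 * ε ^ 2)) := by
  classical
  let L : A →ₗ[ℂ] H :=
    { toFun := fun x => ϖ (dd S y x) ξ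
      map_add' := by
        intro x x'; rw [(dd S y).map_add, map_add]; rfl
      map_smul' := by
        intro c x; rw [(dd S y).map_smul, map_smul]; rfl }
  have hL : ∀ x, L x = ϖ (dd S y x) ξ := fun x => rfl
  have hB : ∀ z, CU p z → ∑ s : Fin n × Fin n, ‖L ((h s.1 s.2 • e s.1 s.2) * z)‖ ^ 2 ≤
      24 * K ^ 2 * ε ^ 2 := by
    intro z hz
    rcases Nat.eq_zero_or_pos n with hn | hn
    · subst hn
      simp only [Finset.univ_eq_empty, Finset.sum_empty]
      positivity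
    · have hn' : (0 : ℝ) < n := by exact_mod_cast hn
      have h1 : ∀ s : Fin n × Fin n, ‖L ((h s.1 s.2 • e s.1 s.2) * z)‖ ^ 2 =
          (1 / n) * ‖ϖ (dd S y (e s.1 s.2 * z)) ξ‖ ^ 2 := by
        intro s
        rw [smul_mul_assoc, map_smul, norm_smul, mul_pow, flat, hL]
      simp_rw [h1]
      rw [← mul_sum]
      have h2 := LB2 hco hm hS hSp y small hz
      calc 1 / (n : ℝ) * ∑ s : Fin n × Fin n, ‖ϖ (dd S y (e s.1 s.2 * z)) ξ‖ ^ 2
          ≤ 1 / (n : ℝ) * (24 * K ^ 2 * ε ^ 2 * n) :=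
            mul_le_mul_of_nonneg_left h2 (by positivity)
        _ = 24 * K ^ 2 * ε ^ 2 := by field_simp
  rcases Nat.eq_zero_or_pos k with hk0 | hk0
  · subst hk0
    have : ∀ ω : Om n R, ‖ϖ (dd S y ((cu h e ω * b) ^ 0)) ξ‖ ^ 2 = 0 := by
      intro ω
      rw [pow_zero, dd_apply, mul_one, mul_one, sub_self, map_zero]
      simp
    simp_rw [this]
    rw [sum_const_zero]
    positivity
  · obtain ⟨m, rfl⟩ : ∃ m, k = m + 1 := ⟨k - 1, by omega⟩
    have hR : 1 < R := by omega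
    have h1 : ∀ ω : Om n R, ‖ϖ (dd S y ((cu h e ω * b) ^ (m + 1))) ξ‖ ^ 2 =
        ‖∑ f : Fin (m + 1) → Fin n × Fin n, (wch f : AddChar (Om n R) ℂ) ω •
          L (wd h e b f)‖ ^ 2 := by
      intro ω
      rw [← hL, cu_pow, map_sum]
      simp_rw [map_smul]
    simp_rw [h1]
    refine (PH_le _ ((m + 1).factorial ^ 2) (fun f => wch_card hk f) _).trans ?_
    refine mul_le_mul_of_nonneg_left ?_ (Nat.cast_nonneg _)
    push_cast
    refine mul_le_mul_of_nonneg_left ?_ (by positivity)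
    have h2 := indep L hR hb (fun ω => cu_CU hm hh ω) hB m b hb
    refine le_trans (le_of_eq ?_) h2
    rw [sum_cons, sum_comm]
    refine sum_congr rfl fun f _ => sum_congr rfl fun s _ => ?_
    rw [wd_cons, mul_assoc]

end

end Crest.Agent.R121.Fin
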