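import Crest.Agent.R121.Fin.Defs
import Crest.Agent.R121.Fin.Hilbert

/-!
# Row 121, block FIN, step LB (4)

The final estimate: if `S (y Z^k) ≈ S y Z^k` and `S (y Z^{-k}) ≈ S (y a*) a Z^{-k}` in mean square
over a random corner unitary `Z` whose law is invariant under a rotation, then
`S (y a*) a - S y` is small: its size is `O(1 / log m)`.
-/

set_option autoImplicit false

open scoped InnerProductSpace
open Finset

namespace Crest.Agent.R121.Fin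

section zpows

variable {A : Type*} [CStarAlgebra A]

/-- integer powers in the corner `pAp` -/
noncomputable def zp (p Z : A) : ℤ → A
  | Int.ofNat n => p * Z ^ n
  | Int.negSucc n => p * star Z ^ (n + 1)

theorem zp_zero (p Z : A) : zp p Z 0 = p := by
  change p * Z ^ 0 = p
  simp

theorem CU.pow_pos {p Z : A} (h : CU p Z) (n : ℕ) : p * Z ^ (n + 1) = Z ^ (n + 1) := by
  rw [pow_succ', ← mul_assoc, h.left]

theorem CU.pow_right {p Z : A} (h : CU p Z) (n : ℕ) : Z ^ (n + 1) * p = Z ^ (n + 1) := by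
  rw [pow_succ, mul_assoc, h.right]

theorem zp_ofNat_succ {p Z : A} (h : CU p Z) (n : ℕ) : zp p Z ((n : ℤ) + 1) = Z ^ (n + 1) := by
  have : ((n : ℤ) + 1) = Int.ofNat (n + 1) := rfl
  rw [this]
  exact h.pow_pos n

theorem zp_neg_succ {p Z : A} (hp : star p = p) (h : CU p Z) (n : ℕ) :
    zp p Z (-((n : ℤ) + 1)) = star Z ^ (n + 1) := by
  have : (-((n : ℤ) + 1)) = Int.negSucc n := rfl
  rw [this]
  exact (h.star' hp).pow_pos n

/-- the unitary `Z + (1 - p)` -/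
noncomputable def cuU {p Z : A} (hp : star p = p) (hpp : p * p = p) (h : CU p Z) : unitary A :=
  ⟨Z + (1 - p), by
    have h1 := h.left
    have h2 := h.right
    have h3 := h.left' hp
    have h4 := h.right' hp
    have h5 := h.st_mul
    have h6 := h.mul_st
    rw [Unitary.mem_iff]
    constructor
    · rw [star_add, star_sub, star_one, hp, add_mul, mul_add, mul_add, h5, mul_sub, mul_one, h4,
        sub_self, sub_mul, one_mul, h1, sub_self, mul_sub, mul_one, sub_mul, one_mul, hpp]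
      abel
    · rw [star_add, star_sub, star_one, hp, add_mul, mul_add, mul_add, h6, mul_sub, mul_one, h2,
        sub_self, sub_mul, one_mul, h3, sub_self, mul_sub, mul_one, sub_mul, one_mul, hpp]
      abel⟩

theorem coe_cuU {p Z : A} (hp : star p = p) (hpp : p * p = p) (h : CU p Z) :
    ((cuU hp hpp h : unitary A) : A) = Z + (1 - p) := rfl

theorem mul_cuU_pow {p Z : A} (hp : star p = p) (hpp : p * p = p) (h : CU p Z) (n : ℕ) :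
    p * ((cuU hp hpp h : unitary A) : A) ^ n = p * Z ^ n := by
  induction n with
  | zero => simp
  | succ n ih =>
    have e : p * Z ^ n * p = p * Z ^ n := by
      rcases n with _ | n
      · simp [hpp]
      · rw [mul_assoc, h.pow_right]
    rw [pow_succ, ← mul_assoc, ih, coe_cuU, mul_add, mul_sub, mul_one, e, sub_self, add_zero,
      mul_assoc, ← pow_succ]

theorem zp_eq {p Z : A} (hp : star p = p) (hpp : p * p = p) (h : CU p Z) (m : ℤ) :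
    zp p Z m = p * ((cuU hp hpp h ^ m : unitary A) : A) := by
  rcases m with n | n
  · change p * Z ^ n = p * ((cuU hp hpp h ^ (n : ℤ) : unitary A) : A)
    rw [zpow_natCast, SubmonoidClass.coe_pow, mul_cuU_pow]
  · change p * star Z ^ (n + 1) = _
    have hs : star (cuU hp hpp h) = cuU hp hpp (h.star' hp) := by
      apply Subtype.ext
      rw [Unitary.coe_star, coe_cuU, coe_cuU, star_add, star_sub, star_one, hp]
    have : (cuU hp hpp h ^ Int.negSucc n : unitary A) = (cuU hp hpp (h.star' hp)) ^ (n + 1) := by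
      rw [zpow_negSucc, ← hs, ← inv_pow]
      rfl
    rw [this, SubmonoidClass.coe_pow, mul_cuU_pow]

theorem cuU_comm {p Z : A} (hp : star p = p) (hpp : p * p = p) (h : CU p Z) :
    Commute p ((cuU hp hpp h : unitary A) : A) := by
  change p * (Z + (1 - p)) = (Z + (1 - p)) * p
  rw [mul_add, add_mul, h.left, h.right, mul_sub, sub_mul, mul_one, one_mul]

theorem cuU_comm_zpow {p Z : A} (hp : star p = p) (hpp : p * p = p) (h : CU p Z) (m : ℤ) :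
    Commute p ((cuU hp hpp h ^ m : unitary A) : A) := by
  rcases m with n | n
  · change Commute p ((cuU hp hpp h ^ (n : ℤ) : unitary A) : A)
    rw [zpow_natCast, SubmonoidClass.coe_pow]
    exact (cuU_comm hp hpp h).pow_right n
  · have hs : star (cuU hp hpp h) = cuU hp hpp (h.star' hp) := by
      apply Subtype.ext
      rw [Unitary.coe_star, coe_cuU, coe_cuU, star_add, star_sub, star_one, hp]
    have : (cuU hp hpp h ^ Int.negSucc n : unitary A) = (cuU hp hpp (h.star' hp)) ^ (n + 1) := by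
      rw [zpow_negSucc, ← hs, ← inv_pow]
      rfl
    rw [this, SubmonoidClass.coe_pow]
    exact (cuU_comm hp hpp (h.star' hp)).pow_right _

theorem zp_mul {p Z : A} (hp : star p = p) (hpp : p * p = p) (h : CU p Z) (m n : ℤ) :
    zp p Z m * zp p Z n = zp p Z (m + n) := by
  rw [zp_eq hp hpp h, zp_eq hp hpp h, zp_eq hp hpp h, zpow_add, Submonoid.coe_mul]
  have := (cuU_comm_zpow hp hpp h m).eq
  calc p * ((cuU hp hpp h ^ m : unitary A) : A) * (p * ((cuU hp hpp h ^ n : unitary A) : A))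
      = p * (((cuU hp hpp h ^ m : unitary A) : A) * p) * ((cuU hp hpp h ^ n : unitary A) : A) := by
        noncomm_ring
    _ = (p * p) * (((cuU hp hpp h ^ m : unitary A) : A) * ((cuU hp hpp h ^ n : unitary A) : A)) := by
        rw [← this]; noncomm_ring
    _ = _ := by rw [hpp]

theorem zp_star {p Z : A} (hp : star p = p) (hpp : p * p = p) (h : CU p Z) (m : ℤ) :
    star (zp p Z m) = zp p Z (-m) := by
  rw [zp_eq hp hpp h, zp_eq hp hpp h, star_mul, hp, ← Unitary.coe_star]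
  have : star (cuU hp hpp h ^ m) = cuU hp hpp h ^ (-m) := by
    rw [zpow_neg]; rfl
  rw [this]
  exact (cuU_comm_zpow hp hpp h (-m)).eq.symm

theorem zp_cu {p Z : A} (hp : star p = p) (hpp : p * p = p) (h : CU p Z) (m : ℤ) :
    CU p (zp p Z m) := by
  have h0 : zp p Z 0 = p := zp_zero p Z
  refine ⟨?_, ?_, ?_, ?_⟩
  · rw [zp_star hp hpp h, zp_mul hp hpp h, neg_add_cancel, h0]
  · rw [zp_star hp hpp h, zp_mul hp hpp h, add_neg_cancel, h0]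
  · calc p * zp p Z m = zp p Z 0 * zp p Z m := by rw [h0]
      _ = zp p Z m := by rw [zp_mul hp hpp h, zero_add]
  · calc zp p Z m * p = zp p Z m * zp p Z 0 := by rw [h0]
      _ = zp p Z m := by rw [zp_mul hp hpp h, add_zero]

theorem zp_smul {p Z : A} {ζ : ℂ} (hζ : ‖ζ‖ = 1) (m : ℤ) :
    zp p (ζ • Z) m = ζ ^ m • zp p Z m := by
  have h0 : ζ ≠ 0 := by
    intro h
    rw [h, norm_zero] at hζ
    exact zero_ne_one hζ
  rcases m with n | n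
  · change p * (ζ • Z) ^ n = ζ ^ (n : ℤ) • (p * Z ^ n)
    rw [smul_pow, mul_smul_comm, zpow_natCast]
  · change p * star (ζ • Z) ^ (n + 1) = ζ ^ (Int.negSucc n) • (p * star Z ^ (n + 1))
    rw [star_smul, smul_pow, mul_smul_comm, zpow_negSucc]
    congr 1
    rw [← inv_pow]
    congr 1
    have : ζ * star ζ = 1 := by
      rw [Complex.star_def, Complex.mul_conj, Complex.normSq_eq_norm_sq, hζ]
      simp
    exact (eq_inv_of_mul_eq_one_right this)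

theorem CU.norm_le4 {p u : A} (hp : star p = p) (hpp : p * p = p) (h : CU p u) : ‖u‖ ≤ 1 := by
  have h1 : ‖p‖ ≤ 1 := by
    have : ‖star p * p‖ = ‖p‖ * ‖p‖ := CStarRing.norm_star_mul_self
    rw [hp, hpp] at this
    rcases eq_or_ne ‖p‖ 0 with h0 | h0
    · rw [h0]; exact zero_le_one
    · have := mul_right_cancel₀ h0 (this.symm.trans (one_mul _).symm)
      exact this.le
  have h2 : ‖star u * u‖ = ‖u‖ * ‖u‖ := CStarRing.norm_star_mul_self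
  rw [h.st_mul] at h2
  nlinarith [norm_nonneg u]

end zpows

section corner

variable {A : Type*} [CStarAlgebra A]
variable {H : Type*} [NormedAddCommGroup H] [InnerProductSpace ℂ H] [CompleteSpace H]
variable {ϖ : A →⋆ₐ[ℂ] (H →L[ℂ] H)} {p : A} {ξ : H} {K : ℝ}

theorem norm_rep_le4 (x : A) : ‖ϖ x‖ ≤ ‖x‖ := NonUnitalStarAlgHom.norm_apply_le ϖ x

/-- existence of the absolute value -/
theorem exists_abs4 (D : A) : ∃ h : A, star h = h ∧ h * h = star D * D := by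
  let _ := CStarAlgebra.spectralOrder A
  have _ := CStarAlgebra.spectralOrderedRing A
  refine ⟨CFC.sqrt (star D * D), ?_, ?_⟩
  · exact (IsSelfAdjoint.of_nonneg (CFC.sqrt_nonneg (star D * D))).star_eq
  · exact CFC.sqrt_mul_sqrt_self (star D * D) (star_mul_self_nonneg D)

theorem norm_rep_sq4 (D : A) (η : H) : ‖ϖ D η‖ ^ 2 = RCLike.re ⟪ϖ (star D * D) η, η⟫_ℂ := by
  rw [map_mul, map_star, mul_apply_eq_comp, ContinuousLinearMap.star_eq_adjoint,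
    ContinuousLinearMap.adjoint_inner_left, inner_self_eq_norm_sq_to_K]
  norm_cast

theorem norm_rep_congr4 {D h : A} (e : star h * h = star D * D) (η : H) :
    ‖ϖ h η‖ = ‖ϖ D η‖ := by
  have h1 := norm_rep_sq4 (ϖ := ϖ) D η
  have h2 := norm_rep_sq4 (ϖ := ϖ) h η
  rw [e, ← h1] at h2
  exact (pow_left_inj₀ (norm_nonneg _) (norm_nonneg _) two_ne_zero).1 h2

theorem star_mul_self_eq_zero4 {x : A} (h : star x * x = 0) : x = 0 := by
  have h1 : ‖star x * x‖ = ‖x‖ * ‖x‖ := CStarRing.norm_star_mul_self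
  rw [h, norm_zero] at h1
  exact norm_eq_zero.1 (mul_self_eq_zero.1 h1.symm)

/-- right multiplication by corner elements in the `K`-trace seminorm -/
theorem Cor.norm_mul_sq_le (hc : Cor ϖ p ξ K) {D x : A} (hD : D * p = D)
    (hx2 : x * p = x) : ‖ϖ (D * x) ξ‖ ^ 2 ≤ K * ‖x‖ ^ 2 * ‖ϖ D ξ‖ ^ 2 := by
  obtain ⟨h, hs, hh⟩ := exists_abs4 D
  have hp : h * p = h := by
    have h1 : h * (1 - p) = 0 := by
      refine star_mul_self_eq_zero4 ?_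
      rw [star_mul, star_sub, star_one, hc.star_p, hs]
      calc (1 - p) * h * (h * (1 - p)) = (1 - p) * (h * h) * (1 - p) := by noncomm_ring
        _ = (1 - p) * star D * (D * (1 - p)) := by rw [hh]; noncomm_ring
        _ = 0 := by rw [mul_sub, mul_one, hD, sub_self, mul_zero]
    rw [mul_sub, mul_one, sub_eq_zero] at h1
    exact h1.symm
  have hp' : p * h = h := by
    have := congrArg star hp
    rwa [star_mul, hs, hc.star_p] at this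
  have e1 : ‖ϖ (h * x) ξ‖ = ‖ϖ (D * x) ξ‖ := by
    apply norm_rep_congr4
    rw [star_mul, star_mul, hs]
    calc star x * h * (h * x) = star x * (h * h) * x := by noncomm_ring
      _ = star x * star D * (D * x) := by rw [hh]; noncomm_ring
  have e2 : ‖ϖ h ξ‖ = ‖ϖ D ξ‖ := by
    apply norm_rep_congr4
    rw [hs, hh]
  have h3 := hc.hK (h * x) (by rw [← mul_assoc, hp']) (by rw [mul_assoc, hx2])
  rw [e1] at h3
  refine h3.trans ?_
  rw [star_mul, hs, map_mul, mul_apply_eq_comp, mul_assoc]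
  refine mul_le_mul_of_nonneg_left ?_ hc.K0
  rw [← e2, ← mul_pow]
  refine pow_le_pow_left₀ (norm_nonneg _) ?_ 2
  calc ‖ϖ (star x) (ϖ h ξ)‖ ≤ ‖ϖ (star x)‖ * ‖ϖ h ξ‖ := (ϖ (star x)).le_opNorm _
    _ ≤ ‖x‖ * ‖ϖ h ξ‖ := by
      refine mul_le_mul_of_nonneg_right ?_ (norm_nonneg _)
      exact (norm_rep_le4 _).trans (norm_star x).le

theorem Cor.norm_mul_cu (hc : Cor ϖ p ξ K) {D x : A} (hD : D * p = D) (hx : CU p x) :
    ‖ϖ (D * x) ξ‖ ^ 2 ≤ K * ‖ϖ D ξ‖ ^ 2 := by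
  refine (hc.norm_mul_sq_le hD hx.right).trans ?_
  have h1 := hx.norm_le4 hc.star_p hc.p_p
  have h2 : ‖x‖ ^ 2 ≤ 1 := pow_le_one₀ (norm_nonneg _) h1
  calc K * ‖x‖ ^ 2 * ‖ϖ D ξ‖ ^ 2 ≤ K * 1 * ‖ϖ D ξ‖ ^ 2 := by
        refine mul_le_mul_of_nonneg_right ?_ (sq_nonneg _)
        exact mul_le_mul_of_nonneg_left h2 hc.K0
    _ = _ := by ring

theorem CU.norm_apply {u : A} (hpξ : ϖ p ξ = ξ) (hu : CU p u) : ‖ϖ u ξ‖ = ‖ξ‖ := by
  have h1 := norm_rep_sq4 (ϖ := ϖ) u ξ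
  rw [hu.st_mul, hpξ, inner_self_eq_norm_sq_to_K] at h1
  have h2 : ‖ϖ u ξ‖ ^ 2 = ‖ξ‖ ^ 2 := by
    rw [h1]; norm_cast
  exact (pow_left_inj₀ (norm_nonneg _) (norm_nonneg _) two_ne_zero).1 h2

end corner

section comb

/-- grouping a double sum by differences -/
theorem sum_sum_sub4 {E : Type*} [AddCommGroup E] [Module ℂ E] (f : ℤ → E) (J : ℕ) :
    ∑ k ∈ range J, ∑ l ∈ range J, f ((l : ℤ) - k) =
      (J : ℂ) • f 0 + ∑ q ∈ range J, ((J : ℂ) - (q + 1)) •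
        (f ((q : ℤ) + 1) + f (-((q : ℤ) + 1))) := by
  induction J with
  | zero => simp
  | succ J ih =>
    have h1 : ∑ k ∈ range (J + 1), ∑ l ∈ range (J + 1), f ((l : ℤ) - k)
        = (∑ k ∈ range J, ∑ l ∈ range J, f ((l : ℤ) - k))
          + (f 0 + ∑ q ∈ range J, (f ((q : ℤ) + 1) + f (-((q : ℤ) + 1)))) := by
      rw [sum_range_succ]
      have e1 : ∑ k ∈ range J, ∑ l ∈ range (J + 1), f ((l : ℤ) - k)
          = (∑ k ∈ range J, ∑ l ∈ range J, f ((l : ℤ) - k)) + ∑ k ∈ range J, f ((J : ℤ) - k) := by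
        rw [← sum_add_distrib]
        exact sum_congr rfl fun k _ => sum_range_succ _ _
      have e2 : ∑ l ∈ range (J + 1), f ((l : ℤ) - (J : ℤ))
          = (∑ l ∈ range J, f ((l : ℤ) - (J : ℤ))) + f 0 := by
        rw [sum_range_succ]; simp
      have e3 : ∑ k ∈ range J, f ((J : ℤ) - k) = ∑ q ∈ range J, f ((q : ℤ) + 1) := by
        rw [← sum_range_reflect (fun q => f ((q : ℤ) + 1)) J]
        refine sum_congr rfl fun k hk => ?_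
        rw [mem_range] at hk
        congr 1
        omega
      have e4 : ∑ l ∈ range J, f ((l : ℤ) - (J : ℤ)) = ∑ q ∈ range J, f (-((q : ℤ) + 1)) := by
        rw [← sum_range_reflect (fun q => f (-((q : ℤ) + 1))) J]
        refine sum_congr rfl fun k hk => ?_
        rw [mem_range] at hk
        congr 1
        omega
      rw [e1, e2, e3, e4, sum_add_distrib]
      abel
    rw [h1, ih, sum_range_succ]
    have h2 : ((J + 1 : ℕ) : ℂ) - ((J : ℂ) + 1) = 0 := by push_cast; ring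
    rw [h2, zero_smul, add_zero]
    have h3 : ∀ q ∈ range J, (((J + 1 : ℕ) : ℂ) - ((q : ℂ) + 1)) •
          (f ((q : ℤ) + 1) + f (-((q : ℤ) + 1)))
        = ((J : ℂ) - ((q : ℂ) + 1)) • (f ((q : ℤ) + 1) + f (-((q : ℤ) + 1)))
          + (f ((q : ℤ) + 1) + f (-((q : ℤ) + 1))) := by
      intro q _
      have : (((J + 1 : ℕ) : ℂ) - ((q : ℂ) + 1)) = ((J : ℂ) - ((q : ℂ) + 1)) + 1 := by
        push_cast; ring
      rw [this, add_smul, one_smul]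
    have h4 : ∑ q ∈ range J, (((J : ℂ) - ((q : ℂ) + 1)) •
          (f ((q : ℤ) + 1) + f (-((q : ℤ) + 1))) + (f ((q : ℤ) + 1) + f (-((q : ℤ) + 1))))
        = (∑ q ∈ range J, ((J : ℂ) - ((q : ℂ) + 1)) • (f ((q : ℤ) + 1) + f (-((q : ℤ) + 1))))
          + ∑ q ∈ range J, (f ((q : ℤ) + 1) + f (-((q : ℤ) + 1))) := sum_add_distrib
    rw [sum_congr rfl h3, h4, Nat.cast_succ, add_smul, one_smul]
    exact add_add_add_comm _ _ _ _

end comb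

section main

variable {A : Type*} [CStarAlgebra A]
variable {H : Type*} [NormedAddCommGroup H] [InnerProductSpace ℂ H] [CompleteSpace H]
variable {ϖ : A →⋆ₐ[ℂ] (H →L[ℂ] H)} {p : A} {ξ : H} {K : ℝ}

/-- the coefficients -/
noncomputable def cq (M q : ℕ) : ℝ := ((M : ℝ) - q) / ((M + 1) * (q + 1))

theorem cq_nonneg {M q : ℕ} (h : q < M) : 0 ≤ cq M q := by
  have : (q : ℝ) < M := by exact_mod_cast h
  unfold cq
  apply div_nonneg
  · linarith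
  · positivity

theorem cq_le_one {M q : ℕ} (h : q < M) : cq M q ≤ 1 := by
  have : (q : ℝ) < M := by exact_mod_cast h
  have h0 : (0 : ℝ) ≤ q := Nat.cast_nonneg q
  unfold cq
  rw [div_le_one (by positivity)]
  nlinarith [mul_nonneg h0 h0, mul_nonneg h0 (Nat.cast_nonneg (α := ℝ) M)]

theorem cq_ge {M q : ℕ} (h : 2 * q + 1 ≤ M) : 1 / (2 * ((q : ℝ) + 1)) ≤ cq M q := by
  have h1 : 2 * (q : ℝ) + 1 ≤ M := by exact_mod_cast h
  have h0 : (0 : ℝ) ≤ q := Nat.cast_nonneg q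
  unfold cq
  rw [div_le_div_iff₀ (by positivity) (by positivity)]
  nlinarith

/-- the truncated Hilbert transform of `Z` -/
noncomputable def XM (p Z : A) (M : ℕ) : A :=
  ∑ q ∈ range M, (cq M q : ℂ) • (zp p Z ((q : ℤ) + 1) - zp p Z (-((q : ℤ) + 1)))

theorem smul_XM (p Z : A) (M : ℕ) :
    ((M : ℂ) + 1) • XM p Z M = ∑ k ∈ range (M + 1), ∑ l ∈ range (M + 1),
      (((l : ℂ) - (k : ℂ))⁻¹) • zp p Z ((l : ℤ) - k) := by
  have h := sum_sum_sub4 (fun d : ℤ => ((d : ℂ)⁻¹) • zp p Z d) (M + 1)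
  have h1 : ∑ k ∈ range (M + 1), ∑ l ∈ range (M + 1),
      (((l : ℂ) - (k : ℂ))⁻¹) • zp p Z ((l : ℤ) - k)
      = ∑ k ∈ range (M + 1), ∑ l ∈ range (M + 1),
        (fun d : ℤ => ((d : ℂ)⁻¹) • zp p Z d) ((l : ℤ) - k) := by
    refine sum_congr rfl fun k _ => sum_congr rfl fun l _ => ?_
    simp only [Int.cast_sub, Int.cast_natCast]
  rw [h1, h, sum_range_succ]
  have e0 : (((M + 1 : ℕ) : ℂ) - ((M : ℂ) + 1)) = 0 := by push_cast; ring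
  rw [e0, zero_smul, add_zero]
  simp only [Int.cast_zero, inv_zero, zero_smul, smul_zero, zero_add]
  rw [XM, smul_sum]
  refine sum_congr rfl fun q hq => ?_
  have hq1 : ((q : ℂ) + 1) ≠ 0 := by
    have : ((q + 1 : ℕ) : ℂ) ≠ 0 := Nat.cast_ne_zero.2 (Nat.succ_ne_zero q)
    simpa using this
  have hM1 : ((M : ℂ) + 1) ≠ 0 := by
    have : ((M + 1 : ℕ) : ℂ) ≠ 0 := Nat.cast_ne_zero.2 (Nat.succ_ne_zero M)
    simpa using this
  have e1 : ((-((q : ℤ) + 1) : ℤ) : ℂ)⁻¹ = -((q : ℂ) + 1)⁻¹ := by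
    push_cast
    rw [← inv_neg]
  have e2 : ((((q : ℤ) + 1 : ℤ)) : ℂ)⁻¹ = ((q : ℂ) + 1)⁻¹ := by push_cast; rfl
  rw [e1, e2, neg_smul, ← sub_eq_add_neg, ← smul_sub, smul_smul, smul_smul]
  congr 1
  unfold cq
  push_cast
  field_simp
  ring

theorem norm_XM_le (hϖ : ∀ x, ‖ϖ x‖ = ‖x‖) (hp : star p = p) (hpp : p * p = p) {Z : A}
    (h : CU p Z) (M : ℕ) : ‖XM p Z M‖ ≤ Real.pi := by
  rw [← hϖ]
  refine ContinuousLinearMap.opNorm_le_bound _ Real.pi_pos.le fun v => ?_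
  have hW : ∀ (k : ℤ) (v : H), ‖ϖ (zp p Z k) v‖ ≤ ‖v‖ := by
    intro k v
    calc ‖ϖ (zp p Z k) v‖ ≤ ‖ϖ (zp p Z k)‖ * ‖v‖ := (ϖ (zp p Z k)).le_opNorm v
      _ ≤ 1 * ‖v‖ := by
        refine mul_le_mul_of_nonneg_right ?_ (norm_nonneg _)
        exact (norm_rep_le4 _).trans ((zp_cu hp hpp h k).norm_le4 hp hpp)
      _ = ‖v‖ := one_mul _
  have key : ∀ w : H, ‖⟪w, ϖ (XM p Z M) v⟫_ℂ‖ ≤ Real.pi * ‖w‖ * ‖v‖ := by
    intro w
    have e : ((M : ℂ) + 1) * ⟪w, ϖ (XM p Z M) v⟫_ℂ = ∑ k ∈ range (M + 1),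
        ⟪ϖ (zp p Z k) w, ∑ l ∈ range (M + 1), (((l : ℂ) - (k : ℂ))⁻¹) • ϖ (zp p Z l) v⟫_ℂ := by
      have e1 : ((M : ℂ) + 1) * ⟪w, ϖ (XM p Z M) v⟫_ℂ
          = ⟪w, ϖ (((M : ℂ) + 1) • XM p Z M) v⟫_ℂ := by
        rw [map_smul, smul_apply, inner_smul_right]
      rw [e1, smul_XM]
      simp only [map_sum, map_smul, _root_.sum_apply, smul_apply,
        inner_sum, inner_smul_right]
      refine sum_congr rfl fun k _ => sum_congr rfl fun l _ => ?_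
      congr 1
      have e2 : zp p Z ((l : ℤ) - k) = star (zp p Z k) * zp p Z l := by
        rw [zp_star hp hpp h, zp_mul hp hpp h]
        congr 1
        ring
      rw [e2, map_mul, map_star, mul_apply_eq_comp, ContinuousLinearMap.star_eq_adjoint,
        ContinuousLinearMap.adjoint_inner_right]
    have hM1 : (0 : ℝ) < (M : ℝ) + 1 := by positivity
    have hn : ‖((M : ℂ) + 1)‖ = (M : ℝ) + 1 := by
      have : ((M : ℂ) + 1) = (((M : ℝ) + 1 : ℝ) : ℂ) := by push_cast; rfl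
      rw [this, Complex.norm_real, Real.norm_of_nonneg hM1.le]
    have h1 : ((M : ℝ) + 1) * ‖⟪w, ϖ (XM p Z M) v⟫_ℂ‖ ≤ ∑ k ∈ range (M + 1),
        ‖ϖ (zp p Z k) w‖ * ‖∑ l ∈ range (M + 1), (((l : ℂ) - (k : ℂ))⁻¹) • ϖ (zp p Z l) v‖ := by
      rw [← hn, ← norm_mul, e]
      exact (norm_sum_le _ _).trans (sum_le_sum fun k _ => norm_inner_le_norm _ _)
    have h2 : (∑ k ∈ range (M + 1),
        ‖ϖ (zp p Z k) w‖ * ‖∑ l ∈ range (M + 1), (((l : ℂ) - (k : ℂ))⁻¹) • ϖ (zp p Z l) v‖) ^ 2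
        ≤ (((M : ℝ) + 1) * ‖w‖ ^ 2) * (Real.pi ^ 2 * (((M : ℝ) + 1) * ‖v‖ ^ 2)) := by
      refine (sum_mul_sq_le_sq_mul_sq _ _ _).trans ?_
      refine mul_le_mul ?_ ?_ (sum_nonneg fun _ _ => sq_nonneg _) (by positivity)
      · calc ∑ k ∈ range (M + 1), ‖ϖ (zp p Z k) w‖ ^ 2 ≤ ∑ k ∈ range (M + 1), ‖w‖ ^ 2 :=
            sum_le_sum fun k _ => pow_le_pow_left₀ (norm_nonneg _) (hW _ _) 2
          _ = _ := by rw [sum_const, card_range, nsmul_eq_mul]; push_cast; ring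
      · refine (hilbert_ineq (M + 1) (fun l => ϖ (zp p Z l) v)).trans ?_
        refine mul_le_mul_of_nonneg_left ?_ (sq_nonneg _)
        calc ∑ k ∈ range (M + 1), ‖ϖ (zp p Z k) v‖ ^ 2 ≤ ∑ k ∈ range (M + 1), ‖v‖ ^ 2 :=
            sum_le_sum fun k _ => pow_le_pow_left₀ (norm_nonneg _) (hW _ _) 2
          _ = _ := by rw [sum_const, card_range, nsmul_eq_mul]; push_cast; ring
    have h3 : (((M : ℝ) + 1) * ‖w‖ ^ 2) * (Real.pi ^ 2 * (((M : ℝ) + 1) * ‖v‖ ^ 2))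
        = (((M : ℝ) + 1) * (Real.pi * ‖w‖ * ‖v‖)) ^ 2 := by ring
    rw [h3] at h2
    have h4 := abs_le_of_sq_le_sq h2 (by positivity)
    have h5 := h1.trans ((le_abs_self _).trans h4)
    exact le_of_mul_le_mul_left h5 hM1
  have h1 := key (ϖ (XM p Z M) v)
  rw [inner_self_eq_norm_sq_to_K] at h1
  have h2 : ‖ϖ (XM p Z M) v‖ * ‖ϖ (XM p Z M) v‖ ≤ ‖ϖ (XM p Z M) v‖ * (Real.pi * ‖v‖) := by
    have : ‖((‖ϖ (XM p Z M) v‖ : ℂ) ^ 2)‖ = ‖ϖ (XM p Z M) v‖ * ‖ϖ (XM p Z M) v‖ := by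
      rw [norm_pow, Complex.norm_real, norm_norm, sq]
    calc ‖ϖ (XM p Z M) v‖ * ‖ϖ (XM p Z M) v‖ = ‖((‖ϖ (XM p Z M) v‖ : ℂ) ^ 2)‖ := this.symm
      _ ≤ Real.pi * ‖ϖ (XM p Z M) v‖ * ‖v‖ := h1
      _ = _ := by ring
  rcases eq_or_lt_of_le (norm_nonneg (ϖ (XM p Z M) v)) with h0 | h0
  · rw [← h0]; positivity
  · exact le_of_mul_le_mul_left h2 h0

variable {Ω : Type*} [Fintype Ω] {Z : Ω → A} {ζ : ℂ} {τ : Ω ≃ Ω}

theorem orth4 (hζ1 : ‖ζ‖ = 1) (hτ : ∀ ω, Z (τ ω) = ζ • Z ω) (D : A) {k l : ℤ}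
    (hkl : ζ ^ (l - k) ≠ 1) :
    ∑ ω, ⟪ϖ (D * zp p (Z ω) k) ξ, ϖ (D * zp p (Z ω) l) ξ⟫_ℂ = 0 := by
  have h0 : ζ ≠ 0 := by
    intro h
    rw [h, norm_zero] at hζ1
    exact zero_ne_one hζ1
  set s : ℂ := ∑ ω, ⟪ϖ (D * zp p (Z ω) k) ξ, ϖ (D * zp p (Z ω) l) ξ⟫_ℂ with hs
  have h1 : s = ζ ^ (l - k) * s := by
    conv_lhs => rw [hs, ← Equiv.sum_comp τ]
    rw [hs, mul_sum]
    refine sum_congr rfl fun ω _ => ?_
    rw [hτ, zp_smul hζ1, zp_smul hζ1, mul_smul_comm, mul_smul_comm, map_smul, map_smul,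
      smul_apply, smul_apply, inner_smul_left, inner_smul_right, ← mul_assoc]
    congr 1
    have h2 : (starRingEnd ℂ) (ζ ^ k) = ζ ^ (-k) := by
      rw [map_zpow₀, zpow_neg, ← inv_zpow]
      congr 1
      have : ζ * (starRingEnd ℂ) ζ = 1 := by
        rw [Complex.mul_conj, Complex.normSq_eq_norm_sq, hζ1]
        simp
      exact (eq_inv_of_mul_eq_one_right this)
    rw [h2, ← zpow_add₀ h0]
    congr 1
    ring
  have h2 : (1 - ζ ^ (l - k)) * s = 0 := by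
    rw [sub_mul, one_mul, ← h1, sub_self]
  rcases mul_eq_zero.1 h2 with h3 | h3
  · exact absurd (sub_eq_zero.1 h3).symm hkl
  · exact h3

theorem zpow_ne_one4 {R : ℕ} (hζ : ∀ n : ℕ, 0 < n → n < R → ζ ^ n ≠ 1) {d : ℤ}
    (hd : d ≠ 0) (hR : d.natAbs < R) : ζ ^ d ≠ 1 := by
  have h1 := hζ d.natAbs (Int.natAbs_pos.2 hd) hR
  rcases Int.natAbs_eq d with h | h
  · rw [h, zpow_natCast]; exact h1
  · rw [h, zpow_neg, zpow_natCast]
    intro h2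
    exact h1 (inv_eq_one.1 h2)

omit [CompleteSpace H] [InnerProductSpace ℂ H] in
theorem norm_sum_sq_le4 [NormedSpace ℂ H] {ι : Type*} (s : Finset ι) (v : ι → H) :
    ‖∑ i ∈ s, v i‖ ^ 2 ≤ s.card * ∑ i ∈ s, ‖v i‖ ^ 2 := by
  calc ‖∑ i ∈ s, v i‖ ^ 2 ≤ (∑ i ∈ s, ‖v i‖) ^ 2 :=
        pow_le_pow_left₀ (norm_nonneg _) (norm_sum_le _ _) 2
    _ ≤ s.card * ∑ i ∈ s, ‖v i‖ ^ 2 := sq_sum_le_card_mul_sum_sq

/-- `F = ∑_{s<J} Z^s` -/
noncomputable def FJ (p Z : A) (J : ℕ) : A := ∑ s ∈ range J, zp p Z s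

theorem FJ_right4 (hp : star p = p) (hpp : p * p = p) {Z : A} (h : CU p Z) (J : ℕ) :
    FJ p Z J * p = FJ p Z J := by
  rw [FJ, sum_mul]
  exact sum_congr rfl fun s _ => (zp_cu hp hpp h s).right

theorem sum_norm_FJ4 (hc : Cor ϖ p ξ K) (hZ : ∀ ω, CU p (Z ω)) {R : ℕ} (hζ1 : ‖ζ‖ = 1)
    (hζ : ∀ n : ℕ, 0 < n → n < R → ζ ^ n ≠ 1) (hτ : ∀ ω, Z (τ ω) = ζ • Z ω) {J : ℕ}
    (hJ : J ≤ R) : ∑ ω, ‖ϖ (FJ p (Z ω) J) ξ‖ ^ 2 = Fintype.card Ω * (J * ‖ξ‖ ^ 2) := by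
  have h1 : ((∑ ω, ‖ϖ (FJ p (Z ω) J) ξ‖ ^ 2 : ℝ) : ℂ)
      = ∑ k ∈ range J, ∑ l ∈ range J, ∑ ω, ⟪ϖ (1 * zp p (Z ω) k) ξ, ϖ (1 * zp p (Z ω) l) ξ⟫_ℂ := by
    have e1 : ∀ ω, ((‖ϖ (FJ p (Z ω) J) ξ‖ ^ 2 : ℝ) : ℂ)
        = ∑ k ∈ range J, ∑ l ∈ range J, ⟪ϖ (1 * zp p (Z ω) k) ξ, ϖ (1 * zp p (Z ω) l) ξ⟫_ℂ := by
      intro ω
      have : ((‖ϖ (FJ p (Z ω) J) ξ‖ ^ 2 : ℝ) : ℂ)
          = ⟪ϖ (FJ p (Z ω) J) ξ, ϖ (FJ p (Z ω) J) ξ⟫_ℂ := by
        rw [inner_self_eq_norm_sq_to_K]; norm_cast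
      rw [this, FJ, map_sum, _root_.sum_apply, sum_inner]
      refine sum_congr rfl fun k _ => ?_
      rw [inner_sum]
      refine sum_congr rfl fun l _ => ?_
      rw [one_mul, one_mul]
    rw [Complex.ofReal_sum, sum_congr rfl fun ω _ => e1 ω, sum_comm]
    exact sum_congr rfl fun k _ => sum_comm
  have h2 : ∀ k ∈ range J, ∑ l ∈ range J, ∑ ω,
      ⟪ϖ (1 * zp p (Z ω) k) ξ, ϖ (1 * zp p (Z ω) l) ξ⟫_ℂ
      = ((Fintype.card Ω * ‖ξ‖ ^ 2 : ℝ) : ℂ) := by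
    intro k hk
    rw [sum_eq_single k]
    · have : ∀ ω, ⟪ϖ (1 * zp p (Z ω) k) ξ, ϖ (1 * zp p (Z ω) k) ξ⟫_ℂ = ((‖ξ‖ ^ 2 : ℝ) : ℂ) := by
        intro ω
        rw [inner_self_eq_norm_sq_to_K, one_mul,
          (zp_cu hc.star_p hc.p_p (hZ ω) k).norm_apply hc.p_ξ]
        norm_cast
      rw [sum_congr rfl fun ω _ => this ω, sum_const, card_univ, nsmul_eq_mul]
      push_cast; rfl
    · intro l hl hlk
      rw [mem_range] at hk hl
      refine orth4 hζ1 hτ 1 (zpow_ne_one4 hζ ?_ ?_)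
      · intro h; apply hlk; omega
      · omega
    · intro h; exact absurd hk h
  rw [sum_congr rfl h2, sum_const, card_range, nsmul_eq_mul] at h1
  have : (∑ ω, ‖ϖ (FJ p (Z ω) J) ξ‖ ^ 2 : ℝ) = (J : ℝ) * (Fintype.card Ω * ‖ξ‖ ^ 2) := by
    exact_mod_cast h1
  rw [this]; ring

theorem norm_mul_FJ4 (hc : Cor ϖ p ξ K) {Z : A} (h : CU p Z) {D : A} (hD : D * p = D) (J : ℕ) :
    ‖ϖ (D * FJ p Z J) ξ‖ ^ 2 ≤ J ^ 2 * K * ‖ϖ D ξ‖ ^ 2 := by
  rw [FJ, mul_sum, map_sum, _root_.sum_apply]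
  refine (norm_sum_sq_le4 _ _).trans ?_
  rw [card_range]
  calc (J : ℝ) * ∑ s ∈ range J, ‖ϖ (D * zp p Z s) ξ‖ ^ 2
      ≤ (J : ℝ) * ∑ s ∈ range J, K * ‖ϖ D ξ‖ ^ 2 := by
        refine mul_le_mul_of_nonneg_left (sum_le_sum fun s _ => ?_) (Nat.cast_nonneg _)
        exact hc.norm_mul_cu hD (zp_cu hc.star_p hc.p_p h s)
    _ = _ := by rw [sum_const, card_range, nsmul_eq_mul]; ring

/-- the negative part of the truncated Hilbert transform -/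
noncomputable def NM (p Z : A) (M : ℕ) : A :=
  ∑ q ∈ range M, (cq M q : ℂ) • zp p Z (-((q : ℤ) + 1))

theorem delta_identity4 (hp : star p = p) {Z : A} (h : CU p Z) (S : A →L[ℂ] A) (y a : A)
    (M : ℕ) :
    (S (y * star a) * a - S y) * NM p Z M = S y * XM p Z M - S (y * XM p Z M)
      + ∑ q ∈ range M, (cq M q : ℂ) • ((S (y * Z ^ (q + 1)) - S y * Z ^ (q + 1))
        - (S (y * star Z ^ (q + 1)) - S (y * star a) * a * star Z ^ (q + 1))) := by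
  have hX : XM p Z M = ∑ q ∈ range M, (cq M q : ℂ) • (Z ^ (q + 1) - star Z ^ (q + 1)) := by
    rw [XM]
    refine sum_congr rfl fun q _ => ?_
    rw [zp_ofNat_succ h, zp_neg_succ hp h]
  have hN : NM p Z M = ∑ q ∈ range M, (cq M q : ℂ) • star Z ^ (q + 1) := by
    rw [NM]
    refine sum_congr rfl fun q _ => ?_
    rw [zp_neg_succ hp h]
  rw [hX, hN]
  simp only [mul_sum, map_sum, mul_smul_comm, map_smul, mul_sub, map_sub]
  rw [← sum_sub_distrib, ← sum_add_distrib]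
  refine sum_congr rfl fun q _ => ?_
  rw [← smul_sub, ← smul_add]
  congr 1
  rw [sub_mul]
  abel

theorem LB4_upper {C : ℝ} (hϖ : ∀ x, ‖ϖ x‖ = ‖x‖) (hc : Cor ϖ p ξ K)
    {Z : A} (hZ : CU p Z) (S : A →L[ℂ] A) (hS : ‖S‖ ≤ C) (hSp : ∀ x, S x * p = S x)
    (y a : A) (hy : ‖y‖ ≤ 1) (M : ℕ) :
    ‖ϖ ((S (y * star a) * a - S y) * NM p Z M * FJ p Z (M + 1)) ξ‖ ^ 2
      ≤ 8 * Real.pi ^ 2 * C ^ 2 * ‖ϖ (FJ p Z (M + 1)) ξ‖ ^ 2
        + 4 * M * (M + 1) ^ 2 * K * ∑ q ∈ range M,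
          (‖ϖ (S (y * Z ^ (q + 1)) - S y * Z ^ (q + 1)) ξ‖ ^ 2
          + ‖ϖ (S (y * star Z ^ (q + 1)) - S (y * star a) * a * star Z ^ (q + 1)) ξ‖ ^ 2) := by
  set F := FJ p Z (M + 1) with hF
  set P : ℕ → A := fun q => S (y * Z ^ (q + 1)) - S y * Z ^ (q + 1) with hP
  set Q : ℕ → A := fun q => S (y * star Z ^ (q + 1)) - S (y * star a) * a * star Z ^ (q + 1)
    with hQ
  have hC : 0 ≤ C := (norm_nonneg _).trans hS
  have hPp : ∀ q, P q * p = P q := by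
    intro q
    rw [hP]
    simp only
    rw [sub_mul, hSp, mul_assoc, hZ.pow_right]
  have hQp : ∀ q, Q q * p = Q q := by
    intro q
    rw [hQ]
    simp only
    rw [sub_mul, hSp, mul_assoc, (hZ.star' hc.star_p).pow_right]
  have hX := norm_XM_le hϖ hc.star_p hc.p_p hZ M
  have b1 : ‖ϖ (S y * XM p Z M * F) ξ‖ ≤ C * Real.pi * ‖ϖ F ξ‖ := by
    rw [map_mul, mul_apply_eq_comp]
    refine ((ϖ (S y * XM p Z M)).le_opNorm _).trans (mul_le_mul_of_nonneg_right ?_ (norm_nonneg _))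
    refine (norm_rep_le4 _).trans ((norm_mul_le _ _).trans ?_)
    refine mul_le_mul ?_ hX (norm_nonneg _) hC
    calc ‖S y‖ ≤ ‖S‖ * ‖y‖ := S.le_opNorm y
      _ ≤ C * 1 := mul_le_mul hS hy (norm_nonneg _) hC
      _ = C := mul_one C
  have b2 : ‖ϖ (S (y * XM p Z M) * F) ξ‖ ≤ C * Real.pi * ‖ϖ F ξ‖ := by
    rw [map_mul, mul_apply_eq_comp]
    refine ((ϖ (S (y * XM p Z M))).le_opNorm _).trans
      (mul_le_mul_of_nonneg_right ?_ (norm_nonneg _))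
    refine (norm_rep_le4 _).trans ((S.le_opNorm _).trans ?_)
    refine mul_le_mul hS ?_ (norm_nonneg _) hC
    calc ‖y * XM p Z M‖ ≤ ‖y‖ * ‖XM p Z M‖ := norm_mul_le _ _
      _ ≤ 1 * Real.pi := mul_le_mul hy hX (norm_nonneg _) zero_le_one
      _ = Real.pi := one_mul _
  set B : H := ϖ ((∑ q ∈ range M, (cq M q : ℂ) • (P q - Q q)) * F) ξ with hB
  have b3 : ‖B‖ ^ 2 ≤ 2 * M * (M + 1) ^ 2 * K * ∑ q ∈ range M,
      (‖ϖ (P q) ξ‖ ^ 2 + ‖ϖ (Q q) ξ‖ ^ 2) := by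
    have e : B = ∑ q ∈ range M, ϖ (((cq M q : ℂ) • (P q - Q q)) * F) ξ := by
      rw [hB, sum_mul, map_sum, _root_.sum_apply]
    rw [e]
    refine (norm_sum_sq_le4 _ _).trans ?_
    rw [card_range]
    have h1 : ∀ q ∈ range M, ‖ϖ (((cq M q : ℂ) • (P q - Q q)) * F) ξ‖ ^ 2
        ≤ 2 * (M + 1) ^ 2 * K * (‖ϖ (P q) ξ‖ ^ 2 + ‖ϖ (Q q) ξ‖ ^ 2) := by
      intro q hq
      rw [mem_range] at hq
      have h2 : ‖ϖ (((cq M q : ℂ) • (P q - Q q)) * F) ξ‖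
          ≤ ‖ϖ (P q * F) ξ‖ + ‖ϖ (Q q * F) ξ‖ := by
        rw [smul_mul_assoc, map_smul, smul_apply, norm_smul, Complex.norm_real,
          Real.norm_of_nonneg (cq_nonneg hq), sub_mul, map_sub]
        calc cq M q * ‖(ϖ (P q * F) - ϖ (Q q * F)) ξ‖
            ≤ 1 * ‖(ϖ (P q * F) - ϖ (Q q * F)) ξ‖ :=
              mul_le_mul_of_nonneg_right (cq_le_one hq) (norm_nonneg _)
          _ = ‖ϖ (P q * F) ξ - ϖ (Q q * F) ξ‖ := by rw [one_mul]; rfl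
          _ ≤ _ := norm_sub_le _ _
      have h3 := norm_mul_FJ4 hc hZ (hPp q) (M + 1)
      have h4 := norm_mul_FJ4 hc hZ (hQp q) (M + 1)
      rw [← hF] at h3 h4
      push_cast at h3 h4
      calc ‖ϖ (((cq M q : ℂ) • (P q - Q q)) * F) ξ‖ ^ 2
          ≤ (‖ϖ (P q * F) ξ‖ + ‖ϖ (Q q * F) ξ‖) ^ 2 :=
            pow_le_pow_left₀ (norm_nonneg _) h2 2
        _ ≤ 2 * (‖ϖ (P q * F) ξ‖ ^ 2 + ‖ϖ (Q q * F) ξ‖ ^ 2) := by
            nlinarith [sq_nonneg (‖ϖ (P q * F) ξ‖ - ‖ϖ (Q q * F) ξ‖)]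
        _ ≤ 2 * ((M + 1) ^ 2 * K * ‖ϖ (P q) ξ‖ ^ 2 + (M + 1) ^ 2 * K * ‖ϖ (Q q) ξ‖ ^ 2) := by
            linarith
        _ = _ := by ring
    calc (M : ℝ) * ∑ q ∈ range M, ‖ϖ (((cq M q : ℂ) • (P q - Q q)) * F) ξ‖ ^ 2
        ≤ M * ∑ q ∈ range M, 2 * (M + 1) ^ 2 * K * (‖ϖ (P q) ξ‖ ^ 2 + ‖ϖ (Q q) ξ‖ ^ 2) :=
          mul_le_mul_of_nonneg_left (sum_le_sum h1) (Nat.cast_nonneg _)
      _ = _ := by rw [← mul_sum]; ring
  have e1 : ϖ ((S (y * star a) * a - S y) * NM p Z M * F) ξ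
      = ϖ (S y * XM p Z M * F) ξ - ϖ (S (y * XM p Z M) * F) ξ + B := by
    rw [delta_identity4 hc.star_p hZ S y a M, add_mul, sub_mul, map_add, map_sub]
    rfl
  rw [e1]
  have h5 : ‖ϖ (S y * XM p Z M * F) ξ - ϖ (S (y * XM p Z M) * F) ξ + B‖
      ≤ 2 * (C * Real.pi * ‖ϖ F ξ‖) + ‖B‖ := by
    refine (norm_add_le _ _).trans ?_
    have := norm_sub_le (ϖ (S y * XM p Z M * F) ξ) (ϖ (S (y * XM p Z M) * F) ξ)
    linarith
  calc ‖ϖ (S y * XM p Z M * F) ξ - ϖ (S (y * XM p Z M) * F) ξ + B‖ ^ 2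
      ≤ (2 * (C * Real.pi * ‖ϖ F ξ‖) + ‖B‖) ^ 2 := pow_le_pow_left₀ (norm_nonneg _) h5 2
    _ ≤ 2 * (2 * (C * Real.pi * ‖ϖ F ξ‖)) ^ 2 + 2 * ‖B‖ ^ 2 := by
        nlinarith [sq_nonneg (2 * (C * Real.pi * ‖ϖ F ξ‖) - ‖B‖)]
    _ ≤ 2 * (2 * (C * Real.pi * ‖ϖ F ξ‖)) ^ 2 + 2 * (2 * M * (M + 1) ^ 2 * K * ∑ q ∈ range M,
      (‖ϖ (P q) ξ‖ ^ 2 + ‖ϖ (Q q) ξ‖ ^ 2)) := by linarith
    _ = _ := by ring

/-- pairing with the test vector -/
theorem pairing4 (hc : Cor ϖ p ξ K) (hZ : ∀ ω, CU p (Z ω)) {R m M : ℕ} (hζ1 : ‖ζ‖ = 1)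
    (hζ : ∀ n : ℕ, 0 < n → n < R → ζ ^ n ≠ 1) (hτ : ∀ ω, Z (τ ω) = ζ • Z ω)
    (hM : M + 1 = 2 * m) (hR : 4 * m ≤ R) (D : A) {r : ℕ} (hr : r < m) :
    ∃ c : ℝ, (∑ q ∈ range m, 1 / ((q : ℝ) + 1)) / 2 ≤ c ∧
    ∑ ω, ⟪ϖ (D * zp p (Z ω) r) ξ, ϖ (D * NM p (Z ω) M * FJ p (Z ω) (M + 1)) ξ⟫_ℂ
      = ((c * ∑ ω, ‖ϖ (D * zp p (Z ω) r) ξ‖ ^ 2 : ℝ) : ℂ) := by
  refine ⟨∑ q ∈ range M, if r + q + 1 < M + 1 then cq M q else 0, ?_, ?_⟩
  · have hmM : m ≤ M := by omega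
    calc (∑ q ∈ range m, 1 / ((q : ℝ) + 1)) / 2 = ∑ q ∈ range m, 1 / (2 * ((q : ℝ) + 1)) := by
          rw [sum_div]
          refine sum_congr rfl fun q _ => ?_
          rw [div_div, mul_comm]
      _ ≤ ∑ q ∈ range m, if r + q + 1 < M + 1 then cq M q else 0 := by
          refine sum_le_sum fun q hq => ?_
          rw [mem_range] at hq
          rw [if_pos (by omega)]
          exact cq_ge (by omega)
      _ ≤ _ := by
          refine sum_le_sum_of_subset_of_nonneg (range_subset_range.2 hmM) fun q hq _ => ?_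
          rw [mem_range] at hq
          split_ifs
          · exact cq_nonneg hq
          · exact le_rfl
  · have e1 : ∀ ω, ⟪ϖ (D * zp p (Z ω) r) ξ, ϖ (D * NM p (Z ω) M * FJ p (Z ω) (M + 1)) ξ⟫_ℂ
        = ∑ q ∈ range M, ∑ s ∈ range (M + 1), (cq M q : ℂ) *
          ⟪ϖ (D * zp p (Z ω) r) ξ, ϖ (D * zp p (Z ω) (-((q : ℤ) + 1) + s)) ξ⟫_ℂ := by
      intro ω
      rw [NM, mul_sum, sum_mul, map_sum, _root_.sum_apply, inner_sum]
      refine sum_congr rfl fun q _ => ?_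
      rw [FJ, mul_sum, map_sum, _root_.sum_apply, inner_sum]
      refine sum_congr rfl fun s _ => ?_
      rw [mul_smul_comm, smul_mul_assoc, map_smul, smul_apply, inner_smul_right, mul_assoc,
        zp_mul hc.star_p hc.p_p (hZ ω)]
    rw [sum_congr rfl fun ω _ => e1 ω, sum_comm]
    have e2 : ∀ q ∈ range M, ∑ ω, ∑ s ∈ range (M + 1), (cq M q : ℂ) *
          ⟪ϖ (D * zp p (Z ω) r) ξ, ϖ (D * zp p (Z ω) (-((q : ℤ) + 1) + s)) ξ⟫_ℂ
        = (((if r + q + 1 < M + 1 then cq M q else 0) * ∑ ω, ‖ϖ (D * zp p (Z ω) r) ξ‖ ^ 2 : ℝ) : ℂ) := by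
      intro q hq
      rw [mem_range] at hq
      rw [sum_comm]
      have e3 : ∀ s ∈ range (M + 1), s ≠ r + q + 1 → ∑ ω, (cq M q : ℂ) *
          ⟪ϖ (D * zp p (Z ω) r) ξ, ϖ (D * zp p (Z ω) (-((q : ℤ) + 1) + s)) ξ⟫_ℂ = 0 := by
        intro s hs hne
        rw [mem_range] at hs
        rw [← mul_sum, orth4 hζ1 hτ D, mul_zero]
        refine zpow_ne_one4 hζ ?_ ?_
        · intro h
          apply hne
          omega
        · omega
      by_cases h : r + q + 1 < M + 1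
      · rw [if_pos h, sum_eq_single (r + q + 1) e3 (fun h' => absurd (mem_range.2 h) h')]
        rw [← mul_sum]
        push_cast
        congr 1
        refine sum_congr rfl fun ω _ => ?_
        have : (-((q : ℤ) + 1) + (((r : ℤ) + q + 1))) = (r : ℤ) := by ring
        rw [this, inner_self_eq_norm_sq_to_K]
        norm_cast
      · rw [if_neg h, zero_mul, Complex.ofReal_zero]
        refine sum_eq_zero fun s hs => e3 s hs ?_
        rw [mem_range] at hs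
        omega
    rw [sum_congr rfl e2, ← Complex.ofReal_sum, ← sum_mul]

theorem sum_norm_test4 (hζ1 : ‖ζ‖ = 1)
    {R m : ℕ} (hζ : ∀ n : ℕ, 0 < n → n < R → ζ ^ n ≠ 1) (hτ : ∀ ω, Z (τ ω) = ζ • Z ω)
    (hR : m ≤ R) (D : A) :
    ∑ ω, ‖∑ r ∈ range m, ϖ (D * zp p (Z ω) r) ξ‖ ^ 2
      = ∑ r ∈ range m, ∑ ω, ‖ϖ (D * zp p (Z ω) r) ξ‖ ^ 2 := by
  have h1 : ((∑ ω, ‖∑ r ∈ range m, ϖ (D * zp p (Z ω) r) ξ‖ ^ 2 : ℝ) : ℂ)
      = ∑ k ∈ range m, ∑ l ∈ range m, ∑ ω, ⟪ϖ (D * zp p (Z ω) k) ξ, ϖ (D * zp p (Z ω) l) ξ⟫_ℂ := by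
    have e1 : ∀ ω, ((‖∑ r ∈ range m, ϖ (D * zp p (Z ω) r) ξ‖ ^ 2 : ℝ) : ℂ)
        = ∑ k ∈ range m, ∑ l ∈ range m, ⟪ϖ (D * zp p (Z ω) k) ξ, ϖ (D * zp p (Z ω) l) ξ⟫_ℂ := by
      intro ω
      have : ((‖∑ r ∈ range m, ϖ (D * zp p (Z ω) r) ξ‖ ^ 2 : ℝ) : ℂ)
          = ⟪∑ r ∈ range m, ϖ (D * zp p (Z ω) r) ξ, ∑ r ∈ range m, ϖ (D * zp p (Z ω) r) ξ⟫_ℂ := by
        rw [inner_self_eq_norm_sq_to_K]; norm_cast
      rw [this, sum_inner]
      refine sum_congr rfl fun k _ => ?_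
      rw [inner_sum]
    rw [Complex.ofReal_sum, sum_congr rfl fun ω _ => e1 ω, sum_comm]
    exact sum_congr rfl fun k _ => sum_comm
  have h2 : ∀ k ∈ range m, ∑ l ∈ range m, ∑ ω,
      ⟪ϖ (D * zp p (Z ω) k) ξ, ϖ (D * zp p (Z ω) l) ξ⟫_ℂ
      = ((∑ ω, ‖ϖ (D * zp p (Z ω) k) ξ‖ ^ 2 : ℝ) : ℂ) := by
    intro k hk
    rw [sum_eq_single k]
    · push_cast
      refine sum_congr rfl fun ω _ => ?_
      rw [inner_self_eq_norm_sq_to_K]
      norm_cast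
    · intro l hl hlk
      rw [mem_range] at hk hl
      refine orth4 hζ1 hτ D (zpow_ne_one4 hζ ?_ ?_)
      · intro h; apply hlk; omega
      · omega
    · intro h; exact absurd hk h
  rw [sum_congr rfl h2, ← Complex.ofReal_sum] at h1
  exact_mod_cast h1

/-- **LB (4)** -/
theorem LB4 [Nonempty Ω] {C : ℝ} (hϖ : ∀ x, ‖ϖ x‖ = ‖x‖) (hc : Cor ϖ p ξ K)
    (hZ : ∀ ω, CU p (Z ω)) {R m M : ℕ} (hm : 0 < m) (hM : M + 1 = 2 * m) (hR : 4 * m ≤ R)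
    (hζ1 : ‖ζ‖ = 1) (hζ : ∀ n : ℕ, 0 < n → n < R → ζ ^ n ≠ 1) (hτ : ∀ ω, Z (τ ω) = ζ • Z ω)
    (S : A →L[ℂ] A) (hS : ‖S‖ ≤ C) (hSp : ∀ x, S x * p = S x)
    (y a : A) (hy : ‖y‖ ≤ 1) (ha : CU p a) {η : ℝ}
    (pos : ∀ q < M, ∑ ω, ‖ϖ (S (y * Z ω ^ (q + 1)) - S y * Z ω ^ (q + 1)) ξ‖ ^ 2
      ≤ Fintype.card Ω * η ^ 2)
    (neg : ∀ q < M, ∑ ω, ‖ϖ (S (y * star (Z ω) ^ (q + 1))
      - S (y * star a) * a * star (Z ω) ^ (q + 1)) ξ‖ ^ 2 ≤ Fintype.card Ω * η ^ 2) :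
    (∑ q ∈ range m, 1 / ((q : ℝ) + 1)) ^ 2 * ‖ϖ (S (y * star a) * a - S y) ξ‖ ^ 2
      ≤ 64 * K * (Real.pi ^ 2 * C ^ 2 * ‖ξ‖ ^ 2 + 8 * m ^ 3 * K * η ^ 2) := by
  set D := S (y * star a) * a - S y with hD
  set h := ∑ q ∈ range m, 1 / ((q : ℝ) + 1) with hh
  have hK := hc.K0
  have hDp : D * p = D := by
    rw [hD, sub_mul, hSp, mul_assoc, ha.right]
  set B : Ω → H := fun ω => ϖ (D * NM p (Z ω) M * FJ p (Z ω) (M + 1)) ξ with hB
  set Ψ : Ω → H := fun ω => ∑ r ∈ range m, ϖ (D * zp p (Z ω) r) ξ with hΨ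
  set T : ℝ := ∑ r ∈ range m, ∑ ω, ‖ϖ (D * zp p (Z ω) r) ξ‖ ^ 2 with hT
  set n : ℝ := (Fintype.card Ω : ℝ) with hn
  have hn0 : 0 < n := by rw [hn]; exact_mod_cast Fintype.card_pos
  have hm0 : (0 : ℝ) < m := by exact_mod_cast hm
  have hJ : (M : ℝ) + 1 = 2 * m := by exact_mod_cast hM
  have hh0 : 0 < h := by
    rw [hh]
    refine sum_pos (fun q _ => by positivity) ⟨0, mem_range.2 hm⟩
  have hT0 : 0 ≤ T := sum_nonneg fun _ _ => sum_nonneg fun _ _ => sq_nonneg _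
  -- upper bound
  have up : ∑ ω, ‖B ω‖ ^ 2 ≤ n * (16 * Real.pi ^ 2 * C ^ 2 * m * ‖ξ‖ ^ 2
      + 128 * m ^ 4 * K * η ^ 2) := by
    have u1 : ∑ ω, ‖B ω‖ ^ 2 ≤ ∑ ω, (8 * Real.pi ^ 2 * C ^ 2 * ‖ϖ (FJ p (Z ω) (M + 1)) ξ‖ ^ 2
        + 4 * M * (M + 1) ^ 2 * K * ∑ q ∈ range M,
          (‖ϖ (S (y * Z ω ^ (q + 1)) - S y * Z ω ^ (q + 1)) ξ‖ ^ 2
          + ‖ϖ (S (y * star (Z ω) ^ (q + 1)) - S (y * star a) * a * star (Z ω) ^ (q + 1)) ξ‖ ^ 2)) :=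
      sum_le_sum fun ω _ => LB4_upper hϖ hc (hZ ω) S hS hSp y a hy M
    refine u1.trans ?_
    rw [sum_add_distrib, ← mul_sum, ← mul_sum, sum_comm]
    have u2 := sum_norm_FJ4 hc hZ hζ1 hζ hτ (J := M + 1) (by omega)
    rw [u2]
    have u3 : ∑ q ∈ range M, ∑ ω, (‖ϖ (S (y * Z ω ^ (q + 1)) - S y * Z ω ^ (q + 1)) ξ‖ ^ 2
          + ‖ϖ (S (y * star (Z ω) ^ (q + 1)) - S (y * star a) * a * star (Z ω) ^ (q + 1)) ξ‖ ^ 2)
        ≤ M * (2 * (n * η ^ 2)) := by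
      calc _ ≤ ∑ q ∈ range M, 2 * (n * η ^ 2) := by
            refine sum_le_sum fun q hq => ?_
            rw [mem_range] at hq
            rw [sum_add_distrib, two_mul]
            exact add_le_add (pos q hq) (neg q hq)
        _ = _ := by rw [sum_const, card_range, nsmul_eq_mul]
    have hM0 : (0 : ℝ) ≤ M := Nat.cast_nonneg M
    have hMle : (M : ℝ) ≤ 2 * m := by linarith
    push_cast
    rw [hJ]
    calc 8 * Real.pi ^ 2 * C ^ 2 * (n * (2 * m * ‖ξ‖ ^ 2)) + 4 * M * (2 * m) ^ 2 * K * ∑ q ∈ range M,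
          ∑ ω, (‖ϖ (S (y * Z ω ^ (q + 1)) - S y * Z ω ^ (q + 1)) ξ‖ ^ 2
          + ‖ϖ (S (y * star (Z ω) ^ (q + 1)) - S (y * star a) * a * star (Z ω) ^ (q + 1)) ξ‖ ^ 2)
        ≤ 8 * Real.pi ^ 2 * C ^ 2 * (n * (2 * m * ‖ξ‖ ^ 2))
          + 4 * (2 * m) * (2 * m) ^ 2 * K * ((2 * m) * (2 * (n * η ^ 2))) := by
          refine add_le_add le_rfl ?_
          refine mul_le_mul ?_ (u3.trans ?_) (sum_nonneg fun _ _ => sum_nonneg fun _ _ => by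
            positivity) (by positivity)
          · refine mul_le_mul_of_nonneg_right ?_ hK
            refine mul_le_mul_of_nonneg_right ?_ (sq_nonneg _)
            linarith
          · exact mul_le_mul_of_nonneg_right hMle (by positivity)
      _ = _ := by ring
  -- pairing
  have pr : (h / 2) * T ≤ ∑ ω, RCLike.re ⟪Ψ ω, B ω⟫_ℂ := by
    have p1 : ∀ r ∈ range m, (h / 2) * ∑ ω, ‖ϖ (D * zp p (Z ω) r) ξ‖ ^ 2
        ≤ ∑ ω, RCLike.re ⟪ϖ (D * zp p (Z ω) r) ξ, B ω⟫_ℂ := by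
      intro r hr
      obtain ⟨c, hc1, hc2⟩ := pairing4 (ϖ := ϖ) (ξ := ξ) hc hZ hζ1 hζ hτ hM hR D (mem_range.1 hr)
      have hc3 := congrArg RCLike.re hc2
      rw [map_sum] at hc3
      have hc4 : RCLike.re (((c * ∑ ω, ‖ϖ (D * zp p (Z ω) r) ξ‖ ^ 2 : ℝ) : ℂ))
          = c * ∑ ω, ‖ϖ (D * zp p (Z ω) r) ξ‖ ^ 2 := Complex.ofReal_re _
      rw [hc4] at hc3
      rw [hB]
      simp only
      rw [hc3]
      exact mul_le_mul_of_nonneg_right hc1 (sum_nonneg fun _ _ => sq_nonneg _)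
    calc (h / 2) * T = ∑ r ∈ range m, (h / 2) * ∑ ω, ‖ϖ (D * zp p (Z ω) r) ξ‖ ^ 2 := by
          rw [hT, mul_sum]
      _ ≤ ∑ r ∈ range m, ∑ ω, RCLike.re ⟪ϖ (D * zp p (Z ω) r) ξ, B ω⟫_ℂ := sum_le_sum p1
      _ = _ := by
          rw [sum_comm]
          refine sum_congr rfl fun ω _ => ?_
          rw [hΨ]
          simp only
          rw [sum_inner, map_sum]
  have tv : ∑ ω, ‖Ψ ω‖ ^ 2 = T := sum_norm_test4 hζ1 hζ hτ (by omega) D
  have low : (h / 2) ^ 2 * T ≤ ∑ ω, ‖B ω‖ ^ 2 := by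
    have l1 : ∀ ω, 2 * (h / 2) * RCLike.re ⟪Ψ ω, B ω⟫_ℂ ≤ (h / 2) ^ 2 * ‖Ψ ω‖ ^ 2 + ‖B ω‖ ^ 2 := by
      intro ω
      have h1 : RCLike.re ⟪Ψ ω, B ω⟫_ℂ ≤ ‖Ψ ω‖ * ‖B ω‖ :=
        (RCLike.re_le_norm _).trans (norm_inner_le_norm _ _)
      nlinarith [sq_nonneg ((h / 2) * ‖Ψ ω‖ - ‖B ω‖), mul_le_mul_of_nonneg_left h1 hh0.le]
    have l2 := sum_le_sum (s := Finset.univ) fun ω _ => l1 ω
    rw [← mul_sum, sum_add_distrib, ← mul_sum, tv] at l2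
    nlinarith [mul_le_mul_of_nonneg_left pr hh0.le]
  have tl : m * (n * ‖ϖ D ξ‖ ^ 2) ≤ K * T := by
    have t1 : ∀ r ∈ range m, n * ‖ϖ D ξ‖ ^ 2 ≤ ∑ ω, K * ‖ϖ (D * zp p (Z ω) r) ξ‖ ^ 2 := by
      intro r _
      calc n * ‖ϖ D ξ‖ ^ 2 = ∑ ω : Ω, ‖ϖ D ξ‖ ^ 2 := by
            rw [sum_const, card_univ, nsmul_eq_mul]
        _ ≤ _ := by
            refine sum_le_sum fun ω _ => ?_
            have hcu := zp_cu hc.star_p hc.p_p (hZ ω)
            have := hc.norm_mul_cu (D := D * zp p (Z ω) r) (x := zp p (Z ω) (-(r : ℤ)))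
              (by rw [mul_assoc, (hcu r).right]) (hcu _)
            rwa [mul_assoc, zp_mul hc.star_p hc.p_p (hZ ω), add_neg_cancel, zp_zero, hDp] at this
    calc m * (n * ‖ϖ D ξ‖ ^ 2) = ∑ r ∈ range m, n * ‖ϖ D ξ‖ ^ 2 := by
          rw [sum_const, card_range, nsmul_eq_mul]
      _ ≤ ∑ r ∈ range m, ∑ ω, K * ‖ϖ (D * zp p (Z ω) r) ξ‖ ^ 2 := sum_le_sum t1
      _ = K * T := by
          rw [hT, mul_sum]
          exact sum_congr rfl fun r _ => (mul_sum _ _ _).symm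
  -- conclusion
  have c1 : (h / 2) ^ 2 * (m * (n * ‖ϖ D ξ‖ ^ 2)) ≤ K * (n * (16 * Real.pi ^ 2 * C ^ 2 * m * ‖ξ‖ ^ 2
      + 128 * m ^ 4 * K * η ^ 2)) := by
    calc (h / 2) ^ 2 * (m * (n * ‖ϖ D ξ‖ ^ 2)) ≤ (h / 2) ^ 2 * (K * T) :=
          mul_le_mul_of_nonneg_left tl (sq_nonneg _)
      _ = K * ((h / 2) ^ 2 * T) := by ring
      _ ≤ K * ∑ ω, ‖B ω‖ ^ 2 := mul_le_mul_of_nonneg_left low hK
      _ ≤ _ := mul_le_mul_of_nonneg_left up hK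
  have c2 : (m * n / 4) * (h ^ 2 * ‖ϖ D ξ‖ ^ 2)
      ≤ (m * n / 4) * (64 * K * (Real.pi ^ 2 * C ^ 2 * ‖ξ‖ ^ 2 + 8 * m ^ 3 * K * η ^ 2)) := by
    calc (m * n / 4) * (h ^ 2 * ‖ϖ D ξ‖ ^ 2) = (h / 2) ^ 2 * (m * (n * ‖ϖ D ξ‖ ^ 2)) := by ring
      _ ≤ _ := c1
      _ = _ := by ring
  exact le_of_mul_le_mul_left c2 (by positivity)

end main

end Crest.Agent.R121.Fin
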