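import Crest.Agent.R121.Fin.LB3
import Crest.Agent.R121.Fin.LB4
import Crest.Agent.R121.Fin.Hadamard

/-!
# Row 121, FIN: the estimate LB
-/

set_option autoImplicit false
set_option linter.unusedSectionVars false

namespace Crest.Agent.R121.Fin

open Finset Matrix

section
variable {A : Type*} [CStarAlgebra A]
variable {H : Type*} [NormedAddCommGroup H] [InnerProductSpace ℂ H] [CompleteSpace H]
variable {ϖ : A →⋆ₐ[ℂ] (H →L[ℂ] H)} {p : A} {ξ : H} {K : ℝ}
variable {n : ℕ} {e : Fin n → Fin n → A}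
variable {R : ℕ} [NeZero R]

/-- the rotation of the first family of phases -/
def rotOm (n R : ℕ) : Om n R ≃ Om n R where
  toFun ω := (fun i => ω.1 i + 1, ω.2)
  invFun ω := (fun i => ω.1 i - 1, ω.2)
  left_inv ω := by simp
  right_inv ω := by simp

lemma cu_rotOm (h : Matrix (Fin n) (Fin n) ℂ) (e : Fin n → Fin n → A) (ω : Om n R) :
    cu h e (rotOm n R ω) = (ZMod.stdAddChar (1 : ZMod R) : ℂ) • cu h e ω := by
  unfold cu toM
  rw [smul_sum]
  refine sum_congr rfl fun s _ => ?_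
  rw [smul_smul]
  congr 1
  unfold cmat rotOm
  simp only [Equiv.coe_fn_mk]
  rw [AddChar.map_add_eq_mul]
  ring

/-- `(α, β) ↦ (-β, -α)` -/
def flipOm (n R : ℕ) : Om n R ≃ Om n R where
  toFun ω := (fun i => - ω.2 i, fun i => - ω.1 i)
  invFun ω := (fun i => - ω.2 i, fun i => - ω.1 i)
  left_inv ω := by simp
  right_inv ω := by simp

lemma star_cu (hm : MU p n e) (h : Matrix (Fin n) (Fin n) ℂ) (ω : Om n R) :
    star (cu h e ω) = cu hᴴ e (flipOm n R ω) := by
  unfold cu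
  rw [hm.toM_star]
  congr 1
  ext i j
  rw [Matrix.conjTranspose_apply]
  unfold cmat flipOm
  simp only [Equiv.coe_fn_mk, star_mul', Matrix.conjTranspose_apply]
  rw [AddChar.map_neg_eq_conj, AddChar.map_neg_eq_conj]
  simp only [Complex.star_def]
  ring

lemma norm_stdAddChar (a : ZMod R) : ‖(ZMod.stdAddChar a : ℂ)‖ = 1 := by
  rw [ZMod.stdAddChar_apply]
  exact Circle.norm_coe _

lemma stdAddChar_one_pow_ne {k : ℕ} (hk : 0 < k) (hkR : k < R) :
    (ZMod.stdAddChar (1 : ZMod R) : ℂ) ^ k ≠ 1 := by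
  rw [← AddChar.map_nsmul_eq_pow, nsmul_eq_mul, mul_one]
  intro h
  have h1 : (k : ZMod R) = 0 := by
    apply ZMod.injective_stdAddChar
    rw [h, AddChar.map_zero_eq_one]
  rw [ZMod.natCast_eq_zero_iff] at h1
  exact absurd (Nat.le_of_dvd hk h1) (not_le.2 hkR)

/-- negative powers -/
theorem LB3_neg (hco : Cor ϖ p ξ K) (hm : MU p n e) {S : A →L[ℂ] A} (hS : RMod e S)
    (hSp : ∀ x, S (x * p) = S x ∧ S x * p = S x) (y : A) {a : A} (ha : CU p a) {ε : ℝ}
    (small : ∀ t, CU p t → (∀ i j, t * e i j = e i j * t) → ‖ϖ (dd S (y * star a) t) ξ‖ ≤ ε)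
    {h : Matrix (Fin n) (Fin n) ℂ} (hh : h * hᴴ = 1) (flat : ∀ i j, ‖h i j‖ ^ 2 = 1 / n)
    {q : ℕ} (hq : q < R) :
    ∑ ω : Om n R, ‖ϖ (S (y * star (cu h e ω * a) ^ (q + 1)) -
        S (y * star a) * a * star (cu h e ω * a) ^ (q + 1)) ξ‖ ^ 2 ≤
      Fintype.card (Om n R) * (K * ((q.factorial : ℝ) ^ 2 * (24 * K ^ 2 * ε ^ 2))) := by
  have hstar : CU p (star a) := ha.star' hm.star_p
  have hcu : ∀ ω : Om n R, CU p (cu h e ω) := fun ω => cu_CU hm hh ω
  -- `S (x c⋆) = S x c⋆`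
  have hSc : ∀ (x : A) (ω : Om n R), S (x * star (cu h e ω)) = S x * star (cu h e ω) := by
    intro x ω
    rw [star_cu hm]
    unfold cu toM
    rw [mul_sum, map_sum, mul_sum]
    refine sum_congr rfl fun s _ => ?_
    rw [mul_smul_comm, mul_smul_comm, map_smul, hS]
  have key : ∀ ω : Om n R, S (y * star (cu h e ω * a) ^ (q + 1)) -
      S (y * star a) * a * star (cu h e ω * a) ^ (q + 1) =
      dd S (y * star a) ((star (cu h e ω) * star a) ^ q) * star (cu h e ω) := by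
    intro ω
    set c := cu h e ω with hc
    have h1 : star (c * a) ^ (q + 1) = star a * (star c * star a) ^ q * star c := by
      rw [star_mul]
      clear hSc
      induction q with
      | zero => simp
      | succ q ih =>
        rw [pow_succ, ih (by omega), pow_succ]
        simp only [mul_assoc]
    have h2 : a * (star a * (star c * star a) ^ q * star c) =
        (star c * star a) ^ q * star c := by
      rw [← mul_assoc, ← mul_assoc, ha.mul_st]
      rcases Nat.eq_zero_or_pos q with h0 | h0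
      · subst h0
        rw [pow_zero, mul_one, one_mul, hc, (hcu ω).left' hm.star_p]
      · obtain ⟨q', rfl⟩ : ∃ q', q = q' + 1 := ⟨q - 1, by omega⟩
        rw [pow_succ', ← mul_assoc, ← mul_assoc, hc, (hcu ω).left' hm.star_p]
    rw [h1, mul_assoc (S (y * star a)) a, h2, dd_apply, sub_mul]
    have h3 : S (y * (star a * (star c * star a) ^ q * star c)) =
        S (y * star a * (star c * star a) ^ q) * star c := by
      rw [← hSc, ← mul_assoc, ← mul_assoc]
    rw [h3, mul_assoc (S (y * star a))]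
  have hDp : ∀ ω : Om n R, dd S (y * star a) ((star (cu h e ω) * star a) ^ q) * p =
      dd S (y * star a) ((star (cu h e ω) * star a) ^ q) := by
    intro ω
    rcases Nat.eq_zero_or_pos q with h0 | h0
    · subst h0
      rw [pow_zero, dd_apply, mul_one, mul_one, sub_self, zero_mul]
    · obtain ⟨q', rfl⟩ : ∃ q', q = q' + 1 := ⟨q - 1, by omega⟩
      refine dd_mul_p hSp ?_
      rw [pow_succ, mul_assoc, mul_assoc, hstar.right]
  have hhs : hᴴ * hᴴᴴ = 1 := by
    rw [Matrix.conjTranspose_conjTranspose]; exact mul_eq_one_comm.1 hh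
  have flats : ∀ i j, ‖hᴴ i j‖ ^ 2 = 1 / n := by
    intro i j; rw [Matrix.conjTranspose_apply, norm_star]; exact flat j i
  have h5 := LB3 (R := R) hco hm hS hSp (y * star a) small hhs flats hstar hq
  calc ∑ ω : Om n R, ‖ϖ (S (y * star (cu h e ω * a) ^ (q + 1)) -
        S (y * star a) * a * star (cu h e ω * a) ^ (q + 1)) ξ‖ ^ 2
      ≤ ∑ ω : Om n R, K *
          ‖ϖ (dd S (y * star a) ((star (cu h e ω) * star a) ^ q)) ξ‖ ^ 2 := by
        refine sum_le_sum fun ω _ => ?_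
        rw [key]
        exact hco.unitary_le (hDp ω) ((hcu ω).star' hm.star_p)
    _ = K * ∑ ω : Om n R, ‖ϖ (dd S (y * star a) ((cu hᴴ e ω * star a) ^ q)) ξ‖ ^ 2 := by
        rw [← mul_sum, ← (flipOm n R).sum_comp
          (fun ω => ‖ϖ (dd S (y * star a) ((cu hᴴ e ω * star a) ^ q)) ξ‖ ^ 2)]
        congr 1
        refine sum_congr rfl fun ω _ => ?_
        rw [star_cu hm]
    _ ≤ K * (Fintype.card (Om n R) * ((q.factorial : ℝ) ^ 2 * (24 * K ^ 2 * ε ^ 2))) :=
        mul_le_mul_of_nonneg_left h5 hco.K0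
    _ = Fintype.card (Om n R) * (K * ((q.factorial : ℝ) ^ 2 * (24 * K ^ 2 * ε ^ 2))) := by ring

/-- **LB** with explicit constants -/
theorem LB (hϖ : ∀ x, ‖ϖ x‖ = ‖x‖) (hco : Cor ϖ p ξ K) (hm : MU p n e) (hn : n ≠ 0)
    {S : A →L[ℂ] A} {C : ℝ} (hSC : ‖S‖ ≤ C) (hS : RMod e S)
    (hSp : ∀ x, S (x * p) = S x ∧ S x * p = S x) {y a : A} (hy : ‖y‖ ≤ 1) (ha : CU p a) {ε : ℝ}
    (small : ∀ t, CU p t → (∀ i j, t * e i j = e i j * t) →
      ‖ϖ (S (y * t) - S y * t) ξ‖ ≤ ε ∧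
      ‖ϖ (S (y * star a * t) - S (y * star a) * t) ξ‖ ≤ ε)
    {m : ℕ} (hm0 : 0 < m) :
    (∑ q ∈ range m, 1 / ((q : ℝ) + 1)) ^ 2 * ‖ϖ (S (y * star a) * a - S y) ξ‖ ^ 2 ≤
      64 * K * (Real.pi ^ 2 * C ^ 2 * ‖ξ‖ ^ 2 +
        8 * m ^ 3 * K * ((1 + K) * ((2 * m).factorial : ℝ) ^ 2 * (24 * K ^ 2 * ε ^ 2))) := by
  obtain ⟨h, hh, -, flat⟩ := exists_flat_unitary n hn
  have : NeZero (4 * m) := ⟨by omega⟩
  have hK := hco.K0
  set η2 : ℝ := (1 + K) * ((2 * m).factorial : ℝ) ^ 2 * (24 * K ^ 2 * ε ^ 2) with hη2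
  have hη0 : 0 ≤ η2 := by positivity
  have hη : Real.sqrt η2 ^ 2 = η2 := Real.sq_sqrt hη0
  have hcard : (0 : ℝ) ≤ Fintype.card (Om n (4 * m)) := Nat.cast_nonneg _
  have hfac : ∀ q ≤ 2 * m, ((q.factorial : ℝ)) ^ 2 ≤ ((2 * m).factorial : ℝ) ^ 2 := by
    intro q hq
    have : (q.factorial : ℝ) ≤ ((2 * m).factorial : ℝ) := by
      exact_mod_cast Nat.factorial_le hq
    exact pow_le_pow_left₀ (Nat.cast_nonneg _) this 2
  have hE : (0 : ℝ) ≤ 24 * K ^ 2 * ε ^ 2 := by positivity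
  have hF : (0 : ℝ) ≤ ((2 * m).factorial : ℝ) ^ 2 * (24 * K ^ 2 * ε ^ 2) := by positivity
  have := LB4 (Ω := Om n (4 * m)) (Z := fun ω => cu h e ω * a)
    (ζ := (ZMod.stdAddChar (1 : ZMod (4 * m)) : ℂ)) (τ := rotOm n (4 * m))
    (R := 4 * m) (m := m) (M := 2 * m - 1) (C := C) (η := Real.sqrt η2) hϖ hco
    (fun ω => (cu_CU hm hh ω).mul' ha) hm0 (by omega) le_rfl (norm_stdAddChar _)
    (fun k hk hkR => stdAddChar_one_pow_ne hk hkR)
    (fun ω => by simp only [cu_rotOm, smul_mul_assoc]) S hSC (fun x => (hSp x).2) y a hy ha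
    (fun q hq => by
      rw [hη]
      refine (LB3 (R := 4 * m) hco hm hS hSp y (fun t ht htc => (small t ht htc).1) hh flat ha
        (k := q + 1) (by omega)).trans ?_
      refine mul_le_mul_of_nonneg_left ?_ hcard
      calc ((q + 1).factorial : ℝ) ^ 2 * (24 * K ^ 2 * ε ^ 2)
          ≤ ((2 * m).factorial : ℝ) ^ 2 * (24 * K ^ 2 * ε ^ 2) :=
            mul_le_mul_of_nonneg_right (hfac _ (by omega)) hE
        _ ≤ η2 := by rw [hη2]; nlinarith)
    (fun q hq => by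
      rw [hη]
      refine (LB3_neg (R := 4 * m) hco hm hS hSp y ha (fun t ht htc => (small t ht htc).2) hh flat
        (q := q) (by omega)).trans ?_
      refine mul_le_mul_of_nonneg_left ?_ hcard
      calc K * ((q.factorial : ℝ) ^ 2 * (24 * K ^ 2 * ε ^ 2))
          ≤ K * (((2 * m).factorial : ℝ) ^ 2 * (24 * K ^ 2 * ε ^ 2)) :=
            mul_le_mul_of_nonneg_left (mul_le_mul_of_nonneg_right (hfac _ (by omega)) hE) hK
        _ ≤ η2 := by rw [hη2]; nlinarith)
  rwa [hη] at this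

end

end Crest.Agent.R121.Fin
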