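import Crest.Agent.R121.Fin.Defs

/-!
# Row 121, FIN, LB: the `K`-trace vector and elements of `Ap`
-/

set_option autoImplicit false

namespace Crest.Agent.R121.Fin

section
variable {A : Type*} [CStarAlgebra A]
variable {H : Type*} [NormedAddCommGroup H] [InnerProductSpace ℂ H] [CompleteSpace H]
variable {ϖ : A →⋆ₐ[ℂ] (H →L[ℂ] H)} {p : A} {ξ : H} {K : ℝ}

open scoped InnerProductSpace

/-- `‖ϖ a v‖² = re ⟪ϖ (a⋆ a) v, v⟫` -/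
lemma norm_sq_star_mul (ϖ : A →⋆ₐ[ℂ] (H →L[ℂ] H)) (a : A) (v : H) :
    ‖ϖ a v‖ ^ 2 = (⟪ϖ (star a * a) v, v⟫_ℂ).re := by
  rw [map_mul, map_star, mul_apply_eq_comp, ContinuousLinearMap.star_eq_adjoint,
    ContinuousLinearMap.adjoint_inner_left, inner_self_eq_norm_sq_to_K]
  norm_cast

lemma norm_map_le (ϖ : A →⋆ₐ[ℂ] (H →L[ℂ] H)) (a : A) (v : H) : ‖ϖ a v‖ ≤ ‖a‖ * ‖v‖ :=
  (ϖ a).le_of_opNorm_le (NonUnitalStarAlgHom.norm_apply_le ϖ a) v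

/-- polar trick: for `D p = D` there is `a = a⋆` in the corner with `‖ϖ a v‖ = ‖ϖ D v‖` -/
lemma lb_exists_abs {D : A} (hp : star p = p) (hD : D * p = D) :
    ∃ a : A, star a = a ∧ p * a = a ∧ a * p = a ∧ a * a = star D * D ∧
      ∀ v, ‖ϖ a v‖ = ‖ϖ D v‖ := by
  letI := CStarAlgebra.spectralOrder A
  haveI := CStarAlgebra.spectralOrderedRing A
  set a : A := CFC.sqrt (star D * D) with ha
  have h0 : 0 ≤ star D * D := star_mul_self_nonneg D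
  have h1 : a * a = star D * D := CFC.sqrt_mul_sqrt_self _ h0
  have h2 : star a = a := (CFC.sqrt_nonneg (star D * D)).isSelfAdjoint.star_eq
  have h3 : a * p = a := by
    have h4 : star (a * (1 - p)) * (a * (1 - p)) = 0 := by
      have : star (a * (1 - p)) * (a * (1 - p)) = (1 - p) * (a * a) * (1 - p) := by
        rw [star_mul, star_sub, star_one, hp, h2]; noncomm_ring
      rw [this, h1]
      have h5 : D * (1 - p) = 0 := by rw [mul_sub, mul_one, hD, sub_self]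
      rw [mul_assoc, mul_assoc, h5, mul_zero, mul_zero]
    have h5 : a * (1 - p) = 0 := by
      rwa [CStarRing.star_mul_self_eq_zero_iff] at h4
    rw [mul_sub, mul_one, sub_eq_zero] at h5
    exact h5.symm
  refine ⟨a, h2, ?_, h3, h1, fun v => ?_⟩
  · have := congrArg star h3
    rwa [star_mul, hp, h2] at this
  · have h6 : ‖ϖ a v‖ ^ 2 = ‖ϖ D v‖ ^ 2 := by
      rw [norm_sq_star_mul, norm_sq_star_mul, h2, h1]
    exact (pow_left_inj₀ (norm_nonneg _) (norm_nonneg _) two_ne_zero).1 h6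

/-- **L0** -/
theorem Cor.right_mul_le (h : Cor ϖ p ξ K) {D x : A} (hD : D * p = D) (hx : p * x = x)
    (hx' : x * p = x) : ‖ϖ (D * x) ξ‖ ^ 2 ≤ K * ‖x‖ ^ 2 * ‖ϖ D ξ‖ ^ 2 := by
  obtain ⟨a, ha, hpa, hap, -, hn⟩ := lb_exists_abs (ϖ := ϖ) h.star_p hD
  have h1 : ‖ϖ (D * x) ξ‖ = ‖ϖ (a * x) ξ‖ := by
    rw [map_mul, map_mul, mul_apply_eq_comp, mul_apply_eq_comp, hn]
  rw [h1]
  refine (h.hK (a * x) (by rw [← mul_assoc, hpa]) (by rw [mul_assoc, hx'])).trans ?_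
  rw [star_mul, ha, map_mul, mul_apply_eq_comp, mul_assoc]
  refine mul_le_mul_of_nonneg_left ?_ h.K0
  have h2 := norm_map_le ϖ (star x) (ϖ a ξ)
  rw [norm_star, hn] at h2
  calc ‖ϖ (star x) (ϖ a ξ)‖ ^ 2 ≤ (‖x‖ * ‖ϖ D ξ‖) ^ 2 :=
        pow_le_pow_left₀ (norm_nonneg _) h2 2
    _ = ‖x‖ ^ 2 * ‖ϖ D ξ‖ ^ 2 := by ring

lemma CU.norm_le_lb {u : A} (hp : star p = p) (hpp : p * p = p) (h : CU p u) : ‖u‖ ≤ 1 := by
  have h1 : ‖p‖ ≤ 1 := by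
    have := CStarRing.norm_star_mul_self (x := p)
    rw [hp, hpp] at this
    nlinarith [norm_nonneg p]
  have h2 : ‖u‖ * ‖u‖ ≤ 1 := by rw [← CStarRing.norm_star_mul_self, h.st_mul]; exact h1
  nlinarith [norm_nonneg u]

/-- right multiplication by a corner unitary costs at most `K` -/
theorem Cor.unitary_le (h : Cor ϖ p ξ K) {D u : A} (hD : D * p = D) (hu : CU p u) :
    ‖ϖ (D * u) ξ‖ ^ 2 ≤ K * ‖ϖ D ξ‖ ^ 2 := by
  refine (h.right_mul_le hD hu.left hu.right).trans ?_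
  have h1 : ‖u‖ ^ 2 ≤ 1 := pow_le_one₀ (norm_nonneg _) (hu.norm_le_lb h.star_p h.p_p)
  have h2 : K * ‖u‖ ^ 2 ≤ K * 1 := mul_le_mul_of_nonneg_left h1 h.K0
  rw [mul_one] at h2
  exact mul_le_mul_of_nonneg_right h2 (sq_nonneg _)

theorem Cor.le_unitary (h : Cor ϖ p ξ K) {D u : A} (hD : D * p = D) (hu : CU p u) :
    ‖ϖ D ξ‖ ^ 2 ≤ K * ‖ϖ (D * u) ξ‖ ^ 2 := by
  have h1 := h.unitary_le (D := D * u) (by rw [mul_assoc, hu.right]) (hu.star' h.star_p)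
  rwa [mul_assoc, hu.mul_st, hD] at h1

variable {n : ℕ} {e : Fin n → Fin n → A}

lemma MU.sum_norm_sq_lb (hm : MU p n e) (v : H) : ∑ i, ‖ϖ (e i i) v‖ ^ 2 ≤ ‖v‖ ^ 2 := by
  have h1 : ∑ i, ‖ϖ (e i i) v‖ ^ 2 = (⟪ϖ p v, v⟫_ℂ).re := by
    rw [← hm.sum, map_sum, _root_.sum_apply, sum_inner, Complex.re_sum]
    refine Finset.sum_congr rfl fun i _ => ?_
    rw [norm_sq_star_mul, hm.st, hm.mul, if_pos rfl]
  rw [h1]
  have h2 : (⟪ϖ p v, v⟫_ℂ).re = ‖ϖ p v‖ ^ 2 := by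
    rw [norm_sq_star_mul, hm.star_p, hm.p_p]
  have h3 : (⟪ϖ p v, v⟫_ℂ).re ≤ ‖ϖ p v‖ * ‖v‖ :=
    (Complex.re_le_norm _).trans (norm_inner_le_norm _ _)
  rw [h2] at h3 ⊢
  nlinarith [norm_nonneg (ϖ p v), norm_nonneg v, sq_nonneg (‖ϖ p v‖ - ‖v‖)]

lemma MU.norm_eq (hm : MU p n e) (i j : Fin n) (v : H) : ‖ϖ (e i j) v‖ = ‖ϖ (e j j) v‖ := by
  have h6 : ‖ϖ (e i j) v‖ ^ 2 = ‖ϖ (e j j) v‖ ^ 2 := by
    rw [norm_sq_star_mul, norm_sq_star_mul, hm.st, hm.st, hm.mul, hm.mul, if_pos rfl, if_pos rfl]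
  exact (pow_left_inj₀ (norm_nonneg _) (norm_nonneg _) two_ne_zero).1 h6

/-- **L1** -/
theorem Cor.sum_row_le (h : Cor ϖ p ξ K) (hm : MU p n e) {D : A} (hD : D * p = D) (j : Fin n) :
    ∑ i, ‖ϖ (D * e i j) ξ‖ ^ 2 ≤ K * ‖ϖ D ξ‖ ^ 2 := by
  obtain ⟨a, ha, hpa, hap, -, hn⟩ := lb_exists_abs (ϖ := ϖ) h.star_p hD
  have h1 : ∀ i, ‖ϖ (D * e i j) ξ‖ ^ 2 ≤ K * ‖ϖ (e i i) (ϖ a ξ)‖ ^ 2 := by
    intro i
    have h2 : ‖ϖ (D * e i j) ξ‖ = ‖ϖ (a * e i j) ξ‖ := by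
      rw [map_mul, map_mul, mul_apply_eq_comp, mul_apply_eq_comp, hn]
    rw [h2]
    refine (h.hK (a * e i j) (by rw [← mul_assoc, hpa]) (by rw [mul_assoc, hm.right])).trans ?_
    rw [star_mul, ha, hm.st, map_mul, mul_apply_eq_comp, hm.norm_eq]
  calc ∑ i, ‖ϖ (D * e i j) ξ‖ ^ 2 ≤ ∑ i, K * ‖ϖ (e i i) (ϖ a ξ)‖ ^ 2 :=
        Finset.sum_le_sum fun i _ => h1 i
    _ = K * ∑ i, ‖ϖ (e i i) (ϖ a ξ)‖ ^ 2 := by rw [Finset.mul_sum]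
    _ ≤ K * ‖ϖ a ξ‖ ^ 2 := mul_le_mul_of_nonneg_left (hm.sum_norm_sq_lb _) h.K0
    _ = K * ‖ϖ D ξ‖ ^ 2 := by rw [hn]

end

end Crest.Agent.R121.Fin
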