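import Mathlib

/-!
# Row 121, block FIN: iterated averages of functions of a path
-/

set_option autoImplicit false

namespace Crest.Agent.R121.Fin

open Finset Function

section
variable {X : Type*} [Fintype X]

/-- average over the `k`-th coordinate -/
noncomputable def avg (w : X → ℝ) (k : ℕ) (F : (ℕ → X) → ℝ) (τ : ℕ → X) : ℝ :=
  ∑ x, w x * F (update τ k x)

/-- average over the coordinates `< n` -/
noncomputable def ex (w : X → ℝ) : ℕ → ((ℕ → X) → ℝ) → (ℕ → X) → ℝ
  | 0, F => F
  | n + 1, F => ex w n (avg w n F)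

variable {w : X → ℝ}

theorem avg_add (k : ℕ) (F G : (ℕ → X) → ℝ) :
    avg w k (fun τ => F τ + G τ) = fun τ => avg w k F τ + avg w k G τ := by
  ext τ
  simp [avg, mul_add, sum_add_distrib]

theorem avg_const_mul (k : ℕ) (c : ℝ) (F : (ℕ → X) → ℝ) :
    avg w k (fun τ => c * F τ) = fun τ => c * avg w k F τ := by
  ext τ
  simp only [avg, mul_sum]
  exact sum_congr rfl fun x _ => by ring

theorem avg_mono (hw : ∀ x, 0 ≤ w x) (k : ℕ) {F G : (ℕ → X) → ℝ} (h : ∀ τ, F τ ≤ G τ) (τ : ℕ → X) :
    avg w k F τ ≤ avg w k G τ :=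
  sum_le_sum fun x _ => mul_le_mul_of_nonneg_left (h _) (hw x)

theorem avg_idem (hw1 : ∑ x, w x = 1) (k : ℕ) (F : (ℕ → X) → ℝ) :
    avg w k (avg w k F) = avg w k F := by
  ext τ
  have h1 : ∀ x, avg w k F (update τ k x) = avg w k F τ := by
    intro x
    simp [avg, update_idem]
  conv_lhs => rw [avg]
  simp only [h1]
  rw [← sum_mul, hw1, one_mul]

theorem avg_comm {k l : ℕ} (hkl : k ≠ l) (F : (ℕ → X) → ℝ) :
    avg w k (avg w l F) = avg w l (avg w k F) := by
  ext τ
  simp only [avg, mul_sum]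
  rw [sum_comm]
  refine sum_congr rfl fun x _ => sum_congr rfl fun x' _ => ?_
  rw [update_comm hkl]
  ring

theorem ex_add (n : ℕ) (F G : (ℕ → X) → ℝ) :
    ex w n (fun τ => F τ + G τ) = fun τ => ex w n F τ + ex w n G τ := by
  induction n generalizing F G with
  | zero => rfl
  | succ n ih =>
    rw [ex, avg_add, ih]
    rfl

theorem ex_const_mul (n : ℕ) (c : ℝ) (F : (ℕ → X) → ℝ) :
    ex w n (fun τ => c * F τ) = fun τ => c * ex w n F τ := by
  induction n generalizing F with
  | zero => rfl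
  | succ n ih =>
    rw [ex, avg_const_mul, ih]
    rfl

theorem ex_zero (n : ℕ) (τ : ℕ → X) : ex w n (fun _ => 0) τ = 0 := by
  have := congrFun (ex_const_mul (w := w) n 0 (fun _ => 0)) τ
  simpa using this

theorem ex_sum {ι : Type*} (s : Finset ι) (n : ℕ) (F : ι → (ℕ → X) → ℝ) (τ : ℕ → X) :
    ex w n (fun τ => ∑ i ∈ s, F i τ) τ = ∑ i ∈ s, ex w n (F i) τ := by
  classical
  induction s using Finset.induction_on with
  | empty => simp [ex_zero]
  | insert a s ha ih =>
    simp only [sum_insert ha]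
    rw [ex_add]
    simp only
    rw [ih]

theorem ex_mono (hw : ∀ x, 0 ≤ w x) (n : ℕ) {F G : (ℕ → X) → ℝ} (h : ∀ τ, F τ ≤ G τ)
    (τ : ℕ → X) : ex w n F τ ≤ ex w n G τ := by
  induction n generalizing F G with
  | zero => exact h τ
  | succ n ih => exact ih (avg_mono hw n h)

theorem ex_const (hw1 : ∑ x, w x = 1) (n : ℕ) (c : ℝ) (τ : ℕ → X) :
    ex w n (fun _ => c) τ = c := by
  induction n with
  | zero => rfl
  | succ n ih =>
    have : avg w n (fun _ : ℕ → X => c) = fun _ => c := by
      ext τ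
      simp only [avg]
      rw [← sum_mul, hw1, one_mul]
    rw [ex, this, ih]

theorem ex_avg (hw1 : ∑ x, w x = 1) {n k : ℕ} (hk : k < n) (F : (ℕ → X) → ℝ) :
    ex w n (avg w k F) = ex w n F := by
  induction n generalizing F with
  | zero => exact absurd hk (Nat.not_lt_zero _)
  | succ n ih =>
    rw [ex, ex]
    rcases Nat.lt_succ_iff_lt_or_eq.1 hk with h | h
    · rw [avg_comm (Nat.ne_of_gt h), ih h]
    · subst h
      rw [avg_idem hw1]

/-- two functions with the same average over one coordinate have the same expectation -/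
theorem ex_congr (hw1 : ∑ x, w x = 1) {n k : ℕ} (hk : k < n) {F G : (ℕ → X) → ℝ}
    (h : ∀ τ, avg w k F τ = avg w k G τ) (τ : ℕ → X) : ex w n F τ = ex w n G τ := by
  rw [← ex_avg hw1 hk F, ← ex_avg hw1 hk G]
  have h' : avg w k F = avg w k G := funext h
  rw [h']

/-- expectation of a function of one coordinate -/
theorem ex_coord (hw1 : ∑ x, w x = 1) {n k : ℕ} (hk : k < n) (F : X → ℝ) (τ : ℕ → X) :
    ex w n (fun τ => F (τ k)) τ = ∑ x, w x * F x := by
  have h : ∀ τ, avg w k (fun τ => F (τ k)) τ = avg w k (fun _ => ∑ x, w x * F x) τ := by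
    intro τ
    simp only [avg, update_self]
    rw [← sum_mul, hw1, one_mul]
  rw [ex_congr hw1 hk h, ex_const hw1]

/-- if the average over one coordinate vanishes, so does the expectation -/
theorem ex_eq_zero (hw1 : ∑ x, w x = 1) {n k : ℕ} (hk : k < n) {F : (ℕ → X) → ℝ}
    (h : ∀ τ, avg w k F τ = 0) (τ : ℕ → X) : ex w n F τ = 0 := by
  rw [← ex_avg hw1 hk F]
  have : avg w k F = fun _ => 0 := funext h
  rw [this, ex_zero]

/-- odd functions have vanishing expectation -/
theorem ex_odd (hw1 : ∑ x, w x = 1) {neg : X → X} (hn : Involutive neg)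
    (hwn : ∀ x, w (neg x) = w x) {n k : ℕ} (hk : k < n) {F : (ℕ → X) → ℝ}
    (h : ∀ τ, F (update τ k (neg (τ k))) = - F τ) (τ : ℕ → X) : ex w n F τ = 0 := by
  refine ex_eq_zero hw1 hk (fun τ => ?_) τ
  have h1 : avg w k F τ = - avg w k F τ := by
    conv_lhs => rw [avg]
    rw [← Equiv.sum_comp (hn.toPerm neg)]
    rw [avg, ← sum_neg_distrib]
    refine sum_congr rfl fun x _ => ?_
    have h2 := h (update τ k x)
    rw [update_self, update_idem] at h2
    simp only [Involutive.coe_toPerm]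
    rw [hwn, h2]
    ring
  linarith

end

end Crest.Agent.R121.Fin
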