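import Crest.Agent.R121.Fin.Defs
import Crest.Agent.R121.Fin.Hilbert
import Crest.Agent.R121.Fin.Path

/-!
# Row 121, block FIN, module LA, part 1: the random walk in the commutant of matrix units
-/

set_option autoImplicit false

namespace Crest.Agent.R121.Fin

open Finset Function Real
open scoped InnerProductSpace

section
variable {A : Type*} [CStarAlgebra A]
variable {H : Type*} [NormedAddCommGroup H] [InnerProductSpace ℂ H] [CompleteSpace H]

/-- orthogonal sums -/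
theorem norm_sq_sum {ι : Type*} (s : Finset ι) (a : ι → H)
    (h : ∀ i ∈ s, ∀ j ∈ s, i ≠ j → ⟪a i, a j⟫_ℂ = 0) :
    ‖∑ i ∈ s, a i‖ ^ 2 = ∑ i ∈ s, ‖a i‖ ^ 2 := by
  have h1 : ((‖∑ i ∈ s, a i‖ ^ 2 : ℝ) : ℂ) = ((∑ i ∈ s, ‖a i‖ ^ 2 : ℝ) : ℂ) := by
    have e1 : ((‖∑ i ∈ s, a i‖ ^ 2 : ℝ) : ℂ) = ⟪∑ i ∈ s, a i, ∑ i ∈ s, a i⟫_ℂ := by
      rw [inner_self_eq_norm_sq_to_K]; norm_cast
    rw [e1, sum_inner]
    push_cast
    refine sum_congr rfl fun i hi => ?_
    rw [inner_sum, sum_eq_single i]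
    · rw [inner_self_eq_norm_sq_to_K]; norm_cast
    · intro j hj hji
      exact h i hi j hj (Ne.symm hji)
    · intro hi'
      exact absurd hi hi'
  exact_mod_cast h1

variable {p : A}

theorem norm_le_one_of_proj (hp : star p = p) (hpp : p * p = p) : ‖p‖ ≤ 1 := by
  have h : ‖p‖ * ‖p‖ = ‖p‖ := by
    rw [← CStarRing.norm_star_mul_self, hp, hpp]
  nlinarith [norm_nonneg p]

theorem CU.norm_le {u : A} (hp : star p = p) (hpp : p * p = p) (hu : CU p u) : ‖u‖ ≤ 1 := by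
  have h : ‖u‖ * ‖u‖ = ‖p‖ := by
    rw [← CStarRing.norm_star_mul_self, hu.st_mul]
  nlinarith [norm_nonneg u, norm_le_one_of_proj hp hpp]

variable {n : ℕ} {e : Fin n → Fin n → A}

theorem MU.norm_le (he : MU p n e) (i j : Fin n) : ‖e i j‖ ≤ 1 := by
  have h1 : ‖e j j‖ ≤ 1 := norm_le_one_of_proj (he.st j j) (by rw [he.mul, if_pos rfl])
  have h : ‖e i j‖ * ‖e i j‖ = ‖e j j‖ := by
    rw [← CStarRing.norm_star_mul_self, he.st, he.mul, if_pos rfl]
  nlinarith [norm_nonneg (e i j)]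

variable (ϖ : A →⋆ₐ[ℂ] (H →L[ℂ] H))

theorem norm_rep_le (hϖ : ∀ x, ‖ϖ x‖ = ‖x‖) (x : A) (v : H) : ‖ϖ x v‖ ≤ ‖x‖ * ‖v‖ := by
  rw [← hϖ x]
  exact (ϖ x).le_opNorm v

theorem inner_rep_left (x : A) (v w : H) : ⟪ϖ x v, w⟫_ℂ = ⟪v, ϖ (star x) w⟫_ℂ := by
  rw [map_star, ContinuousLinearMap.star_eq_adjoint, ContinuousLinearMap.adjoint_inner_right]

theorem norm_sq_rep (x : A) (v : H) : ‖ϖ x v‖ ^ 2 = (⟪v, ϖ (star x * x) v⟫_ℂ).re := by
  rw [map_mul, mul_apply_eq_comp, ← inner_rep_left]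
  rw [← inner_self_eq_norm_sq (𝕜 := ℂ)]
  rfl

theorem norm_rep_eq (x y : A) (h : star x * x = star y * y) (v : H) : ‖ϖ x v‖ = ‖ϖ y v‖ := by
  have : ‖ϖ x v‖ ^ 2 = ‖ϖ y v‖ ^ 2 := by rw [norm_sq_rep, norm_sq_rep, h]
  exact (sq_eq_sq₀ (norm_nonneg _) (norm_nonneg _)).1 this

variable {X : Type*} (t : X → A)

/-- the position of the walk -/
def wk (p : A) (τ : ℕ → X) : ℕ → A
  | 0 => p
  | i + 1 => wk p τ i * t (τ i)

variable {t}

theorem wk_update {τ : ℕ → X} {k i : ℕ} (x : X) (h : i ≤ k) :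
    wk t p (update τ k x) i = wk t p τ i := by
  induction i with
  | zero => rfl
  | succ i ih =>
    rw [wk, wk, ih (by omega), update_of_ne (by omega)]

theorem wk_update_succ {τ : ℕ → X} {k : ℕ} (x : X) :
    wk t p (update τ k x) (k + 1) = wk t p τ k * t x := by
  rw [wk, wk_update x le_rfl, update_self]

theorem wk_CU (hp : star p = p) (hpp : p * p = p) (ht : ∀ x, CU p (t x)) (τ : ℕ → X) (i : ℕ) :
    CU p (wk t p τ i) := by
  induction i with
  | zero => exact CU.one' hp hpp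
  | succ i ih => exact ih.mul' (ht _)

theorem wk_comm (he : MU p n e) (htc : ∀ x i j, t x * e i j = e i j * t x) (τ : ℕ → X) (k : ℕ)
    (i j : Fin n) : wk t p τ k * e i j = e i j * wk t p τ k := by
  induction k with
  | zero => rw [wk, he.left, he.right]
  | succ k ih => rw [wk, mul_assoc, htc, ← mul_assoc, ih, mul_assoc]

theorem star_comm (he : MU p n e) {u : A} (h : ∀ i j, u * e i j = e i j * u) (i j : Fin n) :
    star u * e i j = e i j * star u := by
  have := congrArg star (h j i)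
  rw [star_mul, star_mul, he.st] at this
  exact this.symm

theorem wk_neg {neg : X → X} (htn : ∀ x, t (neg x) = - t x) {τ : ℕ → X} {k : ℕ} (i : ℕ)
    (h : k < i) : wk t p (update τ k (neg (τ k))) i = - wk t p τ i := by
  induction i with
  | zero => exact absurd h (Nat.not_lt_zero _)
  | succ i ih =>
    rw [wk, wk]
    rcases Nat.lt_succ_iff_lt_or_eq.1 h with h | h
    · rw [ih h, update_of_ne (by omega), neg_mul]
    · subst h
      rw [wk_update _ le_rfl, update_self, htn, mul_neg]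

end

end Crest.Agent.R121.Fin
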